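import Vale.Agent.P141.H530.CosetQ

/-!
# P141, bottom of the chain with a vector of exponents: trees, regions, cosets

`RootV q n P` is the root estimate with one exponent `q j` for each of the four functions.
-/

namespace Vale.Agent.N141

open Finset MeasureTheory
open scoped ENNReal
open Vale.Agent.P141.H530
open Vale.Agent.P141.PL.H571 (W mem_cell card_cell)
open Vale.Agent.P141.PL.H620 (loc1 nn HH sg pts uu mo tr loc1_nn HH_tr tr_supp HH_supp res_sum_pow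
  eight sm)
open Vale.Agent.P141.PL.H855 (wN Bel ediv_pow_add)

noncomputable section

/-- **ROOT ESTIMATE, one exponent for each function**: nodes below the root `(K, V)`, closed under
ancestors, window `L^(q j)` averages of `f j` at most `1` on all the nodes -/
def RootV (q : Fin 4 → ℝ) (n : ℕ) (P : ℝ) : Prop :=
  ∀ f : Fin 4 → ℤ → ℝ, (∀ j, (Function.support (f j)).Finite) → ∀ o : ℤ, (o = 1 ∨ o = -1) →
    ∀ K ≤ n, ∀ V : ℤ, ∀ 𝒩 : Finset (ℕ × ℤ),
    (∀ N ∈ 𝒩, 1 ≤ N.1 ∧ N.1 ≤ K ∧ N.2 / 2 ^ (K - N.1) = V) →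
    (∀ N ∈ 𝒩, ∀ k', N.1 ≤ k' → k' ≤ K → (k', N.2 / 2 ^ (k' - N.1)) ∈ 𝒩) →
    (∀ N ∈ 𝒩, ∀ j, ∑ y ∈ W N.1 N.2, |f j y| ^ q j ≤ 2 ^ (N.1 + 5)) →
    ∑ N ∈ 𝒩, ((4 : ℝ) ^ N.1)⁻¹ * |loc1 N.1 (nn o N.2 0 0) f| ≤ P * 2 ^ K

theorem rootV_of_rootQ {q : ℝ} {n : ℕ} {P : ℝ} (h : Vale.Agent.P141.H337.RootQ q n P) :
    RootV (fun _ => q) n P := h

/-- **the root estimate on a convex family of nodes** -/
theorem treeV {q : Fin 4 → ℝ} {P : ℝ} (hP : 0 ≤ P) (H : ∀ n, RootV q n P) {o : ℤ}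
    (ho : o = 1 ∨ o = -1)
    {g : Fin 4 → ℤ → ℝ} (hg : ∀ j, (Function.support (g j)).Finite) {l : Fin 4 → ℝ}
    (hl : ∀ j, 0 < l j) (𝒩 : Finset (ℕ × ℤ))
    (h1 : ∀ N ∈ 𝒩, 1 ≤ N.1)
    (conv : ∀ N ∈ 𝒩, ∀ k k' : ℕ, N.1 ≤ k → k ≤ k' → anc N k' ∈ 𝒩 → anc N k ∈ 𝒩)
    (win : ∀ N ∈ 𝒩, ∀ j, ∑ y ∈ W N.1 N.2, |g j y| ^ q j ≤ 2 ^ (N.1 + 5) * l j ^ q j) :
    ∑ N ∈ 𝒩, |wN o g N| ≤ P * (∏ j, l j) * ((𝒩.biUnion cell).card : ℝ) := by
  classical
  have hL : 0 < ∏ j, l j := prod_pos fun j _ => hl j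
  -- one root
  have hone : ∀ ρ ∈ roots 𝒩, ∑ N ∈ 𝒩.filter (fun N => Bel N ρ), |wN o g N| ≤
      P * (∏ j, l j) * 2 ^ ρ.1 := by
    intro ρ hρ
    have hρ1 := (mem_roots.1 hρ).1
    set g' : Fin 4 → ℤ → ℝ := fun j x => (l j)⁻¹ * g j x with hg'
    have h2 := H ρ.1 g' (fun j => (hg j).subset fun x hx => by
        intro h0
        exact hx (by simp only [hg', h0, mul_zero])) o ho ρ.1 le_rfl ρ.2
      (𝒩.filter fun N => Bel N ρ)
      (fun N hN => by
        obtain ⟨h2, h3⟩ := mem_filter.1 hN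
        exact ⟨h1 N h2, h3.1, h3.2⟩)
      (fun N hN k' h2 h3 => by
        obtain ⟨h4, h5⟩ := mem_filter.1 hN
        have h6 : anc N ρ.1 = ρ := by
          unfold anc
          rw [h5.2]
        refine mem_filter.2 ⟨conv N h4 k' ρ.1 h2 h3 (by rw [h6]; exact hρ1), h3, ?_⟩
        show N.2 / 2 ^ (k' - N.1) / 2 ^ (ρ.1 - k') = ρ.2
        rw [← ediv_pow_add, ← h5.2]
        congr 2
        omega)
      (fun N hN j => by
        have h2 := win N (mem_filter.1 hN).1 j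
        have hlq : 0 < l j ^ q j := Real.rpow_pos_of_pos (hl j) (q j)
        have e : ∀ y, |g' j y| ^ q j = (l j ^ q j)⁻¹ * |g j y| ^ q j := by
          intro y
          simp only [hg']
          rw [abs_mul, abs_of_pos (inv_pos.2 (hl j)), Real.mul_rpow (inv_pos.2 (hl j)).le
            (abs_nonneg _), Real.inv_rpow (hl j).le]
        simp only [e]
        rw [← mul_sum, inv_mul_le_iff₀ hlq]
        linarith)
    have h3 : ∀ N, |wN o g' N| = (∏ j, l j)⁻¹ * |wN o g N| := by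
      intro N
      rw [hg', wN_smul, abs_mul, prod_inv_distrib, abs_of_pos (inv_pos.2 hL)]
    simp only [← abs_wN, h3] at h2
    rw [← mul_sum, inv_mul_le_iff₀ hL] at h2
    linarith
  have hsum : ∑ N ∈ 𝒩, |wN o g N| ≤ ∑ ρ ∈ roots 𝒩, ∑ N ∈ 𝒩.filter (fun N => Bel N ρ),
      |wN o g N| := by
    have h2 : ∀ N ∈ 𝒩, |wN o g N| ≤ ∑ ρ ∈ roots 𝒩, (if Bel N ρ then |wN o g N| else 0) := by
      intro N hN
      obtain ⟨ρ, hρ, h3, h4⟩ := exists_root hN
      have h5 : Bel N ρ := ⟨h3, by rw [← h4]; rfl⟩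
      refine le_trans (le_of_eq ?_) (single_le_sum (f := fun ρ => if Bel N ρ then |wN o g N|
        else 0) (fun ρ _ => by split_ifs <;> simp) hρ)
      simp only [if_pos h5]
    refine (sum_le_sum h2).trans ?_
    rw [sum_comm]
    refine sum_le_sum fun ρ _ => le_of_eq ?_
    rw [sum_filter]
  refine hsum.trans ((sum_le_sum hone).trans ?_)
  rw [← mul_sum]
  refine mul_le_mul_of_nonneg_left ?_ (by positivity)
  have h3 : ∑ ρ ∈ roots 𝒩, (2 : ℝ) ^ ρ.1 = (((roots 𝒩).biUnion cell).card : ℝ) := by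
    rw [card_biUnion fun x hx y hy hne => roots_disj hx hy hne]
    push_cast
    refine sum_congr rfl fun ρ _ => ?_
    unfold cell
    rw [card_cell]
    push_cast
    rfl
  rw [h3]
  exact_mod_cast card_le_card (biUnion_subset_biUnion_of_subset_left cell fun N hN =>
    (mem_roots.1 hN).1)

/-- **the root estimate on a convex region** -/
theorem disc_RV {q : Fin 4 → ℝ} {P : ℝ} (hP : 0 ≤ P) (H : ∀ n, RootV q n P) {o : ℤ}
    (ho : o = 1 ∨ o = -1)
    {g : Fin 4 → ℤ → ℝ} (hg : ∀ j, (Function.support (g j)).Finite) {l : Fin 4 → ℝ}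
    (hl : ∀ j, 0 < l j) (K : ℕ) (R : ℕ → ℤ → Prop) [∀ k m, Decidable (R k m)]
    (hRk : ∀ k m, R k m → 1 ≤ k ∧ k ≤ K)
    (conv : ∀ (k k' k'' : ℕ) (m m' m'' : ℤ), k ≤ k' → k' ≤ k'' → m' ≤ m →
      m + 2 ^ k ≤ m' + 2 ^ k' → m'' ≤ m' → m' + 2 ^ k' ≤ m'' + 2 ^ k'' → R k m → R k'' m'' →
      R k' m')
    (win : ∀ k m, R k m → ∀ j, ∑ y ∈ Ico (m - 16 * 2 ^ k) (m + 16 * 2 ^ k), |g j y| ^ q j ≤
      2 ^ (k + 5) * l j ^ q j)
    (D : ℤ → Prop) (hD : ∀ k m, R k m → ∀ n, m ≤ n → n < m + 2 ^ k → D n) :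
    ∃ Z : Finset ℤ, (∀ n ∈ Z, D n) ∧ ∑ k ∈ Icc 1 K, ((16 : ℝ) ^ k)⁻¹ *
      ∑' m : ℤ, (if R k m then |HH k o g m| else 0) ≤ P * (∏ j, l j) * (Z.card : ℝ) := by
  classical
  have hL : 0 < ∏ j, l j := prod_pos fun j _ => hl j
  set h : ℕ → ℤ → ℝ := fun k m => if R k m then |HH k o g m| else 0 with hh
  have hhs : ∀ k, (Function.support (h k)).Finite := fun k => by
    refine (HH_supp hg k o).subset fun m hm h0 => hm ?_
    simp only [hh, h0, abs_zero, ite_self]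
  have hh0 : ∀ k m, 0 ≤ h k m := fun k m => by
    simp only [hh]; split_ifs <;> simp
  -- a bound for the supports
  obtain ⟨L, hLb⟩ : ∃ L : ℕ, ∀ k ∈ Icc 1 K, ∀ m, h k m ≠ 0 → |m| ≤ L := by
    have h1 : (⋃ k ∈ (Icc 1 K : Finset ℕ), Function.support (h k)).Finite :=
      Set.Finite.biUnion (Finset.finite_toSet _) fun k _ => hhs k
    obtain ⟨V, hV⟩ := (h1.image fun v : ℤ => v.natAbs).bddAbove
    refine ⟨V, fun k hk m hm => ?_⟩
    have := hV ⟨m, Set.mem_biUnion hk hm, rfl⟩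
    rw [Int.abs_eq_natAbs]
    exact_mod_cast this
  -- the region
  set R' : ℕ → ℤ → Prop := fun k m => R k m ∧ ∃ z, m ≤ z ∧ z < m + 2 ^ k ∧ |z| ≤ (L : ℤ) with hR'
  set Bd : ℤ := L + 2 ^ K with hBd
  have hvb : ∀ (a : ℤ) (k : ℕ) (v : ℤ), 0 ≤ a → a < 2 ^ K → R' k (2 ^ k * v + a) →
      v ∈ Icc (-Bd) Bd := by
    intro a k v ha0 ha1 hr
    obtain ⟨hr1, z, hz1, hz2, hz3⟩ := hr
    have hp : (1 : ℤ) ≤ 2 ^ k := one_le_pow₀ (by norm_num)
    have hK2 : (0 : ℤ) < 2 ^ K := by positivity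
    have h3 := abs_le.1 hz3
    rw [mem_Icc, hBd]
    constructor
    · by_contra hc
      push Not at hc
      have h4 : v + 1 ≤ 0 := by
        have : (0 : ℤ) ≤ L := by positivity
        linarith
      have h5 : 2 ^ k * (v + 1) ≤ 1 * (v + 1) := mul_le_mul_of_nonpos_right hp h4
      have h6 : z < 2 ^ k * (v + 1) + a := by linarith
      linarith
    · by_contra hc
      push Not at hc
      have h4 : 0 ≤ v := by
        have : (0 : ℤ) ≤ L := by positivity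
        linarith
      have h5 : 1 * v ≤ 2 ^ k * v := mul_le_mul_of_nonneg_right hp h4
      linarith
  set 𝒩 : ℤ → Finset (ℕ × ℤ) := fun a => ((Icc 1 K) ×ˢ (Icc (-Bd) Bd)).filter
    fun N => R' N.1 (2 ^ N.1 * N.2 + a) with h𝒩
  have hmem : ∀ a : ℤ, 0 ≤ a → a < 2 ^ K → ∀ N, N ∈ 𝒩 a ↔ R' N.1 (2 ^ N.1 * N.2 + a) := by
    intro a ha0 ha1 N
    simp only [h𝒩, mem_filter, mem_product]
    refine ⟨fun h => h.2, fun h => ⟨⟨?_, hvb a _ _ ha0 ha1 h⟩, h⟩⟩
    have := hRk _ _ h.1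
    exact mem_Icc.2 ⟨by omega, this.2⟩
  -- the intervals
  have hint : ∀ (a : ℤ) (N : ℕ × ℤ) (k : ℕ), N.1 ≤ k →
      2 ^ (anc N k).1 * (anc N k).2 + a ≤ 2 ^ N.1 * N.2 + a ∧
      2 ^ N.1 * N.2 + a + 2 ^ N.1 ≤ 2 ^ (anc N k).1 * (anc N k).2 + a + 2 ^ (anc N k).1 := by
    intro a N k hk
    show 2 ^ k * (N.2 / 2 ^ (k - N.1)) + a ≤ _ ∧
      _ ≤ 2 ^ k * (N.2 / 2 ^ (k - N.1)) + a + 2 ^ k
    have hp : (0 : ℤ) < 2 ^ (k - N.1) := by positivity
    have hq : (0 : ℤ) < 2 ^ N.1 := by positivity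
    have h1 : 2 ^ (k - N.1) * (N.2 / 2 ^ (k - N.1)) ≤ N.2 := Int.mul_ediv_self_le hp.ne'
    have h2 : N.2 < 2 ^ (k - N.1) * (N.2 / 2 ^ (k - N.1)) + 2 ^ (k - N.1) :=
      Int.lt_mul_ediv_self_add hp
    have e : (2 : ℤ) ^ k = 2 ^ N.1 * 2 ^ (k - N.1) := by
      rw [← pow_add]; congr 1; omega
    rw [e]
    set q := N.2 / 2 ^ (k - N.1)
    constructor
    · nlinarith
    · have h3 : N.2 + 1 ≤ 2 ^ (k - N.1) * q + 2 ^ (k - N.1) := h2
      nlinarith
  -- the estimate for one translation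
  have hone : ∀ a ∈ range (2 ^ K), ∑ N ∈ 𝒩 (a : ℤ), |wN o (tr g a) N| ≤
      P * (∏ j, l j) * (((𝒩 (a : ℤ)).biUnion cell).card : ℝ) := by
    intro a ha
    have ha0 : (0 : ℤ) ≤ a := by positivity
    have ha1 : (a : ℤ) < 2 ^ K := by exact_mod_cast mem_range.1 ha
    refine treeV hP H ho (tr_supp hg a) hl _ (fun N hN => ?_) (fun N hN k k' h1 h2 h3 => ?_)
      fun N hN j => ?_
    · exact (hRk _ _ ((hmem a ha0 ha1 N).1 hN).1).1
    · rw [hmem a ha0 ha1] at hN h3 ⊢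
      have i1 := hint a N k h1
      have i2 := hint a (anc N k) k' h2
      rw [anc_anc N h1 h2] at i2
      refine ⟨conv _ _ _ _ _ _ h1 h2 i1.1 i1.2 i2.1 i2.2 hN.1 h3.1, ?_⟩
      obtain ⟨z, hz1, hz2, hz3⟩ := hN.2
      exact ⟨z, i1.1.trans hz1, by linarith [i1.2], hz3⟩
    · rw [hmem a ha0 ha1] at hN
      have h1 := win _ _ hN.1 j
      have e : ∑ y ∈ W N.1 N.2, |tr g a j y| ^ q j =
          ∑ y ∈ Ico (2 ^ N.1 * N.2 + a - 16 * 2 ^ N.1) (2 ^ N.1 * N.2 + a + 16 * 2 ^ N.1),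
            |g j y| ^ q j := by
        unfold W tr
        rw [sum_shift (F := fun y => |g j y| ^ q j)]
        congr 2 <;> ring
      rw [e]
      exact h1
  -- the set
  set Z : Finset ℤ := (range (2 ^ K)).biUnion fun a => ((𝒩 (a : ℤ)).biUnion cell).image
    fun z => z + (a : ℤ) with hZ
  refine ⟨Z, fun n hn => ?_, ?_⟩
  · obtain ⟨a, ha, hn⟩ := mem_biUnion.1 hn
    obtain ⟨z, hz, rfl⟩ := mem_image.1 hn
    obtain ⟨N, hN, hz⟩ := mem_biUnion.1 hz
    have ha0 : (0 : ℤ) ≤ a := by positivity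
    have ha1 : (a : ℤ) < 2 ^ K := by exact_mod_cast mem_range.1 ha
    rw [hmem a ha0 ha1] at hN
    unfold cell at hz
    rw [mem_Ico, mul_add, mul_one] at hz
    exact hD _ _ hN.1 _ (by linarith [hz.1]) (by linarith [hz.2])
  have hcard : ∀ a ∈ range (2 ^ K), (((𝒩 (a : ℤ)).biUnion cell).card : ℝ) ≤ Z.card := by
    intro a ha
    have h1 : (((𝒩 (a : ℤ)).biUnion cell).image fun z => z + (a : ℤ)).card =
        ((𝒩 (a : ℤ)).biUnion cell).card :=
      card_image_of_injective _ fun x y hxy => by simpa using hxy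
    rw [← h1]
    exact_mod_cast card_le_card (subset_biUnion_of_mem
      (fun a : ℕ => ((𝒩 (a : ℤ)).biUnion cell).image fun z => z + (a : ℤ)) ha)
  -- summation over the translations
  have h2 : ∑ a ∈ range (2 ^ K), ∑ N ∈ 𝒩 (a : ℤ), |wN o (tr g a) N| ≤
      2 ^ K * (P * (∏ j, l j) * Z.card) := by
    refine (sum_le_sum fun a ha => (hone a ha).trans (mul_le_mul_of_nonneg_left (hcard a ha)
      (by positivity))).trans (le_of_eq ?_)
    rw [sum_const, card_range, nsmul_eq_mul]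
    push_cast
    ring
  have h3 : ∀ a ∈ range (2 ^ K), ∑ N ∈ 𝒩 (a : ℤ), |wN o (tr g a) N| =
      ∑ k ∈ Icc 1 K, ((8 : ℝ) ^ k)⁻¹ * ∑' v : ℤ, h k (2 ^ k * v + a) := by
    intro a ha
    have ha0 : (0 : ℤ) ≤ a := by positivity
    have ha1 : (a : ℤ) < 2 ^ K := by exact_mod_cast mem_range.1 ha
    simp only [h𝒩]
    rw [sum_filter, sum_product]
    refine sum_congr rfl fun k hk => ?_
    rw [tsum_eq_sum (s := Icc (-Bd) Bd), mul_sum]
    · refine sum_congr rfl fun v _ => ?_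
      by_cases hr : R' k (2 ^ k * v + a)
      · rw [if_pos hr, wN_tr, abs_mul, abs_of_pos (by positivity : (0 : ℝ) < ((8 : ℝ) ^ k)⁻¹)]
        simp only [hh, if_pos hr.1]
      · rw [if_neg hr]
        have h0 : h k (2 ^ k * v + a) = 0 := by
          by_contra hne
          apply hr
          have hr1 : R k (2 ^ k * v + a) := by
            by_contra hc
            exact hne (by simp only [hh, if_neg hc])
          exact ⟨hr1, _, le_rfl, by
            have : (0 : ℤ) < 2 ^ k := by positivity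
            linarith, hLb k hk _ hne⟩
        rw [h0, mul_zero]
    · intro v hv
      by_contra hne
      apply hv
      refine hvb a k v ha0 ha1 ?_
      have hr1 : R k (2 ^ k * v + a) := by
        by_contra hc
        exact hne (by simp only [hh, if_neg hc])
      exact ⟨hr1, _, le_rfl, by
        have : (0 : ℤ) < 2 ^ k := by positivity
        linarith, hLb k hk _ hne⟩
  rw [sum_congr rfl h3, sum_comm] at h2
  have h4 : ∀ k ∈ Icc 1 K, ∑ a ∈ range (2 ^ K), ((8 : ℝ) ^ k)⁻¹ * ∑' v : ℤ, h k (2 ^ k * v + a) =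
      2 ^ K * (((16 : ℝ) ^ k)⁻¹ * ∑' m, h k m) := by
    intro k hk
    obtain ⟨m, rfl⟩ := Nat.exists_eq_add_of_le (mem_Icc.1 hk).2
    rw [← mul_sum, res_sum_pow (hhs k) k m]
    have h16 : (16 : ℝ) ^ k = 2 ^ k * 8 ^ k := by rw [← mul_pow]; norm_num
    rw [h16, pow_add]
    field_simp
  rw [sum_congr rfl h4, ← mul_sum] at h2
  exact le_of_mul_le_mul_left h2 (by positivity)

/-- the window sums of the samples -/
def WinV (q : Fin 4 → ℝ) (f : Fin 4 → ℝ → ℝ) (h : ℝ) (l : Fin 4 → ℝ) (R : ℕ → ℝ → Prop) : Prop :=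
  ∀ k X, R k X → ∀ j, ∑ y ∈ Ico (-(16 * 2 ^ k) : ℤ) (16 * 2 ^ k), |f j (X + h * y)| ^ q j ≤
    2 ^ (k + 5) * l j ^ q j

/-- **the estimate on one coset** -/
theorem cosetV {q : Fin 4 → ℝ} (hq : ∀ j, 0 < q j) {P : ℝ} (hP : 0 ≤ P) (H : ∀ n, RootV q n P)
    {o : ℤ} (ho : o = 1 ∨ o = -1)
    {f : Fin 4 → ℝ → ℝ} (hf : ∀ j, ∃ M : ℝ, ∀ x, M < |x| → f j x = 0) {h : ℝ} (hh : 0 < h)
    {l : Fin 4 → ℝ} (hl : ∀ j, 0 < l j) {k0 K : ℕ} (hk0 : 1 ≤ k0)
    (R : ℕ → ℝ → Prop) [∀ k X, Decidable (R k X)] (hc : Conv h R) (hw : WinV q f h l R)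
    {D : Set ℝ} (hD : ∀ k ∈ Icc k0 K, ∀ X, R k X → ∀ x, X ≤ x → x ≤ X + h * 2 ^ k → x ∈ D) (x0 : ℝ)
    (E : Finset ℤ) :
    ∃ Z : Finset ℤ, (∀ n ∈ Z, x0 + h * n ∈ D) ∧
      ∑ n ∈ E, |f 0 (x0 + h * n) * Fop f o h k0 K R (x0 + h * n)| ≤
        P * (∏ j, l j) * (Z.card : ℝ) := by
  classical
  set F : ℤ → ℝ := fun n => Fop f o h k0 K R (x0 + h * n) with hF
  set s : ℤ → ℝ := fun n => if n ∈ E then
    (if 0 ≤ f 0 (x0 + h * n) * F n then f 0 (x0 + h * n) else -f 0 (x0 + h * n)) else 0 with hs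
  have hs1 : ∀ n : ℤ, |s n| ≤ |f 0 (x0 + h * n)| := by
    intro n
    simp only [hs]
    split_ifs <;> simp
  have hsE : ∀ n, n ∉ E → s n = 0 := fun n hn => by simp only [hs, if_neg hn]
  set g : Fin 4 → ℤ → ℝ := fun j n => if j = 0 then s n else f j (x0 + h * n) with hg
  have hgs : ∀ j, (Function.support (g j)).Finite := by
    intro j
    by_cases hj : j = 0
    · refine (Finset.finite_toSet E).subset fun n hn => ?_
      by_contra hc'
      exact hn (by simp only [hg, if_pos hj]; exact hsE n hc')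
    · obtain ⟨M, hM⟩ := hf j
      obtain ⟨L, hL⟩ := exists_nat_ge ((|M| + |x0|) / h)
      refine (Finset.finite_toSet (Icc (-(L : ℤ)) L)).subset fun n hn => ?_
      by_contra hc'
      apply hn
      simp only [hg, if_neg hj]
      refine hM _ ?_
      have h1 : (L : ℝ) < |(n : ℝ)| := by
        rw [coe_Icc, Set.mem_Icc, not_and_or, not_le, not_le] at hc'
        rw [lt_abs]
        rcases hc' with h2 | h2
        · right
          have : (n : ℝ) < -L := by exact_mod_cast h2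
          linarith
        · left
          exact_mod_cast h2
      rw [div_le_iff₀ hh] at hL
      have h2 := abs_sub_abs_le_abs_sub (h * (n : ℝ)) (-x0)
      rw [abs_mul, abs_of_pos hh, abs_neg, sub_neg_eq_add, add_comm (h * (n : ℝ)) x0] at h2
      have h3 := mul_lt_mul_of_pos_left h1 hh
      have h4 := le_abs_self M
      nlinarith
  -- the region on the integers
  set R' : ℕ → ℤ → Prop := fun k m => k ∈ Icc k0 K ∧ R k (x0 + h * m) with hR'
  have hcast : ∀ (m : ℤ) (k : ℕ), x0 + h * ((m : ℝ) + 2 ^ k) = x0 + h * m + h * 2 ^ k := by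
    intro m k; ring
  obtain ⟨Z, hZ, hle⟩ : ∃ Z : Finset ℤ, (∀ n ∈ Z, x0 + h * n ∈ D) ∧
      ∑ k ∈ Icc 1 K, ((16 : ℝ) ^ k)⁻¹ * ∑' m : ℤ, (if R' k m then |HH k o g m| else 0) ≤
        P * (∏ j, l j) * (Z.card : ℝ) := by
    refine disc_RV hP H ho hgs hl K R' (fun k m hr => ?_)
      (fun k k' k'' m m' m'' h1 h2 h3 h4 h5 h6 hr hr'' => ?_) (fun k m hr j => ?_)
      (fun n => x0 + h * n ∈ D) (fun k m hr n h1 h2 => ?_)
    · have h1 := mem_Icc.1 hr.1
      exact ⟨by omega, h1.2⟩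
    · refine ⟨mem_Icc.2 ⟨(mem_Icc.1 hr.1).1.trans h1, h2.trans (mem_Icc.1 hr''.1).2⟩, ?_⟩
      have c1 : (m' : ℝ) ≤ m := by exact_mod_cast h3
      have c2 : (m : ℝ) + 2 ^ k ≤ m' + 2 ^ k' := by exact_mod_cast h4
      have c3 : (m'' : ℝ) ≤ m' := by exact_mod_cast h5
      have c4 : (m' : ℝ) + 2 ^ k' ≤ m'' + 2 ^ k'' := by exact_mod_cast h6
      refine hc k k' k'' _ _ _ h1 h2 ?_ ?_ ?_ ?_ hr.2 hr''.2
      · nlinarith
      · have := mul_le_mul_of_nonneg_left c2 hh.le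
        linarith [hcast m k, hcast m' k']
      · nlinarith
      · have := mul_le_mul_of_nonneg_left c4 hh.le
        linarith [hcast m' k', hcast m'' k'']
    · have h1 := hw k _ hr.2 j
      refine le_trans ?_ h1
      have h2 := sum_shift (F := fun y : ℤ => |g j y| ^ q j) (-(16 * 2 ^ k)) (16 * 2 ^ k) m
      have e1 : -(16 * 2 ^ k) + m = m - 16 * 2 ^ k := by ring
      have e2 : 16 * 2 ^ k + m = m + 16 * 2 ^ k := by ring
      rw [e1, e2] at h2
      rw [← h2]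
      refine sum_le_sum fun y _ => ?_
      have e3 : x0 + h * ((y + m : ℤ) : ℝ) = x0 + h * m + h * y := by
        push_cast
        ring
      refine Real.rpow_le_rpow (abs_nonneg _) ?_ (hq j).le
      by_cases hj : j = 0
      · subst hj
        simp only [hg, if_pos]
        rw [← e3]
        exact hs1 _
      · simp only [hg, if_neg hj]
        rw [e3]
    · have c1 : (m : ℝ) ≤ n := by exact_mod_cast h1
      have c2 : (n : ℝ) ≤ m + 2 ^ k := by exact_mod_cast h2.le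
      refine hD k hr.1 _ hr.2 _ (by nlinarith) ?_
      have := mul_le_mul_of_nonneg_left c2 hh.le
      linarith [hcast m k]
  refine ⟨Z, hZ, le_trans ?_ hle⟩
  -- duality
  have e1 : ∑ n ∈ E, |f 0 (x0 + h * n) * F n| = ∑ n ∈ E, s n * F n := by
    refine sum_congr rfl fun n hn => ?_
    simp only [hs, if_pos hn]
    split_ifs with h0
    · rw [abs_of_nonneg h0]
    · rw [abs_of_neg (not_le.1 h0)]; ring
  have e2 : ∀ k ∈ Icc k0 K, ∑ n ∈ E, s n * Sk f o h k (R k) (x0 + h * n) =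
      ((16 : ℝ) ^ k)⁻¹ * ∑' m : ℤ, (if R' k m then HH k o g m else 0) := by
    intro k hk
    have hφ : ∀ y : Fin 4 → ℕ, (Function.support fun m : ℤ => (∏ i, sg k (y i)) *
        (if R' k m then ∏ j : Fin 4, g j (m + mo y - ((j : ℕ) : ℤ) * uu k o y) else 0)).Finite := by
      intro y
      have h1 : ((fun m : ℤ => m + mo y) ⁻¹' (E : Set ℤ)).Finite := by
        refine (Finset.finite_toSet E).preimage (Function.Injective.injOn ?_)
        intro a b hab
        simpa using hab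
      refine h1.subset fun m hm => ?_
      by_contra hc'
      apply hm
      have h0 : ∏ j : Fin 4, g j (m + mo y - ((j : ℕ) : ℤ) * uu k o y) = 0 := by
        refine Finset.prod_eq_zero (Finset.mem_univ (0 : Fin 4)) ?_
        simp only [hg, if_pos]
        refine hsE _ ?_
        simpa using hc'
      simp only [h0, ite_self, mul_zero]
    have e3 : ∀ m : ℤ, (if R' k m then HH k o g m else 0) = ∑ y ∈ pts k, (∏ i, sg k (y i)) *
        (if R' k m then ∏ j : Fin 4, g j (m + mo y - ((j : ℕ) : ℤ) * uu k o y) else 0) := by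
      intro m
      by_cases hr : R' k m
      · simp only [if_pos hr, HH]
      · simp only [if_neg hr, mul_zero, sum_const_zero]
    simp only [e3]
    rw [Summable.tsum_finsetSum fun y _ => sm (hφ y)]
    unfold Sk
    have e4 : ∀ n : ℤ, s n * (((16 : ℝ) ^ k)⁻¹ * ∑ y ∈ pts k, (∏ i, sg k (y i)) *
        (if R k (x0 + h * n - h * (mo y : ℤ)) then wx f (x0 + h * n) (h * (uu k o y : ℤ)) else 0)) =
        ((16 : ℝ) ^ k)⁻¹ * ∑ y ∈ pts k, (∏ i, sg k (y i)) *
        (if R k (x0 + h * n - h * (mo y : ℤ)) then s n * wx f (x0 + h * n) (h * (uu k o y : ℤ))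
          else 0) := by
      intro n
      rw [mul_left_comm, mul_sum]
      congr 1
      refine sum_congr rfl fun y _ => ?_
      split_ifs
      · ring
      · ring
    simp only [e4]
    rw [← mul_sum, sum_comm]
    congr 1
    refine sum_congr rfl fun y _ => ?_
    rw [← (Equiv.subRight (mo y)).tsum_eq, ← mul_sum, tsum_mul_left]
    congr 1
    rw [tsum_eq_sum (s := E)]
    · refine sum_congr rfl fun n _ => ?_
      simp only [Equiv.subRight_apply]
      have e5 : x0 + h * (((n - mo y : ℤ) : ℤ) : ℝ) = x0 + h * n - h * (mo y : ℤ) := by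
        push_cast; ring
      have e6 : R' k (n - mo y) ↔ R k (x0 + h * n - h * (mo y : ℤ)) := by
        simp only [hR', hk, true_and, e5]
      have e7 : ∏ j : Fin 4, g j (n - mo y + mo y - ((j : ℕ) : ℤ) * uu k o y) =
          s n * wx f (x0 + h * n) (h * (uu k o y : ℤ)) := by
        rw [Fin.prod_univ_four]
        simp only [hg, if_pos, Fin.val_zero, Fin.val_one, Fin.val_two,
          show ((3 : Fin 4) : ℕ) = 3 from rfl, show (1 : Fin 4) ≠ 0 from by decide,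
          show (2 : Fin 4) ≠ 0 from by decide, show (3 : Fin 4) ≠ 0 from by decide, if_false,
          wx]
        have a0 : n - mo y + mo y - ((0 : ℕ) : ℤ) * uu k o y = n := by push_cast; ring
        rw [a0]
        have a1 : x0 + h * ((n - mo y + mo y - ((1 : ℕ) : ℤ) * uu k o y : ℤ) : ℝ) =
            x0 + h * n - h * (uu k o y : ℤ) := by push_cast; ring
        have a2 : x0 + h * ((n - mo y + mo y - ((2 : ℕ) : ℤ) * uu k o y : ℤ) : ℝ) =
            x0 + h * n - 2 * (h * (uu k o y : ℤ)) := by push_cast; ring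
        have a3 : x0 + h * ((n - mo y + mo y - ((3 : ℕ) : ℤ) * uu k o y : ℤ) : ℝ) =
            x0 + h * n - 3 * (h * (uu k o y : ℤ)) := by push_cast; ring
        rw [a1, a2, a3]
        ring
      by_cases hr : R k (x0 + h * n - h * (mo y : ℤ))
      · rw [if_pos hr, if_pos (e6.2 hr), e7]
      · rw [if_neg hr, if_neg fun h' => hr (e6.1 h')]
    · intro n hn
      simp only [Equiv.subRight_apply]
      have h0 : ∏ j : Fin 4, g j (n - mo y + mo y - ((j : ℕ) : ℤ) * uu k o y) = 0 := by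
        refine Finset.prod_eq_zero (Finset.mem_univ (0 : Fin 4)) ?_
        simp only [hg, if_pos]
        refine hsE _ ?_
        simpa using hn
      rw [h0, ite_self]
  rw [e1]
  have e8 : ∑ n ∈ E, s n * F n = ∑ k ∈ Icc k0 K, ((16 : ℝ) ^ k)⁻¹ *
      ∑' m : ℤ, (if R' k m then HH k o g m else 0) := by
    rw [← sum_congr rfl e2, sum_comm]
    refine sum_congr rfl fun n _ => ?_
    simp only [hF, Fop]
    rw [mul_sum]
  rw [e8]
  have hsub : Icc k0 K ⊆ Icc 1 K := Icc_subset_Icc_left hk0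
  have hsupp : ∀ k, (Function.support fun m : ℤ => (if R' k m then HH k o g m else 0)).Finite :=
    fun k => (HH_supp hgs k o).subset fun m hm h0 => hm (by simp only [h0, ite_self])
  have hsupp2 : ∀ k, (Function.support fun m : ℤ => (if R' k m then |HH k o g m| else 0)).Finite :=
    fun k => (HH_supp hgs k o).subset fun m hm h0 => hm (by simp only [h0, abs_zero, ite_self])
  refine le_trans ?_ (sum_le_sum_of_subset_of_nonneg hsub fun k _ _ => ?_)
  · refine sum_le_sum fun k _ => mul_le_mul_of_nonneg_left ?_ (by positivity)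
    refine (sm (hsupp k)).tsum_le_tsum (fun m => ?_) (sm (hsupp2 k))
    split_ifs
    · exact le_abs_self _
    · exact le_rfl
  · refine mul_nonneg (by positivity) (tsum_nonneg fun m => ?_)
    split_ifs
    · exact abs_nonneg _
    · exact le_rfl

/-- **the bound in `L¹` on the line** -/
theorem l1_boundV {q : Fin 4 → ℝ} (hq : ∀ j, 0 < q j) {P : ℝ} (hP : 0 ≤ P) (H : ∀ n, RootV q n P)
    {o : ℤ} (ho : o = 1 ∨ o = -1)
    {f : Fin 4 → ℝ → ℝ} (hfm : ∀ j, Measurable (f j))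
    (hf : ∀ j, ∃ M : ℝ, ∀ x, M < |x| → f j x = 0) {h : ℝ} (hh : 0 < h)
    {l : Fin 4 → ℝ} (hl : ∀ j, 0 < l j) {k0 K : ℕ} (hk0 : 1 ≤ k0)
    (R : ℕ → ℝ → Prop) [∀ k X, Decidable (R k X)] (hRm : ∀ k, MeasurableSet {X | R k X})
    (hc : Conv h R) (hw : WinV q f h l R)
    {D : Set ℝ} (hDm : MeasurableSet D)
    (hD : ∀ k ∈ Icc k0 K, ∀ X, R k X → ∀ x, X ≤ x → x ≤ X + h * 2 ^ k → x ∈ D) :
    ∫⁻ x, ‖f 0 x * Fop f o h k0 K R x‖ₑ ≤ ENNReal.ofReal (P * ∏ j, l j) * volume D := by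
  have hL : 0 ≤ P * ∏ j, l j := mul_nonneg hP (prod_nonneg fun j _ => (hl j).le)
  have hFm : Measurable fun x => f 0 x * Fop f o h k0 K R x :=
    (hfm 0).mul (Fop_meas hfm o h k0 K hRm)
  rw [unfoldL hFm.enorm hh]
  have key : ∀ x : ℝ, ∑' n : ℤ, ‖f 0 (x + h * n) * Fop f o h k0 K R (x + h * n)‖ₑ ≤
      ENNReal.ofReal (P * ∏ j, l j) * ∑' n : ℤ, D.indicator (fun _ => (1 : ℝ≥0∞)) (x + h * n) := by
    intro x
    rw [ENNReal.tsum_eq_iSup_sum]
    refine iSup_le fun E => ?_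
    obtain ⟨Z, hZ, hle⟩ := cosetV hq hP H ho hf hh hl hk0 R hc hw hD x E
    have e1 : ∑ n ∈ E, ‖f 0 (x + h * n) * Fop f o h k0 K R (x + h * n)‖ₑ =
        ENNReal.ofReal (∑ n ∈ E, |f 0 (x + h * n) * Fop f o h k0 K R (x + h * n)|) := by
      rw [ENNReal.ofReal_sum_of_nonneg fun _ _ => abs_nonneg _]
      exact sum_congr rfl fun n _ => Real.enorm_eq_ofReal_abs _
    rw [e1]
    refine (ENNReal.ofReal_le_ofReal hle).trans ?_
    rw [ENNReal.ofReal_mul hL]
    refine mul_le_mul_right ?_ _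
    have e2 : ENNReal.ofReal (Z.card : ℝ) =
        ∑ n ∈ Z, D.indicator (fun _ => (1 : ℝ≥0∞)) (x + h * n) := by
      rw [ENNReal.ofReal_natCast, Finset.sum_congr rfl fun n hn =>
        Set.indicator_of_mem (hZ n hn) (fun _ => (1 : ℝ≥0∞)), sum_const, nsmul_eq_mul, mul_one]
    rw [e2]
    exact ENNReal.sum_le_tsum Z
  refine (lintegral_mono key).trans ?_
  rw [lintegral_const_mul' _ _ ENNReal.ofReal_ne_top]
  have hDi : Measurable (D.indicator fun _ => (1 : ℝ≥0∞)) := measurable_const.indicator hDm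
  rw [← unfoldL hDi hh, lintegral_indicator_const hDm, one_mul]

end

end Vale.Agent.N141
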