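import Vale.Agent.N141.BotA
import Vale.Agent.P141.H530.Lim2

/-!
# P141, bottom of the chain with a vector of exponents: levels, sum over the levels, limit of the mesh

All the four functions have a level; the function `f 0` is a weight of the output.
-/

namespace Vale.Agent.N141

open Finset MeasureTheory Filter Topology
open scoped ENNReal
open Vale.Agent.P141.H530
open Vale.Agent.P141.PL.H620

noncomputable section

/-- the sizes of a level -/
def lw (l : Fin 4 → ℤ) (j : Fin 4) : ℝ := 2 ^ l j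

theorem lw_pos (l : Fin 4 → ℤ) (j : Fin 4) : 0 < lw l j := by unfold lw; positivity

/-- the region of a level -/
def RlV (q : Fin 4 → ℝ) (G : Fin 4 → ℝ → ℝ) (h : ℝ) (l : Fin 4 → ℤ) (k : ℕ) (X : ℝ) : Prop :=
  ∀ j, ENNReal.ofReal (lw l j ^ q j / 2 ^ q j) < Bm (G j) (h * 2 ^ k) X ∧
    Bm (G j) (h * 2 ^ k) X ≤ ENNReal.ofReal (lw l j ^ q j)

/-- the set of a level -/
def DlV (q : Fin 4 → ℝ) (G : Fin 4 → ℝ → ℝ) (l : Fin 4 → ℤ) : Set ℝ :=
  {x | ∀ j, ENNReal.ofReal (lw l j ^ q j / 2 ^ q j) < MM (G j) x}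

/-- `G j` dominates the power `q j` of `f j` at the scale `H` -/
structure DomV (q : Fin 4 → ℝ) (f G : Fin 4 → ℝ → ℝ) (H : ℝ) : Prop where
  fm : ∀ j, Measurable (f j)
  fs : ∀ j, ∃ M : ℝ, ∀ x, M < |x| → f j x = 0
  gi : ∀ j, Integrable (G j)
  g0 : ∀ j x, 0 ≤ G j x
  gb : ∃ b : ℝ, ∀ j x, G j x ≤ b
  gp : ∀ j t X, 0 < t → 0 < Bm (G j) t X
  dom : ∀ j x y, |y - x| ≤ H → |f j x| ^ q j ≤ G j y

section
variable {q : Fin 4 → ℝ} (hq : ∀ j, 0 < q j) {f G : Fin 4 → ℝ → ℝ} {H : ℝ} (hd : DomV q f G H)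
include hd

theorem win_ofV {h : ℝ} (hh : 0 < h) (hH : h ≤ H) (l : Fin 4 → ℤ) :
    WinV q f h (lw l) (RlV q G h l) := by
  intro k X hR j
  have ht : 0 < h * 2 ^ k := by positivity
  have h1 : ∀ y : ℤ, h * |f j (X + h * y)| ^ q j ≤ ∫ z in (X + h * y)..(X + h * (y + 1)), G j z := by
    intro y
    have h2 : (∫ _ in (X + h * y)..(X + h * (y + 1)), |f j (X + h * y)| ^ q j) ≤
        ∫ z in (X + h * y)..(X + h * (y + 1)), G j z := by
      refine intervalIntegral.integral_mono_on (by nlinarith) intervalIntegrable_const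
        (hd.gi j).intervalIntegrable fun z hz => ?_
      refine hd.dom j _ _ ?_
      rw [abs_of_nonneg (by linarith [hz.1])]
      nlinarith [hz.2]
    rw [intervalIntegral.integral_const, smul_eq_mul] at h2
    refine le_trans (le_of_eq ?_) h2
    ring
  have h3 := sum_le_sum fun y (_ : y ∈ Ico (-((16 * 2 ^ k : ℕ) : ℤ)) ((16 * 2 ^ k : ℕ) : ℤ)) => h1 y
  rw [sum_int (hd.gi j), ← mul_sum] at h3
  have h4 : mv (G j) (h * 2 ^ k) X ≤ lw l j ^ q j := by
    have h5 := (mv_le_Bm (G j) (h * 2 ^ k) X).trans (hR j).2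
    exact (ENNReal.ofReal_le_ofReal_iff (Real.rpow_nonneg (lw_pos l j).le (q j))).1 h5
  have h6 : (∫ z in (X - h * ((16 * 2 ^ k : ℕ) : ℝ))..(X + h * ((16 * 2 ^ k : ℕ) : ℝ)), G j z) =
      32 * (h * 2 ^ k) * mv (G j) (h * 2 ^ k) X := by
    unfold mv
    rw [mul_inv_cancel_left₀ (by positivity)]
    push_cast
    congr 1 <;> ring
  rw [h6] at h3
  have e : Ico (-((16 * 2 ^ k : ℕ) : ℤ)) ((16 * 2 ^ k : ℕ) : ℤ) =
      Ico (-(16 * 2 ^ k) : ℤ) (16 * 2 ^ k) := by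
    push_cast; rfl
  rw [e] at h3
  have h7 : 32 * (h * 2 ^ k) * mv (G j) (h * 2 ^ k) X ≤ 32 * (h * 2 ^ k) * lw l j ^ q j :=
    mul_le_mul_of_nonneg_left h4 (by positivity)
  have h8 := h3.trans h7
  have e5 : (2 : ℝ) ^ (k + 5) = 32 * 2 ^ k := by rw [pow_add]; ring
  rw [e5]
  have e6 : 32 * (h * 2 ^ k) * lw l j ^ q j = h * (32 * 2 ^ k * lw l j ^ q j) := by ring
  rw [e6] at h8
  exact le_of_mul_le_mul_left h8 hh

omit hd in
theorem conv_ofV (q : Fin 4 → ℝ) (G : Fin 4 → ℝ → ℝ) (h : ℝ) (l : Fin 4 → ℤ) :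
    Conv h (RlV q G h l) := by
  intro k k' k'' X X' X'' _ _ h3 h4 h5 h6 hR hR'' j
  exact ⟨(hR'' j).1.trans_le (Bm_mono (G j) h5 h6), (Bm_mono (G j) h3 h4).trans (hR j).2⟩

theorem Rl_measV (h : ℝ) (l : Fin 4 → ℤ) (k : ℕ) : MeasurableSet {X | RlV q G h l k X} := by
  have e : {X | RlV q G h l k X} = ⋂ j : Fin 4, {X |
      ENNReal.ofReal (lw l j ^ q j / 2 ^ q j) < Bm (G j) (h * 2 ^ k) X ∧
        Bm (G j) (h * 2 ^ k) X ≤ ENNReal.ofReal (lw l j ^ q j)} := by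
    ext X
    simp only [RlV, Set.mem_ofPred_eq, Set.mem_iInter]
  rw [e]
  refine MeasurableSet.iInter fun j => ?_
  exact (measurableSet_lt measurable_const (Bm_meas (hd.gi j) _)).inter
    (measurableSet_le (Bm_meas (hd.gi j) _) measurable_const)

theorem Dl_measV (l : Fin 4 → ℤ) : MeasurableSet (DlV q G l) := by
  have e : DlV q G l = ⋂ j : Fin 4, {x | ENNReal.ofReal (lw l j ^ q j / 2 ^ q j) < MM (G j) x} := by
    ext X
    simp only [DlV, Set.mem_ofPred_eq, Set.mem_iInter]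
  rw [e]
  exact MeasurableSet.iInter fun j => measurableSet_lt measurable_const (MM_meas (hd.gi j))

theorem Dl_finV (l : Fin 4 → ℤ) : volume (DlV q G l) ≠ ∞ := by
  have h1 : DlV q G l ⊆ {x | ENNReal.ofReal (lw l 1 ^ q 1 / 2 ^ q 1) < MM (G 1) x} := fun x hx =>
    hx 1
  have h2 := weak (hd.gi 1) (hd.g0 1) (l := lw l 1 ^ q 1 / 2 ^ q 1)
    (by have := lw_pos l 1; positivity)
  refine ((measure_mono h1).trans_lt (h2.trans_lt ?_)).ne
  refine ENNReal.mul_lt_top ENNReal.ofReal_lt_top ?_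
  have h3 := (hd.gi 1).2
  rw [hasFiniteIntegral_iff_ofReal (ae_of_all _ (hd.g0 1))] at h3
  exact h3

include hq in
theorem labelsV {h : ℝ} (hh : 0 < h) : ∃ L : ℕ → ℝ → Fin 4 → ℤ, ∀ k X l,
    RlV q G h l k X ↔ l = L k X := by
  obtain ⟨b, hb⟩ := hd.gb
  have hfin : ∀ j t X, 0 < t → Bm (G j) t X ≠ ∞ := fun j t X ht =>
    ((Bm_le_MM (G j) ht le_rfl (by linarith)).trans_lt
      ((MM_le (hd.gi j) (hb j) X).trans_lt ENNReal.ofReal_lt_top)).ne
  have hex : ∀ j k X, ∃ m : ℤ, ((2 : ℝ) ^ m) ^ q j / 2 ^ q j < (Bm (G j) (h * 2 ^ k) X).toReal ∧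
      (Bm (G j) (h * 2 ^ k) X).toReal ≤ ((2 : ℝ) ^ m) ^ q j := fun j k X =>
    exists_sizeQ (hq j) (ENNReal.toReal_pos (hd.gp j _ X (by positivity)).ne'
      (hfin j _ X (by positivity)))
  choose m hm1 hm2 using hex
  refine ⟨fun k X j => m j k X, fun k X l => ?_⟩
  have key : ∀ (j : Fin 4) (n : ℤ), (ENNReal.ofReal (((2 : ℝ) ^ n) ^ q j / 2 ^ q j) <
      Bm (G j) (h * 2 ^ k) X ∧ Bm (G j) (h * 2 ^ k) X ≤ ENNReal.ofReal (((2 : ℝ) ^ n) ^ q j)) ↔
      n = m j k X := by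
    intro j n
    have hf := hfin j (h * 2 ^ k) X (by positivity)
    rw [ENNReal.ofReal_lt_iff_lt_toReal (by positivity) hf, ENNReal.le_ofReal_iff_toReal_le hf
      (by positivity)]
    constructor
    · rintro ⟨h1, h2⟩
      exact size_uniqueQ (hq j) h1 h2 (hm1 j k X) (hm2 j k X)
    · rintro rfl
      exact ⟨hm1 j k X, hm2 j k X⟩
  constructor
  · intro hR
    exact funext fun j => (key j _).1 (hR j)
  · intro h j
    exact (key j _).2 (congrFun h j)

end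

theorem supp_ofV (q : Fin 4 → ℝ) (f G : Fin 4 → ℝ → ℝ) (o : ℤ) {h : ℝ} (hh : 0 < h) (k0 K : ℕ)
    (l : Fin 4 → ℤ)
    [∀ k X, Decidable (RlV q G h l k X)] {x : ℝ} (hx : Fop f o h k0 K (RlV q G h l) x ≠ 0) :
    x ∈ DlV q G l := by
  obtain ⟨k, -, hk⟩ := exists_ne_zero_of_sum_ne_zero hx
  unfold Sk at hk
  obtain ⟨y, hy, hy2⟩ := exists_ne_zero_of_sum_ne_zero (right_ne_zero_of_mul hk)
  have hR : RlV q G h l k (x - h * (mo y : ℤ)) := by
    by_contra hc
    rw [if_neg hc, mul_zero] at hy2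
    exact hy2 rfl
  obtain ⟨h1, h2⟩ := mo_bd hy
  have h1' : (0 : ℝ) ≤ mo y := by exact_mod_cast h1
  have h2' : ((mo y : ℤ) : ℝ) ≤ 6 * 2 ^ k := by exact_mod_cast h2
  have h3 := mul_le_mul_of_nonneg_left h2' hh.le
  have h4 := mul_nonneg hh.le h1'
  intro j
  refine (hR j).1.trans_le (Bm_le_MM (G j) (by positivity) (by linarith) ?_)
  linarith

theorem FF_splitV {ι : Type*} {q : Fin 4 → ℝ} (hq : ∀ j, 0 < q j) {f G : Fin 4 → ℝ → ℝ} {H : ℝ}
    (hd : DomV q f G H) (o : ℤ) (I : Finset ι)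
    (c hm : ι → ℝ) (hh : ∀ i ∈ I, 0 < hm i) (k0 K : ℕ) (x : ℝ) :
    ∃ A : Finset (Fin 4 → ℤ), FF f o I c hm k0 K (fun _ _ _ => True) x =
      ∑ l ∈ A, FF f o I c hm k0 K (fun i => RlV q G (hm i) l) x := by
  classical
  have hL : ∀ i, ∃ L : ℕ → ℝ → Fin 4 → ℤ, i ∈ I → ∀ k X l, RlV q G (hm i) l k X ↔ l = L k X := by
    intro i
    by_cases hi : i ∈ I
    · obtain ⟨L, hL⟩ := labelsV hq hd (hh i hi)
      exact ⟨L, fun _ => hL⟩
    · exact ⟨fun _ _ => 0, fun h => absurd h hi⟩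
  choose L hL using hL
  set A : Finset (Fin 4 → ℤ) := I.biUnion fun i => (Icc k0 K).biUnion fun k =>
    (pts k).image fun y => L i k (x - hm i * (mo y : ℤ)) with hA
  refine ⟨A, ?_⟩
  unfold FF
  rw [sum_comm]
  refine sum_congr rfl fun i hi => ?_
  rw [← mul_sum]
  congr 1
  unfold Fop
  rw [sum_comm]
  refine sum_congr rfl fun k hk => ?_
  unfold Sk
  rw [← mul_sum]
  congr 1
  rw [sum_comm]
  refine sum_congr rfl fun y hy => ?_
  rw [← mul_sum]
  congr 1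
  rw [if_pos trivial]
  have h1 : L i k (x - hm i * (mo y : ℤ)) ∈ A :=
    mem_biUnion.2 ⟨i, hi, mem_biUnion.2 ⟨k, hk, mem_image.2 ⟨y, hy, rfl⟩⟩⟩
  rw [sum_eq_single_of_mem _ h1 fun l _ hl => if_neg fun h => hl ((hL i hi k _ l).1 h)]
  rw [if_pos ((hL i hi k _ _).2 rfl)]

section
variable {ι : Type*} {q : Fin 4 → ℝ} (hq : ∀ j, 0 < q j) {f G : Fin 4 → ℝ → ℝ} {H₀ : ℝ}
  (hd : DomV q f G H₀)
include hq hd

theorem level_l1V {P : ℝ} (hP : 0 ≤ P) (H : ∀ n, RootV q n P) {o : ℤ} (ho : o = 1 ∨ o = -1)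
    (I : Finset ι) (c hm : ι → ℝ) (hh : ∀ i ∈ I, 0 < hm i) (hh2 : ∀ i ∈ I, hm i ≤ H₀) {k0 : ℕ}
    (hk0 : 1 ≤ k0) (K : ℕ) (l : Fin 4 → ℤ) :
    ∫⁻ x, ‖f 0 x * FF f o I c hm k0 K (fun i => RlV q G (hm i) l) x‖ₑ ≤
      ENNReal.ofReal ((∑ i ∈ I, |c i|) * P * ∏ j, lw l j) * volume (DlV q G l) := by
  classical
  have h1 : ∀ i ∈ I, ∫⁻ x, ‖f 0 x * Fop f o (hm i) k0 K (RlV q G (hm i) l) x‖ₑ ≤
      ENNReal.ofReal (P * ∏ j, lw l j) * volume (DlV q G l) := fun i hi =>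
    l1_boundV hq hP H ho hd.fm hd.fs (hh i hi) (lw_pos l) hk0 _
      (fun k => Rl_measV hd (hm i) l k) (conv_ofV q G (hm i) l) (win_ofV hd (hh i hi) (hh2 i hi) l)
      (Dl_measV hd l) fun k _ X hR x h1 h2 j => (hR j).1.trans_le
        (Bm_le_MM (G j) (by have := hh i hi; positivity) h1 (by
          have : 0 < hm i * 2 ^ k := by have := hh i hi; positivity
          linarith))
  have h2 : ∀ x, ‖f 0 x * FF f o I c hm k0 K (fun i => RlV q G (hm i) l) x‖ₑ ≤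
      ∑ i ∈ I, ENNReal.ofReal |c i| * ‖f 0 x * Fop f o (hm i) k0 K (RlV q G (hm i) l) x‖ₑ := by
    intro x
    unfold FF
    rw [mul_sum]
    refine (enorm_sum_le _ _).trans (le_of_eq (sum_congr rfl fun i _ => ?_))
    rw [mul_left_comm, enorm_mul, Real.enorm_eq_ofReal_abs (c i)]
  refine (lintegral_mono h2).trans ?_
  have hme : ∀ i, Measurable fun x => f 0 x * Fop f o (hm i) k0 K (RlV q G (hm i) l) x := fun i =>
    (hd.fm 0).mul (Fop_meas hd.fm o (hm i) k0 K fun k => Rl_measV hd (hm i) l k)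
  rw [lintegral_finsetSum' _ fun i _ => ((hme i).enorm.const_mul _).aemeasurable]
  have h3 : ∀ i ∈ I, ∫⁻ x, ENNReal.ofReal |c i| * ‖f 0 x * Fop f o (hm i) k0 K (RlV q G (hm i) l) x‖ₑ ≤
      ENNReal.ofReal |c i| * (ENNReal.ofReal (P * ∏ j, lw l j) * volume (DlV q G l)) := by
    intro i hi
    rw [lintegral_const_mul' _ _ ENNReal.ofReal_ne_top]
    exact mul_le_mul_right (h1 i hi) _
  refine (sum_le_sum h3).trans (le_of_eq ?_)
  rw [← sum_mul, ← ENNReal.ofReal_sum_of_nonneg fun _ _ => abs_nonneg _, ← mul_assoc,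
    ← ENNReal.ofReal_mul (sum_nonneg fun _ _ => abs_nonneg _)]
  congr 2
  ring

theorem level_rpowV {P : ℝ} (hP : 0 ≤ P) (H : ∀ n, RootV q n P) {o : ℤ} (ho : o = 1 ∨ o = -1)
    (I : Finset ι) (c hm : ι → ℝ) (hh : ∀ i ∈ I, 0 < hm i) (hh2 : ∀ i ∈ I, hm i ≤ H₀) {k0 : ℕ}
    (hk0 : 1 ≤ k0) (K : ℕ) {r : ℝ} (hr0 : 0 < r) (hr1 : r ≤ 1) (l : Fin 4 → ℤ) :
    ∫⁻ x, ‖f 0 x * FF f o I c hm k0 K (fun i => RlV q G (hm i) l) x‖ₑ ^ r ≤
      ENNReal.ofReal (((∑ i ∈ I, |c i|) * P) ^ r * ∏ j, lw l j ^ r) * volume (DlV q G l) := by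
  classical
  set F : ℝ → ℝ := fun x => f 0 x * FF f o I c hm k0 K (fun i => RlV q G (hm i) l) x with hF
  set V := volume (DlV q G l) with hV
  have hFm : Measurable F :=
    (hd.fm 0).mul (FF_meas hd.fm o I c hm k0 K fun i _ k => Rl_measV hd (hm i) l k)
  have hsupp : ∀ x, x ∉ DlV q G l → F x = 0 := by
    intro x hx
    refine mul_eq_zero_of_right _ ?_
    unfold FF
    refine sum_eq_zero fun i hi => ?_
    have h0 : Fop f o (hm i) k0 K (RlV q G (hm i) l) x = 0 := by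
      by_contra hne
      exact hx (supp_ofV q f G o (hh i hi) k0 K l hne)
    rw [h0, mul_zero]
  have e1 : ∫⁻ x, ‖F x‖ₑ ^ r = ∫⁻ x in DlV q G l, ‖F x‖ₑ ^ r := by
    rw [← lintegral_indicator (Dl_measV hd l)]
    refine lintegral_congr fun x => ?_
    by_cases hx : x ∈ DlV q G l
    · rw [Set.indicator_of_mem hx]
    · rw [Set.indicator_of_notMem hx, hsupp x hx, enorm_zero, ENNReal.zero_rpow_of_pos hr0]
  have h1 : ∫⁻ x in DlV q G l, ‖F x‖ₑ ≤
      ENNReal.ofReal ((∑ i ∈ I, |c i|) * P * ∏ j, lw l j) * V :=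
    (setLIntegral_le_lintegral _ _).trans (level_l1V hq hd hP H ho I c hm hh hh2 hk0 K l)
  have h2 := hold_set hr0.le hr1 hFm.enorm (DlV q G l)
  show ∫⁻ x, ‖F x‖ₑ ^ r ≤ _
  rw [e1]
  refine h2.trans ((mul_le_mul_left (ENNReal.rpow_le_rpow h1 hr0.le) _).trans ?_)
  have hA : 0 ≤ (∑ i ∈ I, |c i|) * P := mul_nonneg (sum_nonneg fun _ _ => abs_nonneg _) hP
  have hL : 0 ≤ ∏ j, lw l j := prod_nonneg fun j _ => (lw_pos l j).le
  rw [ENNReal.mul_rpow_of_nonneg _ _ hr0.le, ENNReal.ofReal_rpow_of_nonneg (mul_nonneg hA hL) hr0.le,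
    Real.mul_rpow hA hL, ← Real.finsetProd_rpow _ _ fun j _ => (lw_pos l j).le, mul_assoc]
  refine mul_le_mul_right (le_of_eq ?_) _
  rcases eq_or_ne V 0 with h0 | h0
  · rw [h0, ENNReal.zero_rpow_of_pos hr0, zero_mul]
  · rw [← ENNReal.rpow_add _ _ h0 (Dl_finV hd l), add_sub_cancel, ENNReal.rpow_one]

omit hq hd in
/-- a sum over the vectors of integers of a product -/
theorem tsum_pi_le (ψ : Fin 4 → ℤ → ℝ≥0∞) : ∑' l : Fin 4 → ℤ, ∏ j, ψ j (l j) ≤ ∏ j, ∑' m, ψ j m := by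
  classical
  rw [ENNReal.tsum_eq_iSup_sum]
  refine iSup_le fun S => ?_
  have h1 : S ⊆ Fintype.piFinset fun j => S.image fun l => l j := by
    intro l hl
    exact Fintype.mem_piFinset.2 fun j => mem_image_of_mem _ hl
  refine (sum_le_sum_of_subset h1).trans ?_
  rw [← prod_univ_sum]
  exact prod_le_prod' fun j _ => ENNReal.sum_le_tsum _

/-- **the sum over the levels** -/
theorem level_sumV {P : ℝ} (hP : 0 ≤ P) (H : ∀ n, RootV q n P) {o : ℤ} (ho : o = 1 ∨ o = -1)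
    (I : Finset ι) (c hm : ι → ℝ) (hh : ∀ i ∈ I, 0 < hm i) (hh2 : ∀ i ∈ I, hm i ≤ H₀) {k0 : ℕ}
    (hk0 : 1 ≤ k0) (K : ℕ) {r : ℝ} (hr0 : 0 < r) (hr1 : r ≤ 1) :
    ∫⁻ x, ‖f 0 x * FF f o I c hm k0 K (fun _ _ _ => True) x‖ₑ ^ r ≤
      ENNReal.ofReal (((∑ i ∈ I, |c i|) * P) ^ r) *
        (ENNReal.ofReal (2 ^ r / (1 - (2 : ℝ) ^ (-r))) ^ 4 *
      ∫⁻ x, ∏ j, MM (G j) x ^ (r / q j)) := by
  classical
  set A : ℝ := ((∑ i ∈ I, |c i|) * P) ^ r with hA
  have hA0 : 0 ≤ A := Real.rpow_nonneg (mul_nonneg (sum_nonneg fun _ _ => abs_nonneg _) hP) _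
  set Fl : (Fin 4 → ℤ) → ℝ → ℝ := fun l x =>
    f 0 x * FF f o I c hm k0 K (fun i => RlV q G (hm i) l) x with hFl
  have hFlm : ∀ l, Measurable (Fl l) := fun l =>
    (hd.fm 0).mul (FF_meas hd.fm o I c hm k0 K fun i _ k => Rl_measV hd (hm i) l k)
  have h1 : ∀ x, ‖f 0 x * FF f o I c hm k0 K (fun _ _ _ => True) x‖ₑ ^ r ≤
      ∑' l, ‖Fl l x‖ₑ ^ r := by
    intro x
    obtain ⟨S, hS⟩ := FF_splitV hq hd o I c hm hh k0 K x
    rw [hS, mul_sum]
    refine (ENNReal.rpow_le_rpow (enorm_sum_le _ _) hr0.le).trans ?_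
    exact (rpow_sum_le _ _ hr0 hr1).trans (ENNReal.sum_le_tsum S)
  refine (lintegral_mono h1).trans ?_
  rw [lintegral_tsum fun l => ((hFlm l).enorm.pow_const r).aemeasurable]
  refine (ENNReal.tsum_le_tsum fun l =>
    level_rpowV hq hd hP H ho I c hm hh hh2 hk0 K hr0 hr1 l).trans ?_
  -- the sum of the measures
  set ψ : Fin 4 → ℤ → ℝ → ℝ≥0∞ := fun j m x =>
    if ENNReal.ofReal (((2 : ℝ) ^ m) ^ q j / 2 ^ q j) < MM (G j) x then
      ENNReal.ofReal (((2 : ℝ) ^ m) ^ r) else 0 with hψ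
  have hψm : ∀ j m, Measurable (ψ j m) := fun j m =>
    Measurable.ite (measurableSet_lt measurable_const (MM_meas (hd.gi j))) measurable_const
      measurable_const
  have h2 : ∀ l : Fin 4 → ℤ, ENNReal.ofReal (A * ∏ j, lw l j ^ r) * volume (DlV q G l) =
      ENNReal.ofReal A * ∫⁻ x, ∏ j, ψ j (l j) x := by
    intro l
    rw [ENNReal.ofReal_mul hA0, mul_assoc]
    congr 1
    rw [← lintegral_indicator_const (Dl_measV hd l)]
    refine lintegral_congr fun x => ?_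
    by_cases hx : x ∈ DlV q G l
    · rw [Set.indicator_of_mem hx, ENNReal.ofReal_prod_of_nonneg fun j _ =>
        Real.rpow_nonneg (lw_pos l j).le _]
      refine prod_congr rfl fun j _ => ?_
      have h1 : ENNReal.ofReal (((2 : ℝ) ^ l j) ^ q j / 2 ^ q j) < MM (G j) x := hx j
      simp only [hψ, if_pos h1]
      rfl
    · rw [Set.indicator_of_notMem hx]
      have h4 : ∃ j, ¬ ENNReal.ofReal (((2 : ℝ) ^ l j) ^ q j / 2 ^ q j) < MM (G j) x := by
        by_contra hc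
        exact hx fun j => by
          by_contra h5
          exact hc ⟨j, h5⟩
      obtain ⟨j, hj⟩ := h4
      refine (prod_eq_zero (mem_univ j) ?_).symm
      simp only [hψ, if_neg hj]
  refine (le_of_eq (tsum_congr h2)).trans ?_
  rw [ENNReal.tsum_mul_left]
  refine mul_le_mul_right ?_ _
  have hm3 : ∀ l : Fin 4 → ℤ, AEMeasurable (fun x => ∏ j, ψ j (l j) x) volume :=
    fun l => (Finset.measurable_prod _ fun j _ => hψm j _).aemeasurable
  rw [← lintegral_tsum hm3, ← lintegral_const_mul']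
  · refine lintegral_mono fun x => ?_
    refine (tsum_pi_le fun j m => ψ j m x).trans ?_
    refine (prod_le_prod' fun j _ => geoQ (hq j) hr0 (MM (G j) x)).trans (le_of_eq ?_)
    rw [prod_mul_distrib, prod_const, card_univ, Fintype.card_fin]
  · exact ENNReal.pow_ne_top ENNReal.ofReal_ne_top

end

/-- **the bound for the averages over the scales** -/
theorem lim_boundV {q : Fin 4 → ℝ} (hq : ∀ j, 0 < q j) {f G : Fin 4 → ℝ → ℝ} {H₀ : ℝ}
    (hH₀ : 0 < H₀) (hd : DomV q f G H₀) (hf : ∀ j, Continuous (f j)) (n : ℕ) {P : ℝ} (hP : 0 ≤ P)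
    (H : ∀ n, RootV q n P) {o : ℤ} (ho : o = 1 ∨ o = -1) {ε : ℝ} (hε : 0 < ε)
    {r : ℝ} (hr0 : 0 < r) (hr1 : r ≤ 1) :
    Measurable (fun x => f 0 x * AvT o f ε n x) ∧
      ∫⁻ x, ‖f 0 x * AvT o f ε n x‖ₑ ^ r ≤ ENNReal.ofReal (P ^ r) *
      (ENNReal.ofReal (2 ^ r / (1 - (2 : ℝ) ^ (-r))) ^ 4 *
      ∫⁻ x, ∏ j, MM (G j) x ^ (r / q j)) := by
  have hwc : ∀ x, Continuous (wx f x) := fun x => by
    unfold wx
    have h1 := hf 1
    have h2 := hf 2
    have h3 := hf 3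
    fun_prop
  set B : ℝ≥0∞ := ENNReal.ofReal (P ^ r) *
      (ENNReal.ofReal (2 ^ r / (1 - (2 : ℝ) ^ (-r))) ^ 4 *
      ∫⁻ x, ∏ j, MM (G j) x ^ (r / q j)) with hB
  -- uniform continuity of the product
  have huc : ∀ x, UniformContinuous (wx f x) := by
    intro x
    obtain ⟨M, hM⟩ := hd.fs 1
    have hs : HasCompactSupport (wx f x) := by
      refine HasCompactSupport.intro (isCompact_Icc (a := x - |M|) (b := x + |M|)) fun u hu => ?_
      unfold wx
      rw [hM (x - u), zero_mul, zero_mul]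
      rw [Set.mem_Icc, not_and_or, not_le, not_le] at hu
      have h1 := le_abs_self M
      rw [lt_abs]
      rcases hu with h | h
      · left; linarith
      · right; linarith
    exact hs.uniformContinuous_of_continuous (hwc x)
  -- the meshes
  set τ : ℕ → ℕ → ℝ := fun M i => 1 + i / (M + 1) with hτ
  have hτ1 : ∀ M i, 1 ≤ τ M i := fun M i => by
    simp only [hτ]
    have : (0 : ℝ) ≤ i / ((M : ℝ) + 1) := by positivity
    linarith
  set c : ℕ → ℕ → ℝ := fun M i => ((M : ℝ) + 1)⁻¹ * (τ M i)⁻¹ with hc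
  have hτ0 : ∀ M i, 0 < τ M i := fun M i => by linarith [hτ1 M i]
  have hc0 : ∀ M i, 0 ≤ c M i := fun M i => by
    have := hτ0 M i
    simp only [hc]
    positivity
  have hcs : ∀ M, ∑ i ∈ range (M + 1), |c M i| ≤ 1 := by
    intro M
    have h1 : ∀ i ∈ range (M + 1), |c M i| ≤ ((M : ℝ) + 1)⁻¹ := by
      intro i _
      rw [abs_of_nonneg (hc0 M i)]
      simp only [hc]
      have h2 : (τ M i)⁻¹ ≤ 1 := inv_le_one_of_one_le₀ (hτ1 M i)
      have h3 : (0 : ℝ) ≤ ((M : ℝ) + 1)⁻¹ := by positivity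
      nlinarith
    refine (sum_le_sum h1).trans (le_of_eq ?_)
    rw [sum_const, card_range, nsmul_eq_mul]
    push_cast
    exact mul_inv_cancel₀ (by positivity)
  set hm : ℕ → ℕ → ℕ → ℝ := fun M m i => ε * τ M i / 2 ^ (m + 1) with hhm
  have hm0 : ∀ M m i, 0 < hm M m i := fun M m i => by
    have := hτ0 M i
    simp only [hhm]
    positivity
  set Fm : ℕ → ℕ → ℝ → ℝ := fun M m => FF f o (range (M + 1)) (c M) (hm M m) (m + 1) (m + n)
    (fun _ _ _ => True) with hFm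
  set gM : ℕ → ℝ → ℝ := fun M x => ∑ i ∈ range (M + 1), ((M : ℝ) + 1)⁻¹ *
    ∑ k ∈ range n, Ac o (V4 (wx f x)) (2 ^ k * ε * (1 + i / (M + 1))) / (1 + i / (M + 1)) with hgM
  -- first limit
  have hlim1 : ∀ M x, Tendsto (fun m => Fm M m x) atTop (𝓝 (gM M x)) := by
    intro M x
    have e1 : ∀ m, Fm M m x = ∑ i ∈ range (M + 1), c M i * ∑ k ∈ range n,
        Sk f o (hm M m i) (m + 1 + k) (fun _ => True) x := by
      intro m
      simp only [hFm, FF, Fop]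
      refine sum_congr rfl fun i _ => ?_
      congr 1
      have e2 : Icc (m + 1) (m + n) = (range n).image fun k => m + 1 + k := by
        ext k
        simp only [mem_Icc, mem_image, mem_range]
        constructor
        · rintro ⟨h1, h2⟩
          exact ⟨k - (m + 1), by omega, by omega⟩
        · rintro ⟨k', h1, rfl⟩
          omega
      rw [e2, sum_image fun a _ b _ hab => by simpa using hab]
      refine sum_congr rfl fun k _ => ?_
      congr
    simp only [e1]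
    have e3 : gM M x = ∑ i ∈ range (M + 1), c M i * ∑ k ∈ range n,
        Ac o (V4 (wx f x)) (2 ^ k * ε * τ M i) := by
      simp only [hgM, hc, hτ]
      refine sum_congr rfl fun i _ => ?_
      rw [mul_assoc, ← sum_div, div_eq_inv_mul]
    rw [e3]
    refine tendsto_finsetSum _ fun i _ => Tendsto.const_mul _ (tendsto_finsetSum _ fun k _ => ?_)
    rw [Metric.tendsto_atTop]
    intro δ hδ
    obtain ⟨η, hη, hη2⟩ := Metric.uniformContinuous_iff.1 (huc x) (δ / 2) (by linarith)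
    obtain ⟨m0, hm0'⟩ := exists_nat_gt (4 * (ε * τ M i) / η)
    refine ⟨m0, fun m hmm => ?_⟩
    have hτi := hτ0 M i
    have h1 : 4 * hm M m i < η := by
      simp only [hhm]
      rw [← mul_div_assoc, div_lt_iff₀ (by positivity)]
      rw [div_lt_iff₀ hη] at hm0'
      have h2 : (m0 : ℝ) ≤ 2 ^ (m + 1) := by
        have h3 : m0 ≤ 2 ^ (m + 1) := by
          have h4 : m + 1 < 2 ^ (m + 1) := Nat.lt_two_pow_self
          omega
        exact_mod_cast h3
      nlinarith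
    have h2 := Sk_near (f := f) (x := x) (hwc x) o (hm0 M m i) (k := m + 1 + k) (by omega)
      (δ := δ / 2) (fun a b hab => by
        have h3 := hη2 (a := a) (b := b) (by
          rw [Real.dist_eq]
          exact hab.trans_lt h1)
        rw [Real.dist_eq] at h3
        exact h3.le)
    have e4 : hm M m i * 2 ^ (m + 1 + k) = 2 ^ k * ε * τ M i := by
      simp only [hhm]
      have e5 : (2 : ℝ) ^ (m + 1 + k) = 2 ^ (m + 1) * 2 ^ k := pow_add _ _ _
      have e6 : (2 : ℝ) ^ (m + 1) ≠ 0 := by positivity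
      rw [e5]
      generalize (2 : ℝ) ^ (m + 1) = t at *
      field_simp
    rw [e4] at h2
    rw [Real.dist_eq]
    refine lt_of_le_of_lt ?_ (by linarith : δ / 2 < δ)
    convert h2
  -- the bound for the meshes
  have hFmm : ∀ M m, Measurable fun x => f 0 x * Fm M m x := fun M m =>
    (hd.fm 0).mul (FF_meas hd.fm o _ _ _ _ _ fun i _ k => by simp)
  have hbd : ∀ M, ∀ᶠ m in atTop, ∫⁻ x, ‖f 0 x * Fm M m x‖ₑ ^ r ≤ B := by
    intro M
    obtain ⟨m0, hm0'⟩ := exists_nat_gt (2 * ε / H₀)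
    filter_upwards [eventually_ge_atTop m0] with m hmm
    have hle : ∀ i ∈ range (M + 1), hm M m i ≤ H₀ := by
      intro i hi
      have hi' : (i : ℝ) ≤ M + 1 := by
        have := (mem_range.1 hi).le
        exact_mod_cast this
      have h1 : τ M i ≤ 2 := by
        simp only [hτ]
        have : (i : ℝ) / (M + 1) ≤ 1 := (div_le_one (by positivity)).2 hi'
        linarith
      simp only [hhm]
      rw [div_le_iff₀ (by positivity)]
      rw [div_lt_iff₀ hH₀] at hm0'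
      have h2 : (m0 : ℝ) ≤ 2 ^ (m + 1) := by
        have h3 : m0 ≤ 2 ^ (m + 1) := by
          have h4 : m + 1 < 2 ^ (m + 1) := Nat.lt_two_pow_self
          omega
        exact_mod_cast h3
      have h3 := mul_le_mul_of_nonneg_left h1 hε.le
      have h4 := mul_le_mul_of_nonneg_left h2 hH₀.le
      linarith
    have h1 := level_sumV hq hd hP H ho (range (M + 1)) (c M) (hm M m) (fun i _ => hm0 M m i) hle
      (k0 := m + 1) (by omega) (m + n) hr0 hr1
    refine h1.trans ?_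
    rw [hB]
    refine mul_le_mul_left (ENNReal.ofReal_le_ofReal ?_) _
    refine Real.rpow_le_rpow (mul_nonneg (sum_nonneg fun _ _ => abs_nonneg _) hP) ?_ hr0.le
    have := mul_le_mul_of_nonneg_right (hcs M) hP
    linarith
  have hg : ∀ M, Measurable (fun x => f 0 x * gM M x) ∧ ∫⁻ x, ‖f 0 x * gM M x‖ₑ ^ r ≤ B := fun M =>
    fatou_bound hr0 (hFmm M) (fun x => (hlim1 M x).const_mul _) (hbd M)
  -- second limit
  refine fatou_bound hr0 (fun M => (hg M).1) (fun x => ?_) (Eventually.of_forall fun M => (hg M).2)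
  refine Tendsto.const_mul _ ?_
  rw [AvT_eq (hwc x) o hε n]
  have hψ : ContinuousOn (fun τ => ∑ k ∈ range n, Ac o (V4 (wx f x)) (2 ^ k * ε * τ) / τ)
      (Set.Icc 1 2) :=
    continuousOn_finsetSum _ fun k _ => Ac_contOn (hwc x) o (by positivity)
  exact riemann hψ

end

end Vale.Agent.N141
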