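import Vale.Agent.N141.BotB
import Vale.Agent.P141.H530.RealC

/-!
# P141, bottom of the chain with a vector of exponents: single scales, the truncated integral
-/

namespace Vale.Agent.N141

open MeasureTheory Filter Topology
open scoped ENNReal
open Vale.Agent.P141.H530
open Vale.Agent.P141.PL.H620

noncomputable section

/-- a product of powers with exponents in the hypersimplex is at most a product of two factors -/
theorem prod_le_pair {y a : Fin 4 → ℝ} (hy : ∀ j, 0 ≤ y j) (ha0 : ∀ j, 0 ≤ a j) (ha1 : ∀ j, a j ≤ 1)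
    (hs : ∑ j, a j ≤ 2) : ∃ i j : Fin 4, i ≠ j ∧ ∏ k, y k ^ a k ≤ (1 + y i) * (1 + y j) := by
  classical
  obtain ⟨i, -, hi⟩ := Finset.exists_max_image (Finset.univ : Finset (Fin 4)) y Finset.univ_nonempty
  have hne : ((Finset.univ : Finset (Fin 4)).erase i).Nonempty := by
    rw [← Finset.card_pos, Finset.card_erase_of_mem (Finset.mem_univ i)]
    simp
  obtain ⟨j, hj, hj2⟩ := Finset.exists_max_image _ y hne
  have hji : j ≠ i := (Finset.mem_erase.1 hj).1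
  refine ⟨i, j, hji.symm, ?_⟩
  have z1 : ∀ k, 1 ≤ 1 + y k := fun k => by linarith [hy k]
  have z0 : ∀ k, 0 < 1 + y k := fun k => by linarith [hy k]
  have h1 : ∏ k, y k ^ a k ≤ ∏ k, (1 + y k) ^ a k :=
    Finset.prod_le_prod (fun k _ => Real.rpow_nonneg (hy k) _) fun k _ =>
      Real.rpow_le_rpow (hy k) (by linarith) (ha0 k)
  refine h1.trans ?_
  rw [← Finset.mul_prod_erase _ _ (Finset.mem_univ i)]
  have h2 : ∏ k ∈ Finset.univ.erase i, (1 + y k) ^ a k ≤ ∏ k ∈ Finset.univ.erase i, (1 + y j) ^ a k :=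
    Finset.prod_le_prod (fun k _ => Real.rpow_nonneg (z0 k).le _) fun k hk =>
      Real.rpow_le_rpow (z0 k).le (by linarith [hj2 k hk]) (ha0 k)
  have h3 : ∏ k ∈ Finset.univ.erase i, (1 + y j) ^ a k =
      (1 + y j) ^ (∑ k ∈ Finset.univ.erase i, a k) := (Real.rpow_sum_of_pos (z0 j) _ _).symm
  have h4 : ∑ k ∈ Finset.univ.erase i, a k ≤ (1 - a i) + 1 := by
    have := Finset.add_sum_erase _ a (Finset.mem_univ i)
    linarith
  have h5 : (1 + y j) ^ (∑ k ∈ Finset.univ.erase i, a k) ≤ (1 + y j) ^ (1 - a i) * (1 + y j) := by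
    rw [← Real.rpow_add_one (z0 j).ne']
    exact Real.rpow_le_rpow_of_exponent_le (z1 j) h4
  have h6 : (1 + y j) ^ (1 - a i) ≤ (1 + y i) ^ (1 - a i) :=
    Real.rpow_le_rpow (z0 j).le (by linarith [hi j (Finset.mem_univ j)]) (by linarith [ha1 i])
  have h7 : (1 + y i) ^ a i * (1 + y i) ^ (1 - a i) = 1 + y i := by
    rw [← Real.rpow_add (z0 i), add_sub_cancel, Real.rpow_one]
  have h8 : 0 ≤ (1 + y i) ^ a i := Real.rpow_nonneg (z0 i).le _
  calc (1 + y i) ^ a i * ∏ k ∈ Finset.univ.erase i, (1 + y k) ^ a k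
      ≤ (1 + y i) ^ a i * ((1 + y i) ^ (1 - a i) * (1 + y j)) := by
        refine mul_le_mul_of_nonneg_left (h2.trans (h3.le.trans (h5.trans ?_))) h8
        exact mul_le_mul_of_nonneg_right h6 (z0 j).le
    _ = _ := by rw [← mul_assoc, h7]

theorem lintegral_scale {B : ℝ → ℝ≥0∞} (hB : Measurable B) (s : ℝ) {c : ℝ} (hc : 1 ≤ |c|) :
    ∫⁻ u, B (s + c * u) ≤ ∫⁻ u, B u := by
  have hc0 : c ≠ 0 := by
    rintro rfl
    rw [abs_zero] at hc
    linarith
  have hm : Measurable fun u : ℝ => B (s + u) := hB.comp (measurable_const_add s)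
  have h1 := lintegral_map (μ := (volume : Measure ℝ)) hm (measurable_const_mul c)
  rw [Real.map_volume_mul_left hc0, lintegral_smul_measure, lintegral_add_left_eq_self] at h1
  rw [← h1, smul_eq_mul]
  refine mul_le_of_le_one_left' ?_
  rw [abs_inv]
  exact ENNReal.ofReal_le_one.2 (inv_le_one_of_one_le₀ hc)

/-- two independent linear forms -/
theorem pair_int {A B : ℝ → ℝ≥0∞} (hA : Measurable A) (hB : Measurable B) {α β : ℝ}
    (h : 1 ≤ |α - β|) :
    ∫⁻ x, ∫⁻ u, A (x - α * u) * B (x - β * u) ≤ (∫⁻ x, A x) * ∫⁻ x, B x := by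
  have m1 : Measurable fun p : ℝ × ℝ => A (p.1 - α * p.2) * B (p.1 - β * p.2) :=
    (hA.comp (by fun_prop)).mul (hB.comp (by fun_prop))
  have m2 : Measurable fun p : ℝ × ℝ => A p.2 * B (p.2 + (α - β) * p.1) :=
    (hA.comp (by fun_prop)).mul (hB.comp (by fun_prop))
  calc ∫⁻ x, ∫⁻ u, A (x - α * u) * B (x - β * u)
      = ∫⁻ u, ∫⁻ x, A (x - α * u) * B (x - β * u) := by
        rw [lintegral_lintegral_swap]
        exact m1.aemeasurable
    _ = ∫⁻ u, ∫⁻ s, A s * B (s + (α - β) * u) := by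
        refine lintegral_congr fun u => ?_
        rw [← lintegral_sub_right_eq_self (fun s => A s * B (s + (α - β) * u)) (α * u)]
        refine lintegral_congr fun x => ?_
        congr 2
        ring
    _ = ∫⁻ s, ∫⁻ u, A s * B (s + (α - β) * u) := by
        rw [lintegral_lintegral_swap]
        exact m2.aemeasurable
    _ ≤ ∫⁻ s, A s * ∫⁻ u, B u := by
        refine lintegral_mono fun s => ?_
        have k : Measurable fun u : ℝ => B (s + (α - β) * u) := hB.comp (by fun_prop)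
        rw [lintegral_const_mul _ k]
        exact mul_le_mul_right (lintegral_scale hB s h) _
    _ = _ := lintegral_mul_const _ hA

theorem one_le_abs_sub {i j : Fin 4} (h : i ≠ j) : (1 : ℝ) ≤ |((i : ℕ) : ℝ) - ((j : ℕ) : ℝ)| := by
  have h1 : ((i : ℕ) : ℤ) - ((j : ℕ) : ℤ) ≠ 0 := by
    intro h2
    apply h
    ext
    omega
  have h2 : (1 : ℤ) ≤ |((i : ℕ) : ℤ) - ((j : ℕ) : ℤ)| := Int.one_le_abs h1
  exact_mod_cast h2

/-- the form of a single scale -/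
theorem quad_int {q : Fin 4 → ℝ} (hq1 : ∀ j, 1 ≤ q j) (hqs : ∑ j, (q j)⁻¹ ≤ 2)
    {f G : Fin 4 → ℝ → ℝ} (hf : ∀ j, Measurable (f j)) (hG : ∀ j, Integrable (G j))
    (hG0 : ∀ j x, 0 ≤ G j x) (hfG : ∀ j x, |f j x| ^ q j ≤ G j x) {ρ : ℝ} (hρ : 0 < ρ) {a x' : ℝ}
    (h1 : a ≤ x') (h2 : x' ≤ a + ρ) {b : Fin 4 → ℝ} (hb : ∀ j, 0 < b j)
    (hbM : ∀ j, MM (G j) x' ≤ ENNReal.ofReal (b j ^ q j)) :
    ∫⁻ x in Set.Ioc a (a + ρ), ∫⁻ u in Set.Ioc (-ρ) ρ,
      ‖f 0 x‖ₑ * (‖f 1 (x - u)‖ₑ * ‖f 2 (x - 2 * u)‖ₑ * ‖f 3 (x - 3 * u)‖ₑ) ≤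
      ENNReal.ofReal (18252 * ρ ^ 2 * ∏ j, b j) := by
  classical
  have hq0 : ∀ j, 0 < q j := fun j => by linarith [hq1 j]
  have hbq : ∀ j, 0 < b j ^ q j := fun j => Real.rpow_pos_of_pos (hb j) _
  have hB : 0 < ∏ j, b j := Finset.prod_pos fun j _ => hb j
  set J := Set.Icc (a - 3 * ρ) (a + 4 * ρ) with hJ
  have hJm : MeasurableSet J := measurableSet_Icc
  set y : Fin 4 → ℝ → ℝ := fun j z => |f j z| ^ q j / b j ^ q j with hy
  have hy0 : ∀ j z, 0 ≤ y j z := fun j z =>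
    div_nonneg (Real.rpow_nonneg (abs_nonneg _) _) (hbq j).le
  have hym : ∀ j, Measurable (y j) := fun j => (((hf j).abs).pow_const _).div_const _
  set Y : Fin 4 → ℝ → ℝ≥0∞ := fun j => J.indicator fun z => ENNReal.ofReal (1 + y j z) with hY
  have hYm : ∀ j, Measurable (Y j) := fun j =>
    (ENNReal.measurable_ofReal.comp ((hym j).const_add 1)).indicator hJm
  -- the integrals of `Y`
  have hYi : ∀ j, ∫⁻ z, Y j z ≤ ENNReal.ofReal (39 * ρ) := by
    intro j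
    have hmv : mv (G j) ρ x' ≤ b j ^ q j := by
      have h3 : ENNReal.ofReal (mv (G j) ρ x') ≤ ENNReal.ofReal (b j ^ q j) :=
        (mv_le_MM (G j) hρ (by simp; positivity)).trans (hbM j)
      exact (ENNReal.ofReal_le_ofReal_iff (hbq j).le).1 h3
    have hGJ : ∫⁻ x in J, ENNReal.ofReal (G j x) ≤ ENNReal.ofReal (32 * ρ * b j ^ q j) := by
      have h3 : ∫⁻ x in J, ENNReal.ofReal (G j x) ≤
          ∫⁻ x in Metric.ball x' (16 * ρ), ENNReal.ofReal (G j x) := by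
        refine lintegral_mono_set fun x hx => ?_
        rw [Metric.mem_ball, Real.dist_eq, abs_lt]
        constructor <;> linarith [hx.1, hx.2]
      refine h3.trans ?_
      rw [← mv_eq_lintegral (hG j) (hG0 j) hρ]
      exact ENNReal.ofReal_le_ofReal (mul_le_mul_of_nonneg_left hmv (by positivity))
    have hp : ∀ z, ENNReal.ofReal (1 + y j z) ≤
        1 + ENNReal.ofReal (b j ^ q j)⁻¹ * ENNReal.ofReal (G j z) := by
      intro z
      rw [ENNReal.ofReal_add zero_le_one (hy0 j z), ENNReal.ofReal_one,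
        ← ENNReal.ofReal_mul (inv_pos.2 (hbq j)).le]
      refine add_le_add le_rfl (ENNReal.ofReal_le_ofReal ?_)
      simp only [hy]
      rw [div_eq_inv_mul]
      exact mul_le_mul_of_nonneg_left (hfG j z) (inv_pos.2 (hbq j)).le
    simp only [hY]
    rw [lintegral_indicator hJm]
    refine (lintegral_mono hp).trans ?_
    rw [lintegral_add_left measurable_const, lintegral_const_mul' _ _ ENNReal.ofReal_ne_top,
      setLIntegral_const, hJ, Real.volume_Icc, one_mul]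
    refine (add_le_add le_rfl (mul_le_mul_right hGJ _)).trans ?_
    rw [← ENNReal.ofReal_mul (inv_pos.2 (hbq j)).le, ← ENNReal.ofReal_add (by linarith)
      (by have := hbq j; positivity)]
    refine ENNReal.ofReal_le_ofReal (le_of_eq ?_)
    have := (hbq j).ne'
    field_simp
    ring
  -- the pointwise bound
  set S : ℝ → ℝ → ℝ≥0∞ := fun x u => ∑ p ∈ (Finset.univ : Finset (Fin 4)).offDiag,
    Y p.1 (x - (p.1 : ℕ) * u) * Y p.2 (x - (p.2 : ℕ) * u) with hS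
  have hpt : ∀ x ∈ Set.Ioc a (a + ρ), ∀ u ∈ Set.Ioc (-ρ) ρ,
      ‖f 0 x‖ₑ * (‖f 1 (x - u)‖ₑ * ‖f 2 (x - 2 * u)‖ₑ * ‖f 3 (x - 3 * u)‖ₑ) ≤
        ENNReal.ofReal (∏ j, b j) * S x u := by
    intro x hx u hu
    have hmem : ∀ j : Fin 4, x - (j : ℕ) * u ∈ J := by
      intro j
      have k0 : (0 : ℝ) ≤ (j : ℕ) := by positivity
      have k3 : ((j : ℕ) : ℝ) ≤ 3 := by
        have : (j : ℕ) ≤ 3 := by omega
        exact_mod_cast this
      constructor <;> nlinarith [hx.1, hx.2, hu.1, hu.2]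
    obtain ⟨i, j, hij, hle⟩ := prod_le_pair (y := fun k => y k (x - (k : ℕ) * u))
      (a := fun k => (q k)⁻¹) (fun k => hy0 k _) (fun k => (inv_pos.2 (hq0 k)).le)
      (fun k => inv_le_one_of_one_le₀ (hq1 k)) hqs
    have e1 : ∀ k z, |f k z| = b k * y k z ^ (q k)⁻¹ := by
      intro k z
      simp only [hy]
      rw [← Real.div_rpow (abs_nonneg _) (hb k).le, Real.rpow_rpow_inv
        (div_nonneg (abs_nonneg _) (hb k).le) (hq0 k).ne', mul_div_cancel₀ _ (hb k).ne']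
    have e2 : ‖f 0 x‖ₑ * (‖f 1 (x - u)‖ₑ * ‖f 2 (x - 2 * u)‖ₑ * ‖f 3 (x - 3 * u)‖ₑ) =
        ENNReal.ofReal (∏ k : Fin 4, |f k (x - (k : ℕ) * u)|) := by
      rw [ENNReal.ofReal_prod_of_nonneg fun k _ => abs_nonneg _, Fin.prod_univ_four]
      simp only [Real.enorm_eq_ofReal_abs, Fin.val_zero, Fin.val_one, Fin.val_two,
        show ((3 : Fin 4) : ℕ) = 3 from rfl, Nat.cast_zero, Nat.cast_one, Nat.cast_ofNat,
        zero_mul, sub_zero, one_mul]
      ring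
    rw [e2]
    simp only [e1]
    rw [Finset.prod_mul_distrib, ENNReal.ofReal_mul hB.le]
    refine mul_le_mul_right ((ENNReal.ofReal_le_ofReal hle).trans ?_) _
    rw [ENNReal.ofReal_mul (by linarith [hy0 i (x - (i : ℕ) * u)])]
    have h3 : (i, j) ∈ (Finset.univ : Finset (Fin 4)).offDiag := by simp [hij]
    refine le_trans (le_of_eq ?_) (Finset.single_le_sum (f := fun p : Fin 4 × Fin 4 =>
      Y p.1 (x - (p.1 : ℕ) * u) * Y p.2 (x - (p.2 : ℕ) * u)) (fun _ _ => zero_le) h3)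
    simp only [hY, Set.indicator_of_mem (hmem i), Set.indicator_of_mem (hmem j)]
  have hterm : ∀ p : Fin 4 × Fin 4, Measurable fun z : ℝ × ℝ =>
      Y p.1 (z.1 - (p.1 : ℕ) * z.2) * Y p.2 (z.1 - (p.2 : ℕ) * z.2) := fun p =>
    ((hYm p.1).comp (by fun_prop)).mul ((hYm p.2).comp (by fun_prop))
  have hSi : ∫⁻ x, ∫⁻ u, S x u ≤ 12 * (ENNReal.ofReal (39 * ρ) * ENNReal.ofReal (39 * ρ)) := by
    have e1 : ∀ x, ∫⁻ u, S x u = ∑ p ∈ (Finset.univ : Finset (Fin 4)).offDiag,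
        ∫⁻ u, Y p.1 (x - (p.1 : ℕ) * u) * Y p.2 (x - (p.2 : ℕ) * u) := fun x =>
      lintegral_finsetSum _ fun p _ => (hterm p).comp (measurable_prodMk_left (x := x))
    simp only [e1]
    rw [lintegral_finsetSum _ fun p _ => (hterm p).lintegral_prod_right']
    refine (Finset.sum_le_sum fun p hp => (pair_int (hYm p.1) (hYm p.2)
      (one_le_abs_sub (Finset.mem_offDiag.1 hp).2.2)).trans (mul_le_mul' (hYi _) (hYi _))).trans ?_
    rw [Finset.sum_const, Finset.offDiag_card, nsmul_eq_mul]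
    simp
  calc _ ≤ ∫⁻ x in Set.Ioc a (a + ρ), ∫⁻ u in Set.Ioc (-ρ) ρ, ENNReal.ofReal (∏ j, b j) * S x u :=
        setLIntegral_mono' measurableSet_Ioc fun x hx =>
          setLIntegral_mono' measurableSet_Ioc fun u hu => hpt x hx u hu
    _ ≤ ∫⁻ x, ∫⁻ u, ENNReal.ofReal (∏ j, b j) * S x u :=
        (setLIntegral_le_lintegral _ _).trans (lintegral_mono fun x =>
          setLIntegral_le_lintegral _ _)
    _ = ENNReal.ofReal (∏ j, b j) * ∫⁻ x, ∫⁻ u, S x u := by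
        simp only [lintegral_const_mul' _ _ ENNReal.ofReal_ne_top]
    _ ≤ ENNReal.ofReal (∏ j, b j) * (12 * (ENNReal.ofReal (39 * ρ) * ENNReal.ofReal (39 * ρ))) :=
        mul_le_mul_right hSi _
    _ = _ := by
        rw [← ENNReal.ofReal_mul (by positivity), show (12 : ℝ≥0∞) = ENNReal.ofReal 12 by norm_num,
          ← ENNReal.ofReal_mul (by norm_num), ← ENNReal.ofReal_mul hB.le]
        congr 1
        ring

/-- **single scale averages** -/
theorem singleV {q : Fin 4 → ℝ} (hq1 : ∀ j, 1 ≤ q j) (hqs : ∑ j, (q j)⁻¹ ≤ 2)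
    {f G : Fin 4 → ℝ → ℝ} {H : ℝ} (hd : DomV q f G H) (hH : 0 ≤ H)
    (hf : ∀ j, Continuous (f j)) {ρ : ℝ} (hρ : 0 < ρ) {r : ℝ} (hr0 : 0 < r) (hr1 : r ≤ 1) :
    ∫⁻ x, (‖f 0 x‖ₑ * ENNReal.ofReal (II (wx f x) ρ / ρ)) ^ r ≤
      18252 * ∫⁻ x, ∏ j, MM (G j) x ^ (r / q j) := by
  have hq0 : ∀ j, 0 < q j := fun j => by linarith [hq1 j]
  have hwc : ∀ x, Continuous (wx f x) := fun x => by
    unfold wx
    have h1 := hf 1
    have h2 := hf 2
    have h3 := hf 3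
    fun_prop
  set φ : ℝ → ℝ≥0∞ := fun x => ‖f 0 x‖ₑ * ENNReal.ofReal (II (wx f x) ρ / ρ) with hφ
  have hφm : Measurable φ := (hd.fm 0).enorm.mul (II_meas hf hρ)
  set N : ℝ → ℝ≥0∞ := fun x => ∏ j, MM (G j) x ^ (r / q j) with hN
  have hNm : Measurable N := Finset.measurable_prod _ fun j _ => (MM_meas (hd.gi j)).pow_const _
  have hρ0 : ENNReal.ofReal ρ ≠ 0 := by simpa using hρ
  -- one interval, one point
  have key : ∀ a x' : ℝ, x' ∈ Set.Ioc a (a + ρ) →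
      ∫⁻ x in Set.Ioc a (a + ρ), φ x ^ r ≤ 18252 * ENNReal.ofReal ρ * N x' := by
    intro a x' hx'
    obtain ⟨bb, hbb⟩ := hd.gb
    have hT : ∀ j, ∃ b : ℝ, 0 < b ∧ MM (G j) x' = ENNReal.ofReal (b ^ q j) := by
      intro j
      have h1 : MM (G j) x' ≠ ∞ := ((MM_le (hd.gi j) (hbb j) x').trans_lt ENNReal.ofReal_lt_top).ne
      have h2 : 0 < MM (G j) x' := (hd.gp j 1 x' one_pos).trans_le
        (Bm_le_MM (G j) one_pos le_rfl (by linarith))
      have h3 : 0 < (MM (G j) x').toReal := ENNReal.toReal_pos h2.ne' h1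
      refine ⟨(MM (G j) x').toReal ^ (1 / q j), Real.rpow_pos_of_pos h3 _, ?_⟩
      rw [← Real.rpow_mul h3.le, one_div_mul_cancel (hq0 j).ne', Real.rpow_one,
        ENNReal.ofReal_toReal h1]
    choose b hb hbT using hT
    have hB : 0 < ∏ j, b j := Finset.prod_pos fun j _ => hb j
    have h1 := quad_int hq1 hqs hd.fm hd.gi hd.g0 (fun j x => hd.dom j x x (by simpa using hH)) hρ
      hx'.1.le hx'.2 hb fun j => (hbT j).le
    have h2 : ∫⁻ x in Set.Ioc a (a + ρ), φ x ≤ ENNReal.ofReal (18252 * ρ * ∏ j, b j) := by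
      have e1 : ∫⁻ x in Set.Ioc a (a + ρ), φ x = (ENNReal.ofReal ρ)⁻¹ *
          ∫⁻ x in Set.Ioc a (a + ρ), ∫⁻ u in Set.Ioc (-ρ) ρ,
            ‖f 0 x‖ₑ * (‖f 1 (x - u)‖ₑ * ‖f 2 (x - 2 * u)‖ₑ * ‖f 3 (x - 3 * u)‖ₑ) := by
        simp only [hφ, fun x => ofReal_II (hwc x) hρ]
        rw [← lintegral_const_mul' _ _ (by simpa using hρ0)]
        refine lintegral_congr fun x => ?_
        rw [lintegral_const_mul' _ _ enorm_ne_top]
        ring
      rw [e1]
      refine (mul_le_mul_right h1 _).trans ?_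
      rw [← ENNReal.ofReal_inv_of_pos hρ, ← ENNReal.ofReal_mul (by positivity)]
      refine ENNReal.ofReal_le_ofReal (le_of_eq ?_)
      field_simp
    refine (hold_set hr0.le hr1 hφm _).trans ?_
    rw [Real.volume_Ioc, add_sub_cancel_left]
    refine (mul_le_mul_left (ENNReal.rpow_le_rpow h2 hr0.le) _).trans ?_
    have hNx : N x' = ENNReal.ofReal ((∏ j, b j) ^ r) := by
      simp only [hN, hbT]
      have e : ∀ j, ENNReal.ofReal (b j ^ q j) ^ (r / q j) = ENNReal.ofReal (b j ^ r) := by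
        intro j
        have := hq0 j
        rw [ENNReal.ofReal_rpow_of_nonneg (Real.rpow_nonneg (hb j).le _) (by positivity),
          ← Real.rpow_mul (hb j).le]
        congr 2
        field_simp
      simp only [e]
      rw [← ENNReal.ofReal_prod_of_nonneg fun j _ => Real.rpow_nonneg (hb j).le _,
        Real.finsetProd_rpow _ _ fun j _ => (hb j).le]
    rw [hNx, ENNReal.ofReal_rpow_of_nonneg (by positivity) hr0.le,
      ENNReal.ofReal_rpow_of_nonneg hρ.le (by linarith), ← ENNReal.ofReal_mul (by positivity),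
      show (18252 : ℝ≥0∞) = ENNReal.ofReal 18252 by norm_num, ← ENNReal.ofReal_mul (by norm_num),
      ← ENNReal.ofReal_mul (by positivity)]
    refine ENNReal.ofReal_le_ofReal ?_
    rw [Real.mul_rpow (by positivity) hB.le, Real.mul_rpow (by norm_num) hρ.le]
    have e2 : ρ ^ r * ρ ^ (1 - r) = ρ := by
      rw [← Real.rpow_add hρ, add_sub_cancel, Real.rpow_one]
    have e3 : (18252 : ℝ) ^ r ≤ 18252 := by
      calc (18252 : ℝ) ^ r ≤ 18252 ^ (1 : ℝ) :=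
            Real.rpow_le_rpow_of_exponent_le (by norm_num) hr1
        _ = 18252 := Real.rpow_one _
    calc (18252 : ℝ) ^ r * ρ ^ r * (∏ j, b j) ^ r * ρ ^ (1 - r) =
        18252 ^ r * (ρ ^ r * ρ ^ (1 - r)) * (∏ j, b j) ^ r := by ring
      _ = 18252 ^ r * ρ * (∏ j, b j) ^ r := by rw [e2]
      _ ≤ 18252 * ρ * (∏ j, b j) ^ r := by
        have : 0 ≤ (∏ j, b j) ^ r := by positivity
        exact mul_le_mul_of_nonneg_right (mul_le_mul_of_nonneg_right e3 hρ.le) this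
  -- one interval
  have key2 : ∀ a : ℝ, ∫⁻ x in Set.Ioc a (a + ρ), φ x ^ r ≤
      18252 * ∫⁻ x in Set.Ioc a (a + ρ), N x := by
    intro a
    have h1 : ENNReal.ofReal ρ * ∫⁻ x in Set.Ioc a (a + ρ), φ x ^ r ≤
        ENNReal.ofReal ρ * (18252 * ∫⁻ x in Set.Ioc a (a + ρ), N x) := by
      calc ENNReal.ofReal ρ * ∫⁻ x in Set.Ioc a (a + ρ), φ x ^ r
          = ∫⁻ _ in Set.Ioc a (a + ρ), ∫⁻ x in Set.Ioc a (a + ρ), φ x ^ r := by
            rw [setLIntegral_const, Real.volume_Ioc, add_sub_cancel_left, mul_comm]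
        _ ≤ ∫⁻ x' in Set.Ioc a (a + ρ), 18252 * ENNReal.ofReal ρ * N x' :=
            setLIntegral_mono' measurableSet_Ioc fun x' hx' => key a x' hx'
        _ = _ := by
            rw [lintegral_const_mul _ hNm]
            ring
    exact (ENNReal.mul_le_mul_iff_right hρ0 ENNReal.ofReal_ne_top).1 h1
  have dec : ∀ ψ : ℝ → ℝ≥0∞, ∫⁻ x, ψ x = ∑' n : ℤ, ∫⁻ x in Set.Ioc (n • ρ) ((n + 1) • ρ), ψ x := by
    intro ψ
    rw [← setLIntegral_univ ψ, ← iUnion_Ioc_zsmul hρ, lintegral_iUnion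
      (fun n => measurableSet_Ioc) (Set.pairwise_disjoint_Ioc_zsmul ρ)]
  show ∫⁻ x, φ x ^ r ≤ 18252 * ∫⁻ x, N x
  rw [dec, dec N, ← ENNReal.tsum_mul_left]
  refine ENNReal.tsum_le_tsum fun n => ?_
  have e : ((n + 1) • ρ : ℝ) = n • ρ + ρ := by rw [add_smul, one_smul]
  rw [e]
  exact key2 _

/-- the truncated integral against the maximal functions of the dominating functions -/
theorem TR_MMV {q : Fin 4 → ℝ} (hq1 : ∀ j, 1 ≤ q j) (hqs : ∑ j, (q j)⁻¹ ≤ 2)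
    {f G : Fin 4 → ℝ → ℝ} {H₀ : ℝ} (hH₀ : 0 < H₀)
    (hd : DomV q f G H₀) (hf : ∀ j, Continuous (f j)) {P : ℝ} (hP : 0 ≤ P)
    (H : ∀ n, RootV q n P) {ε R : ℝ} (hε : 0 < ε) (hR : ε ≤ R)
    {r : ℝ} (hr0 : 0 < r) (hr1 : r ≤ 1) :
    ∫⁻ x, ‖f 0 x * TR f ε R x‖ₑ ^ r ≤ (48 * (ENNReal.ofReal (P ^ r) *
      ENNReal.ofReal (2 ^ r / (1 - (2 : ℝ) ^ (-r))) ^ 4) + 3285414756) *
      ∫⁻ x, ∏ j, MM (G j) x ^ (r / q j) := by
  obtain ⟨n, h1, h2⟩ : ∃ n : ℕ, 2 ^ n * ε ≤ R ∧ R ≤ 2 * (2 ^ n * ε) := by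
    obtain ⟨n, hn1, hn2⟩ := exists_nat_pow_near ((one_le_div hε).2 hR) (one_lt_two : (1 : ℝ) < 2)
    refine ⟨n, by rwa [le_div_iff₀ hε] at hn1, ?_⟩
    rw [div_lt_iff₀ hε, pow_succ] at hn2
    linarith
  have hwc : ∀ x, Continuous (wx f x) := fun x => by
    unfold wx
    have h1 := hf 1
    have h2 := hf 2
    have h3 := hf 3
    fun_prop
  have hq0 : ∀ j, 0 < q j := fun j => by linarith [hq1 j]
  obtain ⟨m1, b1⟩ := lim_boundV hq0 hH₀ hd hf n hP H
    (Or.inl rfl : (1 : ℤ) = 1 ∨ (1 : ℤ) = -1) hε hr0 hr1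
  obtain ⟨m2, b2⟩ := lim_boundV hq0 hH₀ hd hf n hP H
    (Or.inr rfl : (-1 : ℤ) = 1 ∨ (-1 : ℤ) = -1) hε hr0 hr1
  have b3 := singleV hq1 hqs hd hH₀.le hf (by positivity : 0 < 3 * ε) hr0 hr1
  have b4 := singleV hq1 hqs hd hH₀.le hf (by positivity : 0 < 3 * (2 ^ n * ε)) hr0 hr1
  have m3 : Measurable fun x => ‖f 0 x‖ₑ * ENNReal.ofReal (II (wx f x) (3 * ε) / (3 * ε)) :=
    (hd.fm 0).enorm.mul (II_meas hf (by positivity : 0 < 3 * ε))
  have m4 : Measurable fun x => ‖f 0 x‖ₑ *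
      ENNReal.ofReal (II (wx f x) (3 * (2 ^ n * ε)) / (3 * (2 ^ n * ε))) :=
    (hd.fm 0).enorm.mul (II_meas hf (by positivity : 0 < 3 * (2 ^ n * ε)))
  have hpt : ∀ x, ‖f 0 x * TR f ε R x‖ₑ ^ r ≤ 24 * ‖f 0 x * AvT 1 f ε n x‖ₑ ^ r +
      24 * ‖f 0 x * AvT (-1) f ε n x‖ₑ ^ r +
      90000 * (‖f 0 x‖ₑ * ENNReal.ofReal (II (wx f x) (3 * ε) / (3 * ε))) ^ r +
      90003 * (‖f 0 x‖ₑ *
        ENNReal.ofReal (II (wx f x) (3 * (2 ^ n * ε)) / (3 * (2 ^ n * ε)))) ^ r := by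
    intro x
    simp only [enorm_mul, ENNReal.mul_rpow_of_nonneg _ _ hr0.le]
    refine (mul_le_mul_right (TR_pt' (hwc x) hε h1 h2 hr0 hr1) _).trans (le_of_eq ?_)
    ring
  refine (lintegral_mono hpt).trans ?_
  have n1 : Measurable fun x => 24 * ‖f 0 x * AvT 1 f ε n x‖ₑ ^ r :=
    (m1.enorm.pow_const _).const_mul _
  have n2 : Measurable fun x => 24 * ‖f 0 x * AvT (-1) f ε n x‖ₑ ^ r :=
    (m2.enorm.pow_const _).const_mul _
  have n3 : Measurable fun x =>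
      90000 * (‖f 0 x‖ₑ * ENNReal.ofReal (II (wx f x) (3 * ε) / (3 * ε))) ^ r :=
    (m3.pow_const _).const_mul _
  have n12 : Measurable fun x => 24 * ‖f 0 x * AvT 1 f ε n x‖ₑ ^ r +
      24 * ‖f 0 x * AvT (-1) f ε n x‖ₑ ^ r := n1.add n2
  have n123 : Measurable fun x => 24 * ‖f 0 x * AvT 1 f ε n x‖ₑ ^ r +
      24 * ‖f 0 x * AvT (-1) f ε n x‖ₑ ^ r +
      90000 * (‖f 0 x‖ₑ * ENNReal.ofReal (II (wx f x) (3 * ε) / (3 * ε))) ^ r := n12.add n3
  rw [lintegral_add_left n123, lintegral_add_left n12,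
    lintegral_add_left n1, lintegral_const_mul _ (m1.enorm.pow_const _),
    lintegral_const_mul _ (m2.enorm.pow_const _), lintegral_const_mul _ (m3.pow_const _),
    lintegral_const_mul _ (m4.pow_const _)]
  set N := ∫⁻ x, ∏ j, MM (G j) x ^ (r / q j) with hN
  set c := ENNReal.ofReal (2 ^ r / (1 - (2 : ℝ) ^ (-r))) with hc
  set p := ENNReal.ofReal (P ^ r) with hp
  calc _ ≤ 24 * (p * (c ^ 4 * N)) + 24 * (p * (c ^ 4 * N)) + 90000 * (18252 * N) +
        90003 * (18252 * N) := by gcongr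
    _ = (48 * (p * c ^ 4) + 3285414756) * N := by ring

end

end Vale.Agent.N141
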