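import Vale.Agent.N141.BotC
import Vale.Agent.P141.H530.CplxC

/-!
# P141, bottom of the chain with a vector of exponents: domination by maximal functions

`dom_main`: for `0 < r ≤ 1` and continuous functions,
`∫ |g₀ T_{ε,R}(g₁, g₂, g₃)|^r ≤ C ∫ ∏ (M |g_j|^(q j))^(r / q j)`.
-/

namespace Vale.Agent.N141

open MeasureTheory Filter Topology
open scoped ENNReal
open Vale.Agent.P141.H530
open Vale.Agent.P141.PL.H620
open Vale.Agent.P141 (truncTHT)

noncomputable section

theorem mv_mono {F G : ℝ → ℝ} (hF : ∀ a b, IntervalIntegrable F volume a b)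
    (hG : ∀ a b, IntervalIntegrable G volume a b) (h : ∀ x, F x ≤ G x) {t : ℝ} (ht : 0 < t) (c : ℝ) :
    mv F t c ≤ mv G t c := by
  unfold mv
  refine mul_le_mul_of_nonneg_left ?_ (by positivity)
  exact intervalIntegral.integral_mono (by linarith) (hF _ _) (hG _ _) h

theorem MM_mono {F G : ℝ → ℝ} (hF : ∀ a b, IntervalIntegrable F volume a b)
    (hG : ∀ a b, IntervalIntegrable G volume a b) (h : ∀ x, F x ≤ G x) (x : ℝ) :
    MM F x ≤ MM G x :=
  iSup_mono fun p => ENNReal.ofReal_le_ofReal (mv_mono hF hG h p.2.1 _)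

/-- the dominating function of a nonnegative continuous function with compact support -/
theorem dom_one {F : ℝ → ℝ} (hF : Continuous F) (hs : HasCompactSupport F) (h0 : ∀ x, 0 ≤ F x)
    (hne : ∃ x, F x ≠ 0) : ∃ (G : ℝ → ℝ) (H : ℝ), 0 < H ∧ Integrable G ∧ (∀ x, 0 ≤ G x) ∧
      (∃ b : ℝ, ∀ x, G x ≤ b) ∧ (∀ t X, 0 < t → 0 < Bm G t X) ∧
      (∀ x y, |y - x| ≤ H → F x ≤ G y) ∧ ∀ x, MM G x ≤ 2 * MM F x := by
  obtain ⟨M₀, hM₀⟩ := (hs.isCompact).isBounded.subset_closedBall (0 : ℝ)
  set M : ℝ := |M₀| + 1 with hM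
  have hM0 : 0 < M := by positivity
  have hM' : ∀ x, F x ≠ 0 → |x| ≤ M - 1 := by
    intro x hx
    have h2 := hM₀ (subset_tsupport _ hx)
    rw [Metric.mem_closedBall, Real.dist_eq, sub_zero] at h2
    have := le_abs_self M₀
    linarith
  have hFi : Integrable F := hF.integrable_of_hasCompactSupport hs
  set I : ℝ := ∫ x, F x with hI
  have hI0 : 0 < I := by
    obtain ⟨x, hx⟩ := hne
    exact hF.integral_pos_of_hasCompactSupport_nonneg_nonzero hs h0 hx
  have hfull : ∀ a b : ℝ, a ≤ -M → M ≤ b → ∫ x in a..b, F x = I := by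
    intro a b ha hb
    refine intervalIntegral.integral_eq_integral_of_support_subset fun x hx => ?_
    have := abs_le.1 (hM' x hx)
    constructor <;> linarith [this.1, this.2]
  set χ : ℝ → ℝ := (Set.Icc (-M) M).indicator fun _ => 1 with hχ
  have hχi : Integrable χ :=
    (integrable_indicator_iff measurableSet_Icc).2 (integrableOn_const (by simp))
  have hχ0 : ∀ x, 0 ≤ χ x := fun x => Set.indicator_nonneg (fun _ _ => zero_le_one) x
  have hχ1 : ∀ x, χ x ≤ 1 := fun x => Set.indicator_le_self' (fun _ _ => zero_le_one) x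
  have hχI : ∫ x, χ x = 2 * M := by
    rw [hχ, integral_indicator measurableSet_Icc, setIntegral_const, smul_eq_mul, mul_one,
      Real.volume_real_Icc_of_le (by linarith)]
    ring
  set δ : ℝ := I / (6 * M) with hδ
  have hδ0 : 0 < δ := by positivity
  set G : ℝ → ℝ := fun x => F x + δ * χ x with hG
  have hGi : Integrable G := hFi.add (hχi.const_mul δ)
  have hFG : ∀ x, F x ≤ G x := fun x => le_add_of_nonneg_right (mul_nonneg hδ0.le (hχ0 x))
  obtain ⟨H, hH, hH2⟩ := Metric.uniformContinuous_iff.1 (hs.uniformContinuous_of_continuous hF) δ hδ0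
  refine ⟨G, min 1 (H / 2), by positivity, hGi, fun x => (h0 x).trans (hFG x), ?_, ?_, ?_, ?_⟩
  · obtain ⟨C, hC⟩ := hs.exists_bound_of_continuous hF
    refine ⟨C + δ, fun x => ?_⟩
    have h1 := (le_abs_self _).trans (hC x)
    have h2 := mul_le_mul_of_nonneg_left (hχ1 x) hδ0.le
    simp only [hG]
    linarith
  · intro t X ht
    have hX := abs_nonneg X
    have hs0 : 0 < t + |X| + M := by positivity
    have h1 := le_iSup (fun p : {p : ℝ × ℝ // t ≤ p.1 ∧ |p.2| ≤ p.1 - t} =>
      ENNReal.ofReal (mv G p.1.1 (X + p.1.2))) ⟨(t + |X| + M, 0), by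
        simp only [abs_zero]; constructor <;> linarith⟩
    refine lt_of_lt_of_le ?_ h1
    rw [ENNReal.ofReal_pos]
    refine lt_of_lt_of_le ?_ (mv_mono (fun _ _ => hFi.intervalIntegrable)
      (fun _ _ => hGi.intervalIntegrable) hFG hs0 _)
    unfold mv
    rw [hfull _ _ (by simp only [add_zero]; linarith [le_abs_self X])
      (by simp only [add_zero]; linarith [neg_abs_le X])]
    positivity
  · intro x y hxy
    by_cases hx : F x = 0
    · rw [hx]
      exact (h0 y).trans (hFG y)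
    have h1 : |y - x| ≤ 1 := hxy.trans (min_le_left _ _)
    have h2 : |y - x| < H := by
      have := hxy.trans (min_le_right _ _)
      linarith
    have h3 := hH2 (a := y) (b := x) (by rwa [Real.dist_eq])
    rw [Real.dist_eq] at h3
    have h4 : |y| ≤ M := by
      have h5 := hM' x hx
      have h6 := abs_add_le (y - x) x
      rw [sub_add_cancel] at h6
      linarith
    have h5 : χ y = 1 := Set.indicator_of_mem (Set.mem_Icc.2 (abs_le.1 h4)) _
    simp only [hG, h5]
    linarith [(abs_lt.1 h3).1]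
  · intro x
    refine iSup_le fun p => ?_
    obtain ⟨⟨t, c⟩, ht, hc⟩ := p
    simp only at ht hc ⊢
    have e1 : mv G t (x + c) = mv F t (x + c) + δ * mv χ t (x + c) := by
      unfold mv
      simp only [hG]
      rw [intervalIntegral.integral_add hFi.intervalIntegrable
        (hχi.const_mul δ).intervalIntegrable, intervalIntegral.integral_const_mul]
      ring
    have k1 : ENNReal.ofReal (mv F t (x + c)) ≤ MM F x := mv_le_MM F ht (by simpa using hc)
    have k2 : ENNReal.ofReal (δ * mv χ t (x + c)) ≤ MM F x := by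
      by_cases hfar : 16 * t + M < |x + c|
      · have h1 : ∫ y in (x + c - 16 * t)..(x + c + 16 * t), χ y = 0 := by
          rw [← intervalIntegral.integral_zero (a := x + c - 16 * t) (b := x + c + 16 * t)
            (μ := volume)]
          refine intervalIntegral.integral_congr fun y hy => ?_
          rw [Set.uIcc_of_le (by linarith)] at hy
          refine Set.indicator_of_notMem (fun h2 => ?_) _
          rcases lt_abs.1 hfar with h3 | h3 <;> linarith [hy.1, hy.2, h2.1, h2.2]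
        unfold mv
        rw [h1, mul_zero, mul_zero, ENNReal.ofReal_zero]
        exact zero_le
      · have hnear := abs_le.1 (not_lt.1 hfar)
        have ht' : 0 < t + M / 8 := by positivity
        refine le_trans (ENNReal.ofReal_le_ofReal ?_) (mv_le_MM F ht' (c := x + c) (by
          rw [add_sub_cancel_left]; linarith))
        have h1 : mv F (t + M / 8) (x + c) = (32 * (t + M / 8))⁻¹ * I := by
          unfold mv
          rw [hfull _ _ (by linarith [hnear.2]) (by linarith [hnear.1])]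
        have h2 : mv χ t (x + c) ≤ 1 := mv_le hχ1 hχi ht _
        have h3 : 32 * t * mv χ t (x + c) ≤ 2 * M := by
          unfold mv
          rw [mul_inv_cancel_left₀ (by positivity), intervalIntegral.integral_of_le (by linarith),
            ← hχI]
          exact setIntegral_le_integral hχi (ae_of_all _ hχ0)
        rw [h1, le_inv_mul_iff₀ (by positivity), hδ]
        have h4 : 32 * (t + M / 8) * (I / (6 * M) * mv χ t (x + c)) =
            I * ((32 * t * mv χ t (x + c) + 4 * M * mv χ t (x + c)) / (6 * M)) := by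
          field_simp
          ring
        rw [h4]
        refine mul_le_of_le_one_right hI0.le ((div_le_one (by positivity)).2 ?_)
        nlinarith
    rw [e1, two_mul]
    exact ENNReal.ofReal_add_le.trans (add_le_add k1 k2)

/-- the constant of the domination -/
def Cd (r P : ℝ) : ℝ≥0∞ := 128 * (48 * (ENNReal.ofReal (P ^ r) *
  ENNReal.ofReal (2 ^ r / (1 - (2 : ℝ) ^ (-r))) ^ 4) + 3285414756)

theorem Cd_ne_top (r P : ℝ) : Cd r P ≠ ∞ := by
  unfold Cd
  refine ENNReal.mul_ne_top (by norm_num) (ENNReal.add_ne_top.2 ⟨ENNReal.mul_ne_top (by norm_num)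
    (ENNReal.mul_ne_top ENNReal.ofReal_ne_top (ENNReal.pow_ne_top ENNReal.ofReal_ne_top)),
    by norm_num⟩)

section
variable {q : Fin 4 → ℝ} (hq1 : ∀ j, 1 ≤ q j) (hqs : ∑ j, (q j)⁻¹ ≤ 2) {P : ℝ} (hP : 0 ≤ P)
  (H : ∀ n, RootV q n P) {r : ℝ} (hr0 : 0 < r) (hr1 : r ≤ 1)
include hq1 hqs hP H hr0 hr1

/-- real continuous functions with compact support -/
theorem real_dom {f : Fin 4 → ℝ → ℝ} (hf : ∀ j, Continuous (f j))
    (hs : ∀ j, HasCompactSupport (f j)) {ε R : ℝ} (hε : 0 < ε) (hR : ε ≤ R) :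
    8 * ∫⁻ x, ‖f 0 x * TR f ε R x‖ₑ ^ r ≤
      Cd r P * ∫⁻ x, ∏ j, MM (fun y => |f j y| ^ q j) x ^ (r / q j) := by
  have hq0 : ∀ j, 0 < q j := fun j => by linarith [hq1 j]
  by_cases hz : ∃ j, ∀ x, f j x = 0
  · obtain ⟨j, hj⟩ := hz
    have h1 : ∀ x, f 0 x * TR f ε R x = 0 := by
      intro x
      unfold TR wx
      fin_cases j <;> simp only [Fin.zero_eta, Fin.mk_one, Fin.reduceFinMk] at hj <;> simp [hj]
    simp only [h1, enorm_zero, ENNReal.zero_rpow_of_pos hr0, lintegral_zero, mul_zero, zero_le]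
  have hFc : ∀ j, Continuous fun y => |f j y| ^ q j := fun j =>
    (hf j).abs.rpow_const fun _ => Or.inr (hq0 j).le
  have hone := fun j => dom_one (hFc j) (by
      refine (hs j).comp_left (g := fun t : ℝ => |t| ^ q j) ?_
      simp [(hq0 j).ne']) (fun x => Real.rpow_nonneg (abs_nonneg _) _) (by
      by_contra hc
      refine hz ⟨j, fun x => ?_⟩
      by_contra hx
      exact hc ⟨x, (Real.rpow_pos_of_pos (abs_pos.2 hx) _).ne'⟩)
  choose G Hh hH hGi hG0 hGb hGp hGd hGM using hone
  choose b hb using hGb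
  obtain ⟨j₀, -, hj₀⟩ := Finset.exists_min_image (Finset.univ : Finset (Fin 4)) Hh
    Finset.univ_nonempty
  have hd : DomV q f G (Hh j₀) :=
    { fm := fun j => (hf j).measurable
      fs := fun j => by
        obtain ⟨M, hM⟩ := (hs j).isCompact.isBounded.subset_closedBall (0 : ℝ)
        refine ⟨M, fun x hx => ?_⟩
        by_contra h
        have h1 := hM (subset_tsupport _ h)
        rw [Metric.mem_closedBall, Real.dist_eq, sub_zero] at h1
        linarith
      gi := hGi
      g0 := hG0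
      gb := ⟨∑ j, |b j|, fun j x => (hb j x).trans ((le_abs_self _).trans
        (Finset.single_le_sum (f := fun j => |b j|) (fun i _ => abs_nonneg _) (Finset.mem_univ j)))⟩
      gp := hGp
      dom := fun j x y hxy => hGd j x y (hxy.trans (hj₀ j (Finset.mem_univ j))) }
  have h1 := TR_MMV hq1 hqs (hH j₀) hd hf hP H hε hR hr0 hr1
  have h2 : ∀ x, ∏ j, MM (G j) x ^ (r / q j) ≤
      16 * ∏ j, MM (fun y => |f j y| ^ q j) x ^ (r / q j) := by
    intro x
    have h3 : ∀ j, MM (G j) x ^ (r / q j) ≤ 2 * MM (fun y => |f j y| ^ q j) x ^ (r / q j) := by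
      intro j
      have h4 : 0 ≤ r / q j := div_nonneg hr0.le (hq0 j).le
      refine (ENNReal.rpow_le_rpow (hGM j x) h4).trans ?_
      rw [ENNReal.mul_rpow_of_nonneg _ _ h4]
      refine mul_le_mul_left ?_ _
      calc (2 : ℝ≥0∞) ^ (r / q j) ≤ 2 ^ (1 : ℝ) :=
            ENNReal.rpow_le_rpow_of_exponent_le (by norm_num)
              ((div_le_one (hq0 j)).2 (hr1.trans (hq1 j)))
        _ = 2 := ENNReal.rpow_one _
    refine (Finset.prod_le_prod' fun j _ => h3 j).trans (le_of_eq ?_)
    rw [Finset.prod_mul_distrib, Finset.prod_const, Finset.card_univ, Fintype.card_fin]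
    norm_num
  have h3 := lintegral_mono (μ := (volume : Measure ℝ)) h2
  rw [lintegral_const_mul' _ _ (by norm_num)] at h3
  refine (mul_le_mul_right (h1.trans (mul_le_mul_right h3 _)) _).trans (le_of_eq ?_)
  unfold Cd
  ring

/-- complex continuous functions with compact support -/
theorem cplx_dom {g : Fin 4 → ℝ → ℂ} (hg : ∀ j, Continuous (g j))
    (hs : ∀ j, HasCompactSupport (g j)) {ε R : ℝ} (hε : 0 < ε) (hR : ε < R) :
    ∫⁻ x, ‖g 0 x * truncTHT (g 1) (g 2) (g 3) ε R x‖ₑ ^ r ≤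
      Cd r P * ∫⁻ x, ∏ j, MM (fun y => ‖g j y‖ ^ q j) x ^ (r / q j) := by
  have hq0 : ∀ j, 0 < q j := fun j => by linarith [hq1 j]
  set f : Bool × Bool × Bool → Fin 4 → ℝ → ℝ := fun s =>
    ![fun x => ‖g 0 x‖, pa s.1 (g 1), pa s.2.1 (g 2), pa s.2.2 (g 3)] with hf
  have hfc : ∀ s j, Continuous (f s j) := by
    intro s j
    fin_cases j
    · exact (hg 0).norm
    · exact pa_cont _ (hg 1)
    · exact pa_cont _ (hg 2)
    · exact pa_cont _ (hg 3)
  have hfs : ∀ s j, HasCompactSupport (f s j) := by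
    intro s j
    fin_cases j
    · exact (hs 0).norm
    · exact pa_supp _ (hs 1)
    · exact pa_supp _ (hs 2)
    · exact pa_supp _ (hs 3)
  have hfl : ∀ s j y, |f s j y| ≤ ‖g j y‖ := by
    intro s j y
    fin_cases j
    · exact (abs_norm _).le
    · exact pa_le _ (g 1) y
    · exact pa_le _ (g 2) y
    · exact pa_le _ (g 3) y
  have hTR : ∀ s, TR (fn (g 1) (g 2) (g 3) s) ε R = TR (f s) ε R := fun s => rfl
  set B : ℝ≥0∞ := Cd r P * ∫⁻ x, ∏ j, MM (fun y => ‖g j y‖ ^ q j) x ^ (r / q j) with hB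
  have hone : ∀ s, 8 * ∫⁻ x, ‖f s 0 x * TR (f s) ε R x‖ₑ ^ r ≤ B := by
    intro s
    refine (real_dom hq1 hqs hP H hr0 hr1 (hfc s) (hfs s) hε hR.le).trans ?_
    refine mul_le_mul_right (lintegral_mono fun x => Finset.prod_le_prod' fun j _ => ?_) _
    refine ENNReal.rpow_le_rpow (MM_mono (fun _ _ => ?_) (fun _ _ => ?_) (fun y => ?_) x)
      (div_nonneg hr0.le (hq0 j).le)
    · exact ((hfc s j).abs.rpow_const fun _ => Or.inr (hq0 j).le).intervalIntegrable _ _
    · exact ((hg j).norm.rpow_const fun _ => Or.inr (hq0 j).le).intervalIntegrable _ _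
    · exact Real.rpow_le_rpow (abs_nonneg _) (hfl s j y) (hq0 j).le
  have hpt : ∀ x, ‖g 0 x * truncTHT (g 1) (g 2) (g 3) ε R x‖ₑ ^ r ≤
      ∑ s : Bool × Bool × Bool, ‖f s 0 x * TR (f s) ε R x‖ₑ ^ r := by
    intro x
    rw [trunc_sum (hg 1) (hg 2) (hg 3) hε hR, Finset.mul_sum]
    refine (ENNReal.rpow_le_rpow (enorm_sum_le _ _) hr0.le).trans ?_
    refine (rpow_sum_le _ _ hr0 hr1).trans (Finset.sum_le_sum fun s _ => ?_)
    refine ENNReal.rpow_le_rpow (le_of_eq ?_) hr0.le
    rw [hTR, enorm_mul, enorm_mul, ka, enorm_mul, enorm_mul, norm_cI, norm_cI, norm_cI, one_mul,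
      one_mul, one_mul, enorm_mul, ← ofReal_norm (TR (f s) ε R x), ← Complex.norm_real, ofReal_norm]
    congr 1
    exact (enorm_norm _).symm
  have hme : ∀ s, Measurable fun x => f s 0 x * TR (f s) ε R x := fun s =>
    (hfc s 0).measurable.mul (TR_meas (hfc s) hR.le)
  refine (lintegral_mono hpt).trans ?_
  rw [lintegral_finsetSum _ fun s _ => (hme s).enorm.pow_const _]
  have h8 : (8 : ℝ≥0∞) * ∑ s : Bool × Bool × Bool, ∫⁻ x, ‖f s 0 x * TR (f s) ε R x‖ₑ ^ r ≤ 8 * B := by
    rw [Finset.mul_sum]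
    refine (Finset.sum_le_sum fun s _ => hone s).trans (le_of_eq ?_)
    rw [Finset.sum_const, Finset.card_univ, nsmul_eq_mul]
    simp only [Fintype.card_prod, Fintype.card_bool]
    norm_num
  exact (ENNReal.mul_le_mul_iff_right (by norm_num) (by norm_num)).1 h8

/-- **domination by maximal functions**, complex continuous functions -/
theorem dom_main {g : Fin 4 → ℝ → ℂ} (hg : ∀ j, Continuous (g j)) {ε R : ℝ} (hε : 0 < ε)
    (hR : ε < R) :
    ∫⁻ x, ‖g 0 x * truncTHT (g 1) (g 2) (g 3) ε R x‖ₑ ^ r ≤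
      Cd r P * ∫⁻ x, ∏ j, MM (fun y => ‖g j y‖ ^ q j) x ^ (r / q j) := by
  have hq0 : ∀ j, 0 < q j := fun j => by linarith [hq1 j]
  set F : ℕ → ℝ → ℝ≥0∞ := fun k x =>
    ‖cf k (g 0) x * truncTHT (cf k (g 1)) (cf k (g 2)) (cf k (g 3)) ε R x‖ₑ ^ r with hF
  have e1 : ∀ x, ‖g 0 x * truncTHT (g 1) (g 2) (g 3) ε R x‖ₑ ^ r =
      liminf (fun k => F k x) atTop := by
    intro x
    have h4 : Tendsto (fun k => F k x) atTop
        (𝓝 (‖g 0 x * truncTHT (g 1) (g 2) (g 3) ε R x‖ₑ ^ r)) := by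
      refine tendsto_const_nhds.congr' ?_
      obtain ⟨k₀, hk₀⟩ := exists_nat_gt (|x| + 3 * R)
      filter_upwards [eventually_ge_atTop k₀] with k hk
      have h5 : |x| + 3 * R ≤ (k : ℝ) := hk₀.le.trans (by exact_mod_cast hk)
      simp only [hF]
      rw [trunc_cut _ _ _ h5, cf_eq (g 0) (by linarith)]
    exact h4.liminf_eq.symm
  simp only [e1]
  have hme : ∀ k : ℕ, Measurable fun x =>
      cf k (g 0) x * truncTHT (cf k (g 1)) (cf k (g 2)) (cf k (g 3)) ε R x := fun k =>
    (cf_cont _ (hg 0)).measurable.mul (trunc_meas (cf_cont _ (hg 1)) (cf_cont _ (hg 2))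
      (cf_cont _ (hg 3)) hε hR)
  refine (lintegral_liminf_le fun k => (hme k).enorm.pow_const r).trans ?_
  refine liminf_le_of_frequently_le' (Frequently.of_forall fun k => ?_)
  refine (cplx_dom hq1 hqs hP H hr0 hr1 (g := fun j => cf k (g j)) (fun j => cf_cont _ (hg j))
    (fun j => cf_supp _ _) hε hR).trans ?_
  refine mul_le_mul_right (lintegral_mono fun x => Finset.prod_le_prod' fun j _ => ?_) _
  refine ENNReal.rpow_le_rpow (MM_mono (fun _ _ => ?_) (fun _ _ => ?_) (fun y => ?_) x)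
    (div_nonneg hr0.le (hq0 j).le)
  · exact ((cf_cont _ (hg j)).norm.rpow_const fun _ => Or.inr (hq0 j).le).intervalIntegrable _ _
  · exact ((hg j).norm.rpow_const fun _ => Or.inr (hq0 j).le).intervalIntegrable _ _
  · exact Real.rpow_le_rpow (norm_nonneg _) (cf_le _ _ y) (hq0 j).le

end

end

end Vale.Agent.N141
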