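import Vale.Agent.P141.H879.Last

/-!
# P141: the intermediate statements of the starting proof, with no hypothesis
-/

namespace Vale.Agent.N141

open Vale.Agent.P141

/-- the class statement -/
theorem ce1q : H305.CE1q :=
  H401.ce1q_of_NI_fM (H401.cstUV_NI1 H222.Nb.lBCg) H401.cstUV_fM0

theorem genOut2 : H927.GenOut2 :=
  H927.genOut2_of_cen (H879.cenStM_of_ce1q ce1q) H879.cenStL2

theorem cfOut : H501.CFOut := H927.cfOut_of_gen2 genOut2

/-- **CE, no hypothesis.** -/
theorem ceOut : H501.CEOut := H501.ceOut_of_cf cfOut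

theorem stepIn : PL.H855.StepIn := H501.stepIn_of_ce_end ceOut H585M.endStmT

theorem stepHyp : H444.StepHyp := PL.H855.stepHyp_of_stepIn stepIn

theorem levelSys2 : H347.LevelSys2 :=
  H444.levelSys2_of_stepHyp (H48.Cen_nonneg (ε := 1 / 4) (by norm_num))
    (H48.enOut (ε := 1 / 4) (by norm_num) le_rfl) stepHyp

/-- **The root estimate with `L²` windows, one constant.** -/
theorem root2 : ∃ P : ℝ, 0 ≤ P ∧ ∀ n : ℕ, H347.Root2 n P := H347.root2_of_levelSys2 levelSys2

/-- the same in the format of `H337` -/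
theorem rootQ2 : ∃ P : ℝ, 0 ≤ P ∧ ∀ n : ℕ, H337.RootQ 2 n P := by
  obtain ⟨P, hP, H⟩ := root2
  exact ⟨P, hP, fun n => H347.root2_iff.1 (H n)⟩

end Vale.Agent.N141
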