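import Vale.Agent.P141.H530.CplxC

/-!
# P141: extension to all `L^p` inputs, I: local estimates and approximation
-/

namespace Vale.Agent.N141.Ext

open MeasureTheory Set Filter Topology
open scoped ENNReal NNReal SchwartzMap
open Vale.Agent.P141 (truncTHT)
open Vale.Agent.P141.H530 (trilin trunc_eq)

noncomputable section

/-- the product on the line through `x` -/
def pr (f₁ f₂ f₃ : ℝ → ℂ) (x t : ℝ) : ℂ := f₁ (x - t) * f₂ (x - 2 * t) * f₃ (x - 3 * t)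

/-- the domain of integration -/
def An (ε R : ℝ) : Set ℝ := {t : ℝ | ε < |t| ∧ |t| < R}

theorem An_meas (ε R : ℝ) : MeasurableSet (An ε R) :=
  (measurableSet_lt measurable_const (measurable_norm (α := ℝ))).inter
    (measurableSet_lt (measurable_norm (α := ℝ)) measurable_const)

theorem trunc_def (f₁ f₂ f₃ : ℝ → ℂ) (ε R x : ℝ) :
    truncTHT f₁ f₂ f₃ ε R x = ∫ t in An ε R, pr f₁ f₂ f₃ x t / (t : ℂ) := rfl

/-- the local `L²` norm -/
def lc (N : ℝ) (f : ℝ → ℂ) : ℝ≥0∞ := eLpNorm f 2 (volume.restrict (Icc (-(7 * N)) (7 * N)))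

/-- measurable and locally square integrable -/
structure L2 (f : ℝ → ℂ) : Prop where
  meas : Measurable f
  fin : ∀ N, lc N f ≠ ∞

theorem L2.of_memLp {p : ℝ≥0∞} (hp : 2 ≤ p) {f : ℝ → ℂ} (hm : Measurable f)
    (hf : MemLp f p volume) : L2 f :=
  ⟨hm, fun N => ((hf.restrict (Icc (-(7 * N)) (7 * N))).mono_exponent hp).eLpNorm_ne_top⟩

theorem lint_add3 {μ : Measure ℝ} {a b c : ℝ → ℝ≥0∞} (ha : Measurable a) (hb : Measurable b) :
    ∫⁻ x, a x + b x + c x ∂μ = (∫⁻ x, a x ∂μ) + (∫⁻ x, b x ∂μ) + ∫⁻ x, c x ∂μ := by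
  have hab : Measurable fun x => a x + b x := ha.add hb
  rw [lintegral_add_left hab, lintegral_add_left ha]

theorem lc_mono {N N' : ℝ} (h : N ≤ N') (f : ℝ → ℂ) : lc N f ≤ lc N' f :=
  eLpNorm_mono_measure _ (Measure.restrict_mono (Icc_subset_Icc (by linarith) (by linarith)) le_rfl)

theorem lc_le_add {N : ℝ} {f g : ℝ → ℂ} (hf : Measurable f) (hg : Measurable g) :
    lc N g ≤ lc N f + lc N (g - f) := by
  have h := eLpNorm_add_le (μ := volume.restrict (Icc (-(7 * N)) (7 * N))) (p := 2)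
    hf.aestronglyMeasurable (hg.sub hf).aestronglyMeasurable (by norm_num)
  rwa [add_sub_cancel] at h

theorem pr_meas {f₁ f₂ f₃ : ℝ → ℂ} (h₁ : Measurable f₁) (h₂ : Measurable f₂) (h₃ : Measurable f₃) :
    Measurable fun p : ℝ × ℝ => pr f₁ f₂ f₃ p.1 p.2 := by
  unfold pr
  exact ((h₁.comp (by fun_prop)).mul (h₂.comp (by fun_prop))).mul (h₃.comp (by fun_prop))

theorem trunc_meas' {f₁ f₂ f₃ : ℝ → ℂ} (h₁ : Measurable f₁) (h₂ : Measurable f₂)
    (h₃ : Measurable f₃) (ε R : ℝ) : Measurable (truncTHT f₁ f₂ f₃ ε R) := by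
  have hm : Measurable fun p : ℝ × ℝ => pr f₁ f₂ f₃ p.1 p.2 / (p.2 : ℂ) :=
    (pr_meas h₁ h₂ h₃).div (Complex.measurable_ofReal.comp measurable_snd)
  exact (hm.stronglyMeasurable.integral_prod_right' (ν := volume.restrict (An ε R))).measurable

/-- the local trilinear estimate -/
theorem loc {f₁ f₂ f₃ : ℝ → ℂ} (h₁ : Measurable f₁) (h₂ : Measurable f₂) (h₃ : Measurable f₃)
    {N : ℝ} (hN : 0 < N) :
    ∫⁻ x in Ioc (-N) N, ∫⁻ u in Ioc (-(2 * N)) (2 * N), ‖pr f₁ f₂ f₃ x u‖ₑ ≤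
      ENNReal.ofReal (2 * N) ^ (1 / 2 : ℝ) * (lc N f₁ * lc N f₂ * lc N f₃) := by
  have h := trilin (e := ![fun _ => 0, fun x => ‖f₁ x‖ₑ, fun x => ‖f₂ x‖ₑ, fun x => ‖f₃ x‖ₑ])
    (fun j => by
      fin_cases j
      exacts [measurable_const, h₁.enorm, h₂.enorm, h₃.enorm]) (ρ := 2 * N) (by positivity) (-N)
  have e1 : -N + 2 * N = N := by ring
  have e2 : -N - 3 * (2 * N) = -(7 * N) := by ring
  have e3 : -N + 4 * (2 * N) = 7 * N := by ring
  rw [e1, e2, e3] at h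
  have e4 : ∀ f : ℝ → ℂ, lc N f =
      (∫⁻ x in Icc (-(7 * N)) (7 * N), ‖f x‖ₑ ^ (2 : ℝ)) ^ (1 / 2 : ℝ) := fun f => by
    unfold lc
    rw [eLpNorm_eq_lintegral_rpow_enorm_toReal (by norm_num) (by norm_num)]
    norm_num
  rw [e4, e4, e4]
  refine le_trans (le_of_eq ?_) (h.trans (le_of_eq ?_))
  · refine lintegral_congr fun x => lintegral_congr fun u => ?_
    unfold pr
    rw [enorm_mul, enorm_mul]
    rfl
  · rw [ENNReal.mul_rpow_of_nonneg _ _ (by norm_num), ENNReal.mul_rpow_of_nonneg _ _ (by norm_num)]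
    simp only [Matrix.cons_val_one, Matrix.cons_val_zero, Matrix.cons_val]
    ring

theorem lint_An (φ : ℝ → ℂ) {ε R N : ℝ} (hε : 0 < ε) (hR : R ≤ 2 * N) :
    ∫⁻ t in An ε R, ‖φ t / (t : ℂ)‖ₑ ≤
      ENNReal.ofReal ε⁻¹ * ∫⁻ t in Ioc (-(2 * N)) (2 * N), ‖φ t‖ₑ := by
  have h1 : ∫⁻ t in An ε R, ‖φ t / (t : ℂ)‖ₑ ≤ ∫⁻ t in An ε R, ENNReal.ofReal ε⁻¹ * ‖φ t‖ₑ := by
    refine setLIntegral_mono' (An_meas ε R) fun t ht => ?_
    rw [← ofReal_norm, ← ofReal_norm, ← ENNReal.ofReal_mul (by positivity)]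
    refine ENNReal.ofReal_le_ofReal ?_
    rw [norm_div, Complex.norm_real, Real.norm_eq_abs, div_eq_inv_mul]
    exact mul_le_mul_of_nonneg_right (inv_anti₀ hε ht.1.le) (norm_nonneg _)
  refine h1.trans ?_
  rw [lintegral_const_mul' _ _ ENNReal.ofReal_ne_top]
  refine mul_le_mul_right (lintegral_mono_set fun t ht => ?_) _
  have h2 := abs_lt.1 ht.2
  exact ⟨by linarith [h2.1], by linarith [h2.2]⟩

theorem exists_N (x R : ℝ) : ∃ n : ℕ, x ∈ Ioc (-((n : ℝ) + 1)) ((n : ℝ) + 1) ∧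
    R ≤ 2 * ((n : ℝ) + 1) := by
  obtain ⟨n, hn⟩ := exists_nat_gt (|x| + |R|)
  have h1 := abs_nonneg x
  have h2 := abs_nonneg R
  have h3 := le_abs_self x
  have h4 := neg_abs_le x
  have h5 := le_abs_self R
  exact ⟨n, ⟨by linarith, by linarith⟩, by linarith⟩

/-- **the integrand is integrable for almost every `x`** -/
theorem ae_int {f₁ f₂ f₃ : ℝ → ℂ} (h₁ : L2 f₁) (h₂ : L2 f₂) (h₃ : L2 f₃) :
    ∀ᵐ x, ∀ ε R : ℝ, 0 < ε → IntegrableOn (fun t : ℝ => pr f₁ f₂ f₃ x t / (t : ℂ)) (An ε R) := by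
  have hm := pr_meas h₁.meas h₂.meas h₃.meas
  have h : ∀ n : ℕ, ∀ᵐ x, x ∈ Ioc (-((n : ℝ) + 1)) ((n : ℝ) + 1) →
      ∫⁻ u in Ioc (-(2 * ((n : ℝ) + 1))) (2 * ((n : ℝ) + 1)), ‖pr f₁ f₂ f₃ x u‖ₑ < ∞ := by
    intro n
    rw [← ae_restrict_iff' measurableSet_Ioc]
    refine ae_lt_top hm.enorm.lintegral_prod_right' ?_
    refine ((loc h₁.meas h₂.meas h₃.meas (by positivity)).trans_lt ?_).ne
    exact ENNReal.mul_lt_top (ENNReal.rpow_lt_top_of_nonneg (by norm_num) ENNReal.ofReal_ne_top)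
      (ENNReal.mul_lt_top (ENNReal.mul_lt_top (h₁.fin _).lt_top (h₂.fin _).lt_top)
        (h₃.fin _).lt_top)
  filter_upwards [ae_all_iff.2 h] with x hx ε R hε
  obtain ⟨n, hn1, hn2⟩ := exists_N x R
  refine ⟨?_, ?_⟩
  · exact ((hm.comp (measurable_const.prodMk measurable_id)).div
      Complex.measurable_ofReal).aestronglyMeasurable
  · exact (lint_An (pr f₁ f₂ f₃ x) hε hn2).trans_lt
      (ENNReal.mul_lt_top ENNReal.ofReal_lt_top (hx n hn1))

theorem pr_sub (f₁ f₂ f₃ g₁ g₂ g₃ : ℝ → ℂ) (x t : ℝ) :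
    pr g₁ g₂ g₃ x t - pr f₁ f₂ f₃ x t =
      pr (g₁ - f₁) g₂ g₃ x t + pr f₁ (g₂ - f₂) g₃ x t + pr f₁ f₂ (g₃ - f₃) x t := by
  simp only [pr, Pi.sub_apply]
  ring

/-- **convergence almost everywhere along fast approximations** -/
theorem ae_conv {f₁ f₂ f₃ : ℝ → ℂ} (h₁ : L2 f₁) (h₂ : L2 f₂) (h₃ : L2 f₃) {g₁ g₂ g₃ : ℕ → ℝ → ℂ}
    (m₁ : ∀ n, Measurable (g₁ n)) (m₂ : ∀ n, Measurable (g₂ n)) (m₃ : ∀ n, Measurable (g₃ n))
    (l₁ : ∀ n, L2 (g₁ n)) (l₂ : ∀ n, L2 (g₂ n)) (l₃ : ∀ n, L2 (g₃ n))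
    (a₁ : ∀ n : ℕ, lc ((n : ℝ) + 1) (g₁ n - f₁) ≤ 2⁻¹ ^ n)
    (a₂ : ∀ n : ℕ, lc ((n : ℝ) + 1) (g₂ n - f₂) ≤ 2⁻¹ ^ n)
    (a₃ : ∀ n : ℕ, lc ((n : ℝ) + 1) (g₃ n - f₃) ≤ 2⁻¹ ^ n) :
    ∀ᵐ x, ∀ ε R : ℝ, 0 < ε → Tendsto (fun n => truncTHT (g₁ n) (g₂ n) (g₃ n) ε R x) atTop
      (𝓝 (truncTHT f₁ f₂ f₃ ε R x)) := by
  set D : ℕ → ℕ → ℝ → ℝ≥0∞ := fun N n x => ∫⁻ u in Ioc (-(2 * ((N : ℝ) + 1))) (2 * ((N : ℝ) + 1)),
    ‖pr (g₁ n) (g₂ n) (g₃ n) x u - pr f₁ f₂ f₃ x u‖ₑ with hD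
  have hDm : ∀ N n, Measurable (D N n) := fun N n =>
    ((pr_meas (m₁ n) (m₂ n) (m₃ n)).sub
      (pr_meas h₁.meas h₂.meas h₃.meas)).enorm.lintegral_prod_right'
  have half : ∀ n : ℕ, (2⁻¹ : ℝ≥0∞) ^ n ≤ 1 := fun n => pow_le_one₀ zero_le (by norm_num)
  have h : ∀ N : ℕ, ∀ᵐ x, x ∈ Ioc (-((N : ℝ) + 1)) ((N : ℝ) + 1) →
      Tendsto (fun n => D N n x) atTop (𝓝 0) := by
    intro N
    set M : ℝ := (N : ℝ) + 1 with hM
    have hM0 : 0 < M := by positivity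
    set c : ℝ≥0∞ := ENNReal.ofReal (2 * M) ^ (1 / 2 : ℝ) with hc
    set b₁ := lc M f₁ + 1 with hb₁
    set b₂ := lc M f₂ + 1 with hb₂
    set b₃ := lc M f₃ + 1 with hb₃
    have hb : ∀ n : ℕ, ∫⁻ x in Ioc (-M) M, D N (n + N) x ≤ 3 * (c * (b₁ * b₂ * b₃)) * 2⁻¹ ^ n := by
      intro n
      have hle : M ≤ ((n + N : ℕ) : ℝ) + 1 := by
        rw [hM]; push_cast; linarith [n.cast_nonneg (α := ℝ)]
      have hp : (2⁻¹ : ℝ≥0∞) ^ (n + N) ≤ 2⁻¹ ^ n := by
        rw [pow_add]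
        exact mul_le_of_le_one_right' (half N)
      have d₁ : lc M (g₁ (n + N) - f₁) ≤ 2⁻¹ ^ n := ((lc_mono hle _).trans (a₁ _)).trans hp
      have d₂ : lc M (g₂ (n + N) - f₂) ≤ 2⁻¹ ^ n := ((lc_mono hle _).trans (a₂ _)).trans hp
      have d₃ : lc M (g₃ (n + N) - f₃) ≤ 2⁻¹ ^ n := ((lc_mono hle _).trans (a₃ _)).trans hp
      have e₂ : lc M (g₂ (n + N)) ≤ b₂ :=
        (lc_le_add h₂.meas (m₂ _)).trans (add_le_add le_rfl (d₂.trans (half n)))
      have e₃ : lc M (g₃ (n + N)) ≤ b₃ :=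
        (lc_le_add h₃.meas (m₃ _)).trans (add_le_add le_rfl (d₃.trans (half n)))
      have k₁ : lc M f₁ ≤ b₁ := le_self_add
      have k₂ : lc M f₂ ≤ b₂ := le_self_add
      have o₁ : 1 ≤ b₁ := le_add_self
      have o₂ : 1 ≤ b₂ := le_add_self
      have o₃ : 1 ≤ b₃ := le_add_self
      have p₁ := pr_meas ((m₁ (n + N)).sub h₁.meas) (m₂ (n + N)) (m₃ (n + N))
      have p₂ := pr_meas h₁.meas ((m₂ (n + N)).sub h₂.meas) (m₃ (n + N))
      have p₃ := pr_meas h₁.meas h₂.meas ((m₃ (n + N)).sub h₃.meas)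
      have t₁ := loc ((m₁ (n + N)).sub h₁.meas) (m₂ (n + N)) (m₃ (n + N)) hM0
      have t₂ := loc h₁.meas ((m₂ (n + N)).sub h₂.meas) (m₃ (n + N)) hM0
      have t₃ := loc h₁.meas h₂.meas ((m₃ (n + N)).sub h₃.meas) hM0
      have hpt : ∀ x, D N (n + N) x ≤
          (∫⁻ u in Ioc (-(2 * M)) (2 * M), ‖pr (g₁ (n + N) - f₁) (g₂ (n + N)) (g₃ (n + N)) x u‖ₑ) +
          (∫⁻ u in Ioc (-(2 * M)) (2 * M), ‖pr f₁ (g₂ (n + N) - f₂) (g₃ (n + N)) x u‖ₑ) +
          ∫⁻ u in Ioc (-(2 * M)) (2 * M), ‖pr f₁ f₂ (g₃ (n + N) - f₃) x u‖ₑ := by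
        intro x
        have q₁ : Measurable fun u => ‖pr (g₁ (n + N) - f₁) (g₂ (n + N)) (g₃ (n + N)) x u‖ₑ :=
          (p₁.comp (measurable_const.prodMk measurable_id)).enorm
        have q₂ : Measurable fun u => ‖pr f₁ (g₂ (n + N) - f₂) (g₃ (n + N)) x u‖ₑ :=
          (p₂.comp (measurable_const.prodMk measurable_id)).enorm
        rw [← lint_add3 q₁ q₂]
        refine lintegral_mono fun u => ?_
        rw [pr_sub]
        exact (enorm_add_le _ _).trans (add_le_add (enorm_add_le _ _) le_rfl)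
      refine (lintegral_mono hpt).trans ?_
      have r₁ : Measurable fun x => ∫⁻ u in Ioc (-(2 * M)) (2 * M),
          ‖pr (g₁ (n + N) - f₁) (g₂ (n + N)) (g₃ (n + N)) x u‖ₑ := p₁.enorm.lintegral_prod_right'
      have r₂ : Measurable fun x => ∫⁻ u in Ioc (-(2 * M)) (2 * M),
          ‖pr f₁ (g₂ (n + N) - f₂) (g₃ (n + N)) x u‖ₑ := p₂.enorm.lintegral_prod_right'
      rw [lint_add3 r₁ r₂]
      have u₁ : lc M (g₁ (n + N) - f₁) * lc M (g₂ (n + N)) * lc M (g₃ (n + N)) ≤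
          b₁ * b₂ * b₃ * 2⁻¹ ^ n :=
        calc _ ≤ 1 * 2⁻¹ ^ n * b₂ * b₃ := by rw [one_mul]; gcongr
          _ ≤ b₁ * 2⁻¹ ^ n * b₂ * b₃ := by gcongr
          _ = _ := by ring
      have u₂ : lc M f₁ * lc M (g₂ (n + N) - f₂) * lc M (g₃ (n + N)) ≤ b₁ * b₂ * b₃ * 2⁻¹ ^ n :=
        calc _ ≤ b₁ * (1 * 2⁻¹ ^ n) * b₃ := by rw [one_mul]; gcongr
          _ ≤ b₁ * (b₂ * 2⁻¹ ^ n) * b₃ := by gcongr
          _ = _ := by ring
      have u₃ : lc M f₁ * lc M f₂ * lc M (g₃ (n + N) - f₃) ≤ b₁ * b₂ * b₃ * 2⁻¹ ^ n :=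
        calc _ ≤ b₁ * b₂ * (1 * 2⁻¹ ^ n) := by rw [one_mul]; gcongr
          _ ≤ b₁ * b₂ * (b₃ * 2⁻¹ ^ n) := by gcongr
          _ = _ := by ring
      refine (add_le_add (add_le_add (t₁.trans (mul_le_mul_right u₁ _))
        (t₂.trans (mul_le_mul_right u₂ _))) (t₃.trans (mul_le_mul_right u₃ _))).trans
        (le_of_eq ?_)
      ring
    have hfin : 3 * (c * (b₁ * b₂ * b₃)) ≠ ∞ :=
      ENNReal.mul_ne_top (by norm_num) (ENNReal.mul_ne_top
        (ENNReal.rpow_ne_top_of_nonneg (by norm_num) ENNReal.ofReal_ne_top)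
        (ENNReal.mul_ne_top (ENNReal.mul_ne_top
          (ENNReal.add_ne_top.2 ⟨h₁.fin _, ENNReal.one_ne_top⟩)
          (ENNReal.add_ne_top.2 ⟨h₂.fin _, ENNReal.one_ne_top⟩))
          (ENNReal.add_ne_top.2 ⟨h₃.fin _, ENNReal.one_ne_top⟩)))
    have hs : ∫⁻ x in Ioc (-M) M, ∑' n, D N (n + N) x ≠ ∞ := by
      rw [lintegral_tsum fun n => (hDm N _).aemeasurable]
      refine ((ENNReal.tsum_le_tsum hb).trans_lt ?_).ne
      rw [ENNReal.tsum_mul_left, ENNReal.tsum_geometric]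
      exact ENNReal.mul_lt_top hfin.lt_top (by simp)
    rw [← ae_restrict_iff' measurableSet_Ioc]
    filter_upwards [ae_lt_top (Measurable.tsum fun n => hDm N (n + N)) hs] with x hx
    exact (tendsto_add_atTop_iff_nat N).1 (ENNReal.tendsto_atTop_zero_of_tsum_ne_top hx.ne)
  filter_upwards [ae_all_iff.2 h, ae_int h₁ h₂ h₃,
    ae_all_iff.2 fun n => ae_int (l₁ n) (l₂ n) (l₃ n)] with x hx hf hg ε R hε
  obtain ⟨N, hN1, hN2⟩ := exists_N x R
  rw [tendsto_iff_enorm_sub_tendsto_zero]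
  have h5 : Tendsto (fun n => ENNReal.ofReal ε⁻¹ * D N n x) atTop (𝓝 0) := by
    have := ENNReal.Tendsto.const_mul (a := ENNReal.ofReal ε⁻¹) (hx N hN1)
      (Or.inr ENNReal.ofReal_ne_top)
    rwa [mul_zero] at this
  refine tendsto_of_tendsto_of_tendsto_of_le_of_le tendsto_const_nhds h5 (fun _ => zero_le)
    fun n => ?_
  show ‖truncTHT (g₁ n) (g₂ n) (g₃ n) ε R x - truncTHT f₁ f₂ f₃ ε R x‖ₑ ≤ _
  rw [trunc_def, trunc_def, ← integral_sub (hg n ε R hε) (hf ε R hε)]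
  refine (enorm_integral_le_lintegral_enorm _).trans ?_
  simp only [← sub_div]
  exact lint_An (fun t => pr (g₁ n) (g₂ n) (g₃ n) x t - pr f₁ f₂ f₃ x t) hε hN2

/-- approximation by smooth functions with compact support -/
theorem approx {p : ℝ≥0∞} (hp : 2 ≤ p) {f : ℝ → ℂ} (hf : MemLp f p volume) {η : ℝ} (hη : 0 < η)
    (N : ℝ) : ∃ g : ℝ → ℂ, HasCompactSupport g ∧ ContDiff ℝ ((⊤ : ℕ∞) : WithTop ℕ∞) g ∧
      eLpNorm g p volume ≤ eLpNorm f p volume + ENNReal.ofReal η ∧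
      lc N (g - f) ≤ ENNReal.ofReal η := by
  set J := Icc (-(7 * N)) (7 * N) with hJ
  rcases eq_or_ne p ∞ with rfl | hpt
  · set A : ℝ := (eLpNorm f ∞ volume).toReal with hA
    have hA0 : 0 ≤ A := ENNReal.toReal_nonneg
    have hfA : ∀ᵐ x, ‖f x‖ ≤ A := by
      filter_upwards [ae_le_eLpNormEssSup (f := f) (μ := volume)] with x hx
      rw [← eLpNorm_exponent_top, ← ENNReal.ofReal_toReal hf.eLpNorm_ne_top, ← ofReal_norm,
        ENNReal.ofReal_le_ofReal_iff hA0] at hx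
      exact hx
    have h2 : MemLp (J.indicator f) 2 volume :=
      (memLp_indicator_iff_restrict measurableSet_Icc).2 ((hf.restrict _).mono_exponent le_top)
    set L : ℝ := 1 + (4 * A + 2 * η) / η with hL
    have hL0 : 0 < L := by positivity
    obtain ⟨g, hg1, hg2, hg3⟩ := h2.exist_eLpNorm_sub_le (by norm_num) (by norm_num)
      (ε := η / L) (by positivity)
    let χ : ContDiffBump (0 : ℂ) := ⟨A + η / 2, A + η, by positivity, by linarith⟩
    have hρ1 : ∀ z : ℂ, ‖χ z • z‖ ≤ A + η := by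
      intro z
      rcases le_total (A + η) ‖z‖ with h | h
      · rw [χ.zero_of_le_dist (by rwa [dist_zero_right]), zero_smul, norm_zero]
        positivity
      · rw [norm_smul, Real.norm_eq_abs, abs_of_nonneg χ.nonneg]
        have h3 : χ z ≤ 1 := χ.le_one
        have h4 := norm_nonneg z
        nlinarith
    have hρ2 : ∀ z w : ℂ, ‖w‖ ≤ A → ‖χ z • z - w‖ ≤ L * ‖z - w‖ := by
      intro z w hw
      have h4 := norm_nonneg (z - w)
      rcases le_total ‖z‖ (A + η / 2) with h | h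
      · rw [χ.one_of_mem_closedBall (by rwa [Metric.mem_closedBall, dist_zero_right]), one_smul]
        have : 0 ≤ (4 * A + 2 * η) / η * ‖z - w‖ := by positivity
        rw [hL]
        linarith
      · have h5 : η / 2 ≤ ‖z - w‖ := by
          have := norm_sub_norm_le z w
          linarith
        have h6 : ‖χ z • z - w‖ ≤ 2 * A + η := by
          have := norm_sub_le (χ z • z) w
          linarith [hρ1 z]
        have h7 : (4 * A + 2 * η) / η * (η / 2) = 2 * A + η := by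
          field_simp
          ring
        have h8 := mul_le_mul_of_nonneg_left h5 (by positivity : 0 ≤ (4 * A + 2 * η) / η)
        rw [hL]
        linarith
    have hc1 : HasCompactSupport fun x => χ (g x) • g x :=
      hg1.comp_left (g := fun z : ℂ => χ z • z) (smul_zero _)
    have hc2 : ContDiff ℝ ((⊤ : ℕ∞) : WithTop ℕ∞) fun z : ℂ => χ z • z :=
      χ.contDiff.smul contDiff_id
    refine ⟨fun x => χ (g x) • g x, hc1, hc2.comp hg2, ?_, ?_⟩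
    · rw [← ENNReal.ofReal_toReal hf.eLpNorm_ne_top, ← ENNReal.ofReal_add hA0 hη.le,
        eLpNorm_exponent_top]
      exact eLpNormEssSup_le_of_ae_bound (ae_of_all _ fun x => hρ1 (g x))
    · have h9 : lc N ((fun x => χ (g x) • g x) - f) ≤
          ENNReal.ofReal L * eLpNorm (J.indicator f - g) 2 (volume.restrict J) := by
        refine eLpNorm_le_mul_eLpNorm_of_ae_le_mul ?_ 2
        filter_upwards [ae_restrict_of_ae hfA, ae_restrict_mem measurableSet_Icc] with x h3 h4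
        rw [Pi.sub_apply, Pi.sub_apply, indicator_of_mem h4, norm_sub_rev (f x)]
        exact hρ2 _ _ h3
      refine h9.trans ((mul_le_mul_right
        ((eLpNorm_mono_measure _ Measure.restrict_le_self).trans hg3) _).trans (le_of_eq ?_))
      rw [← ENNReal.ofReal_mul hL0.le, mul_div_cancel₀ _ hL0.ne']
  · set c : ℝ≥0∞ := (volume.restrict J) univ ^ (1 / (2 : ℝ≥0∞).toReal - 1 / p.toReal) with hc
    have hp2 : 2 ≤ p.toReal := by
      have := ENNReal.toReal_mono hpt hp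
      simpa using this
    have hcf : c ≠ ∞ := by
      refine ENNReal.rpow_ne_top_of_nonneg ?_ (measure_ne_top _ _)
      have : 1 / p.toReal ≤ 1 / 2 := one_div_le_one_div_of_le (by norm_num) hp2
      simp only [ENNReal.toReal_ofNat]
      linarith
    obtain ⟨d, hd0, hd⟩ := ENNReal.exists_nnreal_pos_mul_lt (a := c) (b := ENNReal.ofReal η) hcf
      (by simpa using hη)
    have hd0' : (0 : ℝ) < d := hd0
    have h1p : (1 : ℝ≥0∞) ≤ p := le_trans (by norm_num) hp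
    obtain ⟨g, hg1, hg2, hg3⟩ := hf.exist_eLpNorm_sub_le hpt h1p (ε := min η d) (lt_min hη hd0')
    have hgm : AEStronglyMeasurable g volume := hg2.continuous.aestronglyMeasurable
    rw [eLpNorm_sub_comm] at hg3
    refine ⟨g, hg1, hg2, ?_, ?_⟩
    · have h := eLpNorm_add_le hf.1 (hgm.sub hf.1) h1p
      rw [add_sub_cancel] at h
      exact h.trans (add_le_add le_rfl (hg3.trans (ENNReal.ofReal_le_ofReal (min_le_left _ _))))
    · refine (eLpNorm_le_eLpNorm_mul_rpow_measure_univ hp (hgm.sub hf.1).restrict).trans ?_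
      refine le_trans (mul_le_mul_left ?_ _) hd.le
      refine ((eLpNorm_mono_measure _ Measure.restrict_le_self).trans hg3).trans ?_
      rw [← ENNReal.ofReal_coe_nnreal]
      exact ENNReal.ofReal_le_ofReal (min_le_right _ _)

end

end Vale.Agent.N141.Ext
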