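import Vale.Agent.N141.Ext1

/-!
# P141: extension to all `L^p` inputs, II: bounds and convergence of the truncations
-/

namespace Vale.Agent.N141.Ext

open MeasureTheory Set Filter Topology
open scoped ENNReal NNReal SchwartzMap
open Vale.Agent.P141 (truncTHT THT)
open Vale.Agent.P141.H530 (trunc_eq cont_div_int lim_delta)

noncomputable section

/-- what is used about the quasi-norms of `L^r` and of weak `L^r` -/
structure Size (N : (ℝ → ℂ) → ℝ≥0∞) (r : ℝ) : Prop where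
  pos : 0 < r
  add : ∃ K : ℝ≥0∞, K ≠ ∞ ∧ ∀ F G : ℝ → ℂ, AEStronglyMeasurable F volume →
    AEStronglyMeasurable G volume → N (F + G) ≤ K * (N F + N G)
  mono : ∀ F G : ℝ → ℂ, (∀ᵐ x, ‖F x‖ ≤ ‖G x‖) → N F ≤ N G
  fatou : ∀ (F : ℕ → ℝ → ℂ) (G : ℝ → ℂ) (B : ℝ≥0∞), (∀ n, AEStronglyMeasurable (F n) volume) →
    (∀ᵐ x, Tendsto (fun n => F n x) atTop (𝓝 (G x))) → (∀ᶠ n in atTop, N (F n) ≤ B) → N G ≤ B
  cheb : ∀ (F : ℝ → ℂ) (t : ℝ), AEStronglyMeasurable F volume → 0 < t →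
    ENNReal.ofReal t * volume {x | t < ‖F x‖} ^ (1 / r) ≤ N F
  small : ∀ (F : ℝ → ℂ) (δ M : ℝ), 0 ≤ δ → (∀ x, ‖F x‖ ≤ δ) → (∀ x, M < |x| → F x = 0) →
    N F ≤ ENNReal.ofReal δ * ENNReal.ofReal (2 * M) ^ (1 / r)

theorem size_eLpNorm {r : ℝ≥0∞} (h0 : r ≠ 0) (ht : r ≠ ∞) :
    Size (fun F => eLpNorm F r volume) r.toReal where
  pos := ENNReal.toReal_pos h0 ht
  add := ⟨_, (ENNReal.LpAddConst_lt_top r).ne, fun _ _ hF hG => eLpNorm_add_le' hF hG r⟩
  mono := fun _ _ h => eLpNorm_mono_ae h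
  fatou := fun _ G _ hF hlim hB => (Lp.eLpNorm_lim_le_liminf_eLpNorm hF G hlim).trans
    (liminf_le_of_frequently_le' hB.frequently)
  cheb := fun F t hF ht0 => by
    have hr := ENNReal.toReal_pos h0 ht
    have h1 := mul_meas_ge_le_pow_eLpNorm' volume h0 ht hF (ENNReal.ofReal t)
    have h2 := ENNReal.rpow_le_rpow h1 (by positivity : 0 ≤ 1 / r.toReal)
    rw [ENNReal.mul_rpow_of_nonneg _ _ (by positivity), ← ENNReal.rpow_mul, ← ENNReal.rpow_mul,
      mul_one_div_cancel hr.ne', ENNReal.rpow_one, ENNReal.rpow_one] at h2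
    refine le_trans (mul_le_mul_right (ENNReal.rpow_le_rpow (measure_mono fun x hx => ?_)
      (by positivity)) _) h2
    show ENNReal.ofReal t ≤ ‖F x‖ₑ
    rw [← ofReal_norm]
    exact ENNReal.ofReal_le_ofReal (le_of_lt hx)
  small := fun F δ M hδ h1 h2 => by
    have h3 : eLpNorm F r volume ≤ eLpNorm ((Icc (-M) M).indicator fun _ => (δ : ℂ)) r volume := by
      refine eLpNorm_mono fun x => ?_
      by_cases hx : x ∈ Icc (-M) M
      · rw [indicator_of_mem hx, Complex.norm_real, Real.norm_eq_abs, abs_of_nonneg hδ]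
        exact h1 x
      · rw [indicator_of_notMem hx, h2 x (not_le.1 fun h => hx (abs_le.1 h))]
    refine h3.trans ((eLpNorm_indicator_const_le _ _).trans (le_of_eq ?_))
    rw [← ofReal_norm, Complex.norm_real, Real.norm_eq_abs, abs_of_nonneg hδ, Real.volume_Icc]
    congr 3
    ring

/-- the quasi-norm of weak `L^r` -/
def wn (r : ℝ) (F : ℝ → ℂ) : ℝ≥0∞ :=
  ⨆ (t : ℝ) (_ : 0 < t), ENNReal.ofReal t * volume {x | t < ‖F x‖} ^ (1 / r)

theorem wn_le_iff {r : ℝ} {F : ℝ → ℂ} {B : ℝ≥0∞} : wn r F ≤ B ↔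
    ∀ t : ℝ, 0 < t → ENNReal.ofReal t * volume {x | t < ‖F x‖} ^ (1 / r) ≤ B := iSup₂_le_iff

theorem le_wn (r : ℝ) (F : ℝ → ℂ) {t : ℝ} (ht : 0 < t) :
    ENNReal.ofReal t * volume {x | t < ‖F x‖} ^ (1 / r) ≤ wn r F := wn_le_iff.1 le_rfl t ht

/-- level sets and pointwise limits -/
theorem level_lim {F : ℕ → ℝ → ℂ} {G : ℝ → ℂ} {t : ℝ} {B : ℝ≥0∞}
    (hlim : ∀ᵐ x, Tendsto (fun k => F k x) atTop (𝓝 (G x)))
    (hB : ∀ᶠ k in atTop, volume {x | t < ‖F k x‖} ≤ B) : volume {x | t < ‖G x‖} ≤ B := by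
  set S : ℕ → Set ℝ := fun m => {x | ∀ k, m ≤ k → t < ‖F k x‖} with hS
  have h1 : {x | t < ‖G x‖} ≤ᵐ[volume] ⋃ m, S m := by
    filter_upwards [hlim] with x hx hx2
    have h2 := hx.norm.eventually (lt_mem_nhds (show t < ‖G x‖ from hx2))
    obtain ⟨m, hm⟩ := eventually_atTop.1 h2
    exact mem_iUnion.2 ⟨m, hm⟩
  have h2 : Monotone S := fun m m' h x hx k hk => hx k (h.trans hk)
  refine (measure_mono_ae h1).trans ?_
  rw [h2.measure_iUnion]
  refine iSup_le fun m => ?_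
  obtain ⟨k, hk1, hk2⟩ := (hB.and (eventually_ge_atTop m)).exists
  exact (measure_mono (show S m ⊆ {x | t < ‖F k x‖} from fun x hx => hx k hk2)).trans hk1

theorem level_iff {t r : ℝ} (ht : 0 < t) (hr : 0 < r) (m B : ℝ≥0∞) :
    ENNReal.ofReal t * m ^ (1 / r) ≤ B ↔ m ≤ (B / ENNReal.ofReal t) ^ r := by
  have ht0 : ENNReal.ofReal t ≠ 0 := by simpa using ht
  rw [← ENNReal.rpow_inv_le_iff hr, ENNReal.le_div_iff_mul_le (Or.inl ht0)
    (Or.inl ENNReal.ofReal_ne_top), mul_comm, one_div]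

theorem size_wn {r : ℝ} (hr : 0 < r) : Size (wn r) r where
  pos := hr
  add := by
    refine ⟨2 * 2 ^ (1 / r), ENNReal.mul_ne_top (by norm_num)
      (ENNReal.rpow_ne_top_of_nonneg (by positivity) (by norm_num)), fun F G _ _ => ?_⟩
    refine wn_le_iff.2 fun t ht => ?_
    set a := volume {x | t / 2 < ‖F x‖} with ha
    set b := volume {x | t / 2 < ‖G x‖} with hb
    have h1 : volume {x | t < ‖(F + G) x‖} ≤ a + b := by
      refine le_trans (measure_mono fun x hx => ?_) (measure_union_le _ _)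
      by_contra hc
      rw [mem_union, not_or] at hc
      have h2 : ‖F x‖ ≤ t / 2 := not_lt.1 hc.1
      have h3 : ‖G x‖ ≤ t / 2 := not_lt.1 hc.2
      have h4 : t < ‖F x + G x‖ := hx
      linarith [norm_add_le (F x) (G x)]
    have h2 : (a + b) ^ (1 / r) ≤ 2 ^ (1 / r) * (a ^ (1 / r) + b ^ (1 / r)) := by
      have h3 : a + b ≤ 2 * max a b := by
        rw [two_mul]
        exact add_le_add (le_max_left _ _) (le_max_right _ _)
      refine (ENNReal.rpow_le_rpow h3 (by positivity)).trans ?_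
      rw [ENNReal.mul_rpow_of_nonneg _ _ (by positivity)]
      refine mul_le_mul_right ?_ _
      rcases le_total a b with h | h
      · rw [max_eq_right h]; exact le_add_self
      · rw [max_eq_left h]; exact le_self_add
    have e : ENNReal.ofReal t = 2 * ENNReal.ofReal (t / 2) := by
      rw [← ENNReal.ofReal_ofNat, ← ENNReal.ofReal_mul (by norm_num)]
      congr 1
      ring
    have h4 := le_wn r F (half_pos ht)
    have h5 := le_wn r G (half_pos ht)
    calc ENNReal.ofReal t * volume {x | t < ‖(F + G) x‖} ^ (1 / r)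
        ≤ ENNReal.ofReal t * (2 ^ (1 / r) * (a ^ (1 / r) + b ^ (1 / r))) :=
          mul_le_mul_right ((ENNReal.rpow_le_rpow h1 (by positivity)).trans h2) _
      _ = 2 * 2 ^ (1 / r) * (ENNReal.ofReal (t / 2) * a ^ (1 / r) +
          ENNReal.ofReal (t / 2) * b ^ (1 / r)) := by rw [e]; ring
      _ ≤ _ := mul_le_mul_right (add_le_add h4 h5) _
  mono := fun F G h => wn_le_iff.2 fun t ht => by
    refine le_trans (mul_le_mul_right (ENNReal.rpow_le_rpow (measure_mono_ae ?_)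
      (by positivity)) _) (le_wn r G ht)
    filter_upwards [h] with x hx hx2
    exact lt_of_lt_of_le hx2 hx
  fatou := fun F G B _ hlim hB => wn_le_iff.2 fun t ht => by
    rw [level_iff ht hr]
    refine level_lim hlim ?_
    filter_upwards [hB] with n hn
    exact (level_iff ht hr _ _).1 (wn_le_iff.1 hn t ht)
  cheb := fun F t _ ht => le_wn r F ht
  small := fun F δ M _ h1 h2 => wn_le_iff.2 fun t ht => by
    rcases le_total δ t with h | h
    · have h3 : {x | t < ‖F x‖} = ∅ :=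
        eq_empty_of_forall_notMem fun x hx => absurd ((h1 x).trans h) (not_le.2 hx)
      rw [h3, measure_empty, ENNReal.zero_rpow_of_pos (by positivity), mul_zero]
      exact zero_le
    · refine mul_le_mul' (ENNReal.ofReal_le_ofReal h) (ENNReal.rpow_le_rpow ?_ (by positivity))
      have h3 : {x | t < ‖F x‖} ⊆ Icc (-M) M := by
        intro x hx
        by_contra hc
        have h4 : t < ‖F x‖ := hx
        rw [h2 x (not_le.1 fun h => hc (abs_le.1 h)), norm_zero] at h4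
        linarith
      refine (measure_mono h3).trans (le_of_eq ?_)
      rw [Real.volume_Icc]
      congr 1
      ring

variable {N : (ℝ → ℂ) → ℝ≥0∞} {r : ℝ}

theorem Size.congr (S : Size N r) {F G : ℝ → ℂ} (h : F =ᵐ[volume] G) : N F = N G :=
  le_antisymm (S.mono _ _ (h.mono fun _ hx => le_of_eq (congrArg _ hx)))
    (S.mono _ _ (h.mono fun _ hx => le_of_eq (congrArg _ hx.symm)))

theorem Size.sub_comm (S : Size N r) (F G : ℝ → ℂ) : N (F - G) ≤ N (G - F) :=
  S.mono _ _ (ae_of_all _ fun _ => le_of_eq (norm_sub_rev _ _))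

theorem Size.add3 (S : Size N r) : ∃ K : ℝ≥0∞, K ≠ ∞ ∧ ∀ F G H : ℝ → ℂ,
    AEStronglyMeasurable F volume → AEStronglyMeasurable G volume →
    AEStronglyMeasurable H volume → N (F + G + H) ≤ K * (N F + N G + N H) := by
  obtain ⟨K, hK, h⟩ := S.add
  have hK1 : K + 1 ≠ ∞ := ENNReal.add_ne_top.2 ⟨hK, ENNReal.one_ne_top⟩
  refine ⟨K * (K + 1), ENNReal.mul_ne_top hK hK1, fun F G H hF hG hH => ?_⟩
  refine (h _ _ (hF.add hG) hH).trans ?_
  rw [mul_assoc]
  refine mul_le_mul_right ?_ _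
  calc N (F + G) + N H ≤ K * (N F + N G) + 1 * N H := by
        rw [one_mul]; exact add_le_add (h _ _ hF hG) le_rfl
    _ ≤ (K + 1) * (N F + N G) + (K + 1) * N H :=
        add_le_add (mul_le_mul_left le_self_add _) (mul_le_mul_left le_add_self _)
    _ = _ := by ring

theorem Size.eq_zero (S : Size N r) {F : ℝ → ℂ} (hF : AEStronglyMeasurable F volume)
    (h : N F = 0) : F =ᵐ[volume] 0 := by
  have hr := S.pos
  have h1 : ∀ n : ℕ, ∀ᵐ x, ‖F x‖ ≤ 1 / ((n : ℝ) + 1) := by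
    intro n
    have h2 := S.cheb F (1 / ((n : ℝ) + 1)) hF (by positivity)
    rw [h, level_iff (by positivity) hr, ENNReal.zero_div, ENNReal.zero_rpow_of_pos hr,
      nonpos_iff_eq_zero] at h2
    rw [ae_iff]
    simpa only [not_le] using h2
  filter_upwards [ae_all_iff.2 h1] with x hx
  exact norm_le_zero_iff.1 (ge_of_tendsto' tendsto_one_div_add_atTop_nhds_zero_nat hx)

/-- completeness -/
theorem Size.cauchy (S : Size N r) {ι : Type*} {l : Filter ι} [l.NeBot] {T : ι → ℝ → ℂ}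
    (hT : ∀ q, AEStronglyMeasurable (T q) volume)
    (hc : ∀ η : ℝ≥0∞, 0 < η → ∃ s ∈ l, ∀ q ∈ s, ∀ q' ∈ s, N (T q - T q') ≤ η) {B : ℝ≥0∞}
    (hB : ∀ᶠ q in l, N (T q) ≤ B) :
    ∃ F : ℝ → ℂ, AEStronglyMeasurable F volume ∧ N F ≤ B ∧
      Tendsto (fun q => N (T q - F)) l (𝓝 0) := by
  have hr := S.pos
  set η : ℕ → ℝ≥0∞ := fun n => ENNReal.ofReal ((1 / 2) ^ n * (1 / 2) ^ n) with hη
  have hη0 : ∀ n, 0 < η n := fun n => ENNReal.ofReal_pos.2 (by positivity)
  choose s hs hs2 using fun n => hc (η n) (hη0 n)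
  have hex : ∀ n : ℕ, ∃ q, N (T q) ≤ B ∧ ∀ k ≤ n, q ∈ s k := by
    intro n
    have h1 : ∀ᶠ q in l, ∀ k ∈ Finset.range (n + 1), q ∈ s k :=
      (eventually_all_finset _).2 fun k _ => hs k
    obtain ⟨q, h2, h3⟩ := (hB.and h1).exists
    exact ⟨q, h2, fun k hk => h3 k (Finset.mem_range.2 (Nat.lt_succ_of_le hk))⟩
  choose q hq1 hq2 using hex
  have hmeas : ∀ n, volume {x | (1 / 2 : ℝ) ^ n < ‖(T (q n) - T (q (n + 1))) x‖} ≤
      ENNReal.ofReal ((1 / 2) ^ r) ^ n := by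
    intro n
    have h1 := (S.cheb _ ((1 / 2 : ℝ) ^ n) ((hT _).sub (hT _)) (by positivity)).trans
      (hs2 n _ (hq2 n n le_rfl) _ (hq2 (n + 1) n (Nat.le_succ n)))
    rw [level_iff (by positivity) hr] at h1
    refine h1.trans (le_of_eq ?_)
    simp only [hη]
    rw [← ENNReal.ofReal_div_of_pos (by positivity), mul_div_cancel_right₀ _ (by positivity),
      ENNReal.ofReal_rpow_of_nonneg (by positivity) hr.le, ← ENNReal.ofReal_pow (by positivity),
      ← Real.rpow_natCast, ← Real.rpow_natCast, ← Real.rpow_mul (by norm_num),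
      ← Real.rpow_mul (by norm_num), mul_comm]
  have hsum : ∑' n, volume {x | (1 / 2 : ℝ) ^ n < ‖(T (q n) - T (q (n + 1))) x‖} ≠ ∞ := by
    refine ((ENNReal.tsum_le_tsum hmeas).trans_lt ?_).ne
    rw [ENNReal.tsum_geometric, ENNReal.inv_lt_top, tsub_pos_iff_lt, ENNReal.ofReal_lt_one]
    exact Real.rpow_lt_one (by norm_num) (by norm_num) hr
  have hconv : ∀ᵐ x, ∃ y, Tendsto (fun n => T (q n) x) atTop (𝓝 y) := by
    filter_upwards [ae_eventually_notMem hsum] with x hx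
    obtain ⟨n₀, hn₀⟩ := eventually_atTop.1 hx
    have h1 : CauchySeq fun n => T (q (n + n₀)) x := by
      refine cauchySeq_of_le_geometric (1 / 2) 1 (by norm_num) fun n => ?_
      have h2 : ‖(T (q (n + n₀)) - T (q (n + n₀ + 1))) x‖ ≤ (1 / 2 : ℝ) ^ (n + n₀) :=
        not_lt.1 (hn₀ (n + n₀) (Nat.le_add_left _ _))
      rw [dist_eq_norm, one_mul, show n + 1 + n₀ = n + n₀ + 1 by ring]
      refine h2.trans ?_
      exact pow_le_pow_of_le_one (by norm_num) (by norm_num) (Nat.le_add_right _ _)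
    obtain ⟨y, hy⟩ := cauchySeq_tendsto_of_complete h1
    exact ⟨y, (tendsto_add_atTop_iff_nat n₀).1 hy⟩
  set F : ℝ → ℂ := fun x => limUnder atTop fun n => T (q n) x with hF
  have hlim : ∀ᵐ x, Tendsto (fun n => T (q n) x) atTop (𝓝 (F x)) := by
    filter_upwards [hconv] with x hx
    exact tendsto_nhds_limUnder hx
  have hFm : AEStronglyMeasurable F volume :=
    aestronglyMeasurable_of_tendsto_ae atTop (fun n => hT (q n)) hlim
  refine ⟨F, hFm, S.fatou _ _ _ (fun n => hT (q n)) hlim (Eventually.of_forall hq1), ?_⟩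
  have hη1 : Tendsto η atTop (𝓝 0) := by
    have h1 : Tendsto (fun n : ℕ => (1 / 2 : ℝ) ^ n) atTop (𝓝 0) :=
      tendsto_pow_atTop_nhds_zero_of_lt_one (by norm_num) (by norm_num)
    have h2 := ENNReal.tendsto_ofReal (h1.mul h1)
    rwa [mul_zero, ENNReal.ofReal_zero] at h2
  rw [ENNReal.tendsto_nhds_zero]
  intro e he
  obtain ⟨n, hn⟩ := (ENNReal.tendsto_nhds_zero.1 hη1 e he).exists
  filter_upwards [hs n] with a ha
  refine le_trans (S.fatou (fun m => T a - T (q m)) _ _ (fun m => (hT a).sub (hT _)) ?_ ?_) hn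
  · filter_upwards [hlim] with x hx
    exact tendsto_const_nhds.sub hx
  · filter_upwards [eventually_ge_atTop n] with m hm
    exact hs2 n _ ha _ (hq2 m n hm)

end

end Vale.Agent.N141.Ext
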