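import Vale.Agent.N141.Ext2

/-!
# P141: extension to all `L^p` inputs, III: the theorem
-/

namespace Vale.Agent.N141.Ext

open MeasureTheory Set Filter Topology
open scoped ENNReal NNReal SchwartzMap
open Vale.Agent.P141 (truncTHT THT)
open Vale.Agent.P141.H530 (trunc_eq cont_div_int lim_delta)

noncomputable section

variable {N : (ℝ → ℂ) → ℝ≥0∞} {r : ℝ}

/-- the bound for Schwartz functions -/
def Bd (N : (ℝ → ℂ) → ℝ≥0∞) (p₁ p₂ p₃ C : ℝ≥0∞) : Prop :=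
  ∀ f₁ f₂ f₃ : 𝓢(ℝ, ℂ), ∀ ε R : ℝ, 0 < ε → ε < R → N (truncTHT f₁ f₂ f₃ ε R) ≤
    C * eLpNorm f₁ p₁ volume * eLpNorm f₂ p₂ volume * eLpNorm f₃ p₃ volume

/-- the bound for measurable functions -/
def BdL (N : (ℝ → ℂ) → ℝ≥0∞) (p₁ p₂ p₃ C : ℝ≥0∞) : Prop :=
  ∀ f₁ f₂ f₃ : ℝ → ℂ, Measurable f₁ → Measurable f₂ → Measurable f₃ → MemLp f₁ p₁ volume →
    MemLp f₂ p₂ volume → MemLp f₃ p₃ volume → ∀ ε R : ℝ, 0 < ε → ε < R →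
    N (truncTHT f₁ f₂ f₃ ε R) ≤
      C * eLpNorm f₁ p₁ volume * eLpNorm f₂ p₂ volume * eLpNorm f₃ p₃ volume

theorem approx_seq {p : ℝ≥0∞} (hp : 2 ≤ p) {f : ℝ → ℂ} (hf : MemLp f p volume) :
    ∃ g : ℕ → 𝓢(ℝ, ℂ), (∀ n : ℕ, lc ((n : ℝ) + 1) (g n - f) ≤ 2⁻¹ ^ n) ∧
      ∀ δ : ℝ, 0 < δ → ∀ᶠ n in atTop,
        eLpNorm (g n) p volume ≤ eLpNorm f p volume + ENNReal.ofReal δ := by
  choose g h1 h2 h3 h4 using fun n : ℕ => approx hp hf (η := (1 / 2) ^ n) (by positivity)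
    ((n : ℝ) + 1)
  refine ⟨fun n => (h1 n).toSchwartzMap (h2 n), fun n => (h4 n).trans (le_of_eq ?_), fun δ hδ => ?_⟩
  · rw [ENNReal.ofReal_pow (by norm_num), one_div, ENNReal.ofReal_inv_of_pos (by norm_num),
      ENNReal.ofReal_ofNat]
  · have h5 : Tendsto (fun n : ℕ => (1 / 2 : ℝ) ^ n) atTop (𝓝 0) :=
      tendsto_pow_atTop_nhds_zero_of_lt_one (by norm_num) (by norm_num)
    filter_upwards [h5.eventually (gt_mem_nhds hδ)] with n hn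
    exact (h3 n).trans (add_le_add le_rfl (ENNReal.ofReal_le_ofReal hn.le))

theorem L2.schwartz (g : 𝓢(ℝ, ℂ)) : L2 g :=
  L2.of_memLp le_rfl g.continuous.measurable (g.memLp 2 volume)

/-- **the bound for all measurable functions** -/
theorem ext_bd (S : Size N r) {p₁ p₂ p₃ C : ℝ≥0∞} (h₁ : 2 ≤ p₁) (h₂ : 2 ≤ p₂) (h₃ : 2 ≤ p₃)
    (hC : C ≠ ∞) (hB : Bd N p₁ p₂ p₃ C) : BdL N p₁ p₂ p₃ C := by
  intro f₁ f₂ f₃ m₁ m₂ m₃ k₁ k₂ k₃ ε R hε hR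
  obtain ⟨g₁, a₁, b₁⟩ := approx_seq h₁ k₁
  obtain ⟨g₂, a₂, b₂⟩ := approx_seq h₂ k₂
  obtain ⟨g₃, a₃, b₃⟩ := approx_seq h₃ k₃
  have hc := ae_conv (L2.of_memLp h₁ m₁ k₁) (L2.of_memLp h₂ m₂ k₂) (L2.of_memLp h₃ m₃ k₃)
    (g₁ := fun n => g₁ n) (g₂ := fun n => g₂ n) (g₃ := fun n => g₃ n)
    (fun n => (g₁ n).continuous.measurable) (fun n => (g₂ n).continuous.measurable)
    (fun n => (g₃ n).continuous.measurable) (fun n => L2.schwartz _) (fun n => L2.schwartz _)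
    (fun n => L2.schwartz _) a₁ a₂ a₃
  have h := lim_delta (A := N (truncTHT f₁ f₂ f₃ ε R)) (r := 1) (K1 := 1) (K2 := 1) (K3 := 1) hC
    k₁.eLpNorm_ne_top k₂.eLpNorm_ne_top k₃.eLpNorm_ne_top ENNReal.one_ne_top ENNReal.one_ne_top
    ENNReal.one_ne_top one_pos fun δ hδ => by
      simp only [ENNReal.rpow_one, mul_one]
      refine S.fatou (fun n => truncTHT (g₁ n) (g₂ n) (g₃ n) ε R) _ _
        (fun n => (trunc_meas' (g₁ n).continuous.measurable (g₂ n).continuous.measurable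
          (g₃ n).continuous.measurable ε R).aestronglyMeasurable)
        (hc.mono fun x hx => hx ε R hε) ?_
      filter_upwards [b₁ δ hδ, b₂ δ hδ, b₃ δ hδ] with n e₁ e₂ e₃
      refine (hB _ _ _ ε R hε hR).trans ?_
      calc _ = C * (eLpNorm (g₁ n) p₁ volume * eLpNorm (g₂ n) p₂ volume *
            eLpNorm (g₃ n) p₃ volume) := by ring
        _ ≤ _ := by gcongr
  simp only [ENNReal.rpow_one] at h
  refine h.trans (le_of_eq ?_)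
  ring

/-- the Cauchy property of the truncations -/
def Cau (N : (ℝ → ℂ) → ℝ≥0∞) (f₁ f₂ f₃ : ℝ → ℂ) : Prop :=
  ∀ η : ℝ≥0∞, 0 < η → ∃ s ∈ (𝓝[>] (0 : ℝ) ×ˢ atTop : Filter (ℝ × ℝ)), ∀ q ∈ s, ∀ q' ∈ s,
    N (truncTHT f₁ f₂ f₃ q.1 q.2 - truncTHT f₁ f₂ f₃ q'.1 q'.2) ≤ η

theorem ev_box {δ : ℝ} (hδ : 0 < δ) (M : ℝ) :
    {q : ℝ × ℝ | 0 < q.1 ∧ q.1 < δ ∧ M < q.2} ∈ (𝓝[>] (0 : ℝ) ×ˢ atTop : Filter (ℝ × ℝ)) := by
  refine mem_of_superset (prod_mem_prod (Ioo_mem_nhdsGT hδ) (Ioi_mem_atTop M)) fun q hq => ?_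
  exact ⟨hq.1.1, hq.1.2, hq.2⟩

theorem supp_bd {f : ℝ → ℂ} (hs : HasCompactSupport f) :
    ∃ M : ℝ, 0 < M ∧ ∀ x, M < |x| → f x = 0 := by
  obtain ⟨M, hM⟩ := hs.isCompact.isBounded.subset_closedBall (0 : ℝ)
  refine ⟨|M| + 1, by positivity, fun x hx => ?_⟩
  by_contra h
  have h1 := hM (subset_tsupport _ h)
  rw [Metric.mem_closedBall, Real.dist_eq, sub_zero] at h1
  linarith [le_abs_self M]

theorem lip_bd {g : ℝ → ℂ} (hs : HasCompactSupport g)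
    (hg : ContDiff ℝ ((⊤ : ℕ∞) : WithTop ℕ∞) g) :
    ∃ B : ℝ, 0 < B ∧ (∀ x, ‖g x‖ ≤ B) ∧ ∀ x y, ‖g x - g y‖ ≤ B * |x - y| := by
  obtain ⟨L, hL⟩ := hg.lipschitzWith_of_hasCompactSupport hs (by simp)
  obtain ⟨b, hb⟩ := hs.exists_bound_of_continuous hg.continuous
  have hL0 : (0 : ℝ) ≤ L := L.2
  refine ⟨|b| + L + 1, by positivity, fun x => ?_, fun x y => ?_⟩
  · linarith [hb x, le_abs_self b]
  · have h1 := hL.dist_le_mul x y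
    rw [dist_eq_norm, Real.dist_eq] at h1
    have h2 := abs_nonneg (x - y)
    have h3 := abs_nonneg b
    nlinarith

/-- smooth functions with compact support -/
theorem cau_smooth (S : Size N r) {g₁ g₂ g₃ : ℝ → ℂ} (s₁ : HasCompactSupport g₁)
    (s₂ : HasCompactSupport g₂) (s₃ : HasCompactSupport g₃)
    (c₁ : ContDiff ℝ ((⊤ : ℕ∞) : WithTop ℕ∞) g₁) (c₂ : ContDiff ℝ ((⊤ : ℕ∞) : WithTop ℕ∞) g₂)
    (c₃ : ContDiff ℝ ((⊤ : ℕ∞) : WithTop ℕ∞) g₃) : Cau N g₁ g₂ g₃ := by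
  have hr := S.pos
  obtain ⟨M₁, hM₁, z₁⟩ := supp_bd s₁
  obtain ⟨M₂, hM₂, z₂⟩ := supp_bd s₂
  obtain ⟨B₁, hB₁, u₁, v₁⟩ := lip_bd s₁ c₁
  obtain ⟨B₂, hB₂, u₂, v₂⟩ := lip_bd s₂ c₂
  obtain ⟨B₃, hB₃, u₃, v₃⟩ := lip_bd s₃ c₃
  set L : ℝ := 12 * (B₁ * B₂ * B₃) with hL
  have hL0 : 0 < L := by positivity
  have hWc : ∀ x, Continuous (pr g₁ g₂ g₃ x) := fun x => by
    have := c₁.continuous
    have := c₂.continuous
    have := c₃.continuous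
    unfold pr
    fun_prop
  have hz : ∀ x t, M₁ + M₂ < |t| → pr g₁ g₂ g₃ x t = 0 := by
    intro x t ht
    unfold pr
    by_cases h1 : M₁ < |x - t|
    · rw [z₁ _ h1, zero_mul, zero_mul]
    · have h2 : M₂ < |x - 2 * t| := by
        have h3 := abs_sub (x - t) (x - 2 * t)
        rw [show x - t - (x - 2 * t) = t by ring] at h3
        linarith
      rw [z₂ _ h2, mul_zero, zero_mul]
  have hz2 : ∀ x t, 2 * M₁ + M₂ < |x| → pr g₁ g₂ g₃ x t = 0 := by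
    intro x t hx
    unfold pr
    by_cases h1 : M₁ < |x - t|
    · rw [z₁ _ h1, zero_mul, zero_mul]
    · have h2 : M₂ < |x - 2 * t| := by
        have h3 := abs_sub (2 * (x - t)) (x - 2 * t)
        rw [show 2 * (x - t) - (x - 2 * t) = x by ring, abs_mul, abs_two] at h3
        linarith
      rw [z₂ _ h2, mul_zero, zero_mul]
  have hlip : ∀ x u, 0 < u → ‖(pr g₁ g₂ g₃ x u - pr g₁ g₂ g₃ x (-u)) / (u : ℂ)‖ ≤ L := by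
    intro x u hu
    rw [norm_div, Complex.norm_real, Real.norm_eq_abs, abs_of_pos hu, div_le_iff₀ hu]
    have e : pr g₁ g₂ g₃ x u - pr g₁ g₂ g₃ x (-u) =
        (g₁ (x - u) - g₁ (x - -u)) * g₂ (x - 2 * u) * g₃ (x - 3 * u) +
        g₁ (x - -u) * (g₂ (x - 2 * u) - g₂ (x - 2 * -u)) * g₃ (x - 3 * u) +
        g₁ (x - -u) * g₂ (x - 2 * -u) * (g₃ (x - 3 * u) - g₃ (x - 3 * -u)) := by
      unfold pr
      ring
    have w₁ := v₁ (x - u) (x - -u)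
    have w₂ := v₂ (x - 2 * u) (x - 2 * -u)
    have w₃ := v₃ (x - 3 * u) (x - 3 * -u)
    rw [show x - u - (x - -u) = -(2 * u) by ring, abs_neg, abs_of_pos (by positivity)] at w₁
    rw [show x - 2 * u - (x - 2 * -u) = -(4 * u) by ring, abs_neg, abs_of_pos (by positivity)] at w₂
    rw [show x - 3 * u - (x - 3 * -u) = -(6 * u) by ring, abs_neg, abs_of_pos (by positivity)] at w₃
    rw [e]
    refine (norm_add₃_le).trans ?_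
    rw [norm_mul, norm_mul, norm_mul, norm_mul, norm_mul, norm_mul]
    calc _ ≤ B₁ * (2 * u) * B₂ * B₃ + B₁ * (B₂ * (4 * u)) * B₃ + B₁ * B₂ * (B₃ * (6 * u)) := by
          gcongr <;> first | exact u₁ _ | exact u₂ _ | exact u₃ _
      _ = L * u := by rw [hL]; ring
  have hii : ∀ x {a b : ℝ}, 0 < a → 0 < b → IntervalIntegrable
      (fun u : ℝ => (pr g₁ g₂ g₃ x u - pr g₁ g₂ g₃ x (-u)) / (u : ℂ)) volume a b :=
    fun x a b ha hb => cont_div_int (V := fun u => pr g₁ g₂ g₃ x u - pr g₁ g₂ g₃ x (-u))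
      ((hWc x).sub ((hWc x).comp continuous_neg)) (Or.inl ⟨ha, hb⟩)
  set R₀ : ℝ := M₁ + M₂ + 1 with hR₀
  have hR0 : 0 < R₀ := by positivity
  have hT : ∀ x ε R, 0 < ε → ε < 1 → R₀ < R → truncTHT g₁ g₂ g₃ ε R x =
      ∫ u in ε..R₀, (pr g₁ g₂ g₃ x u - pr g₁ g₂ g₃ x (-u)) / (u : ℂ) := by
    intro x ε R hε hε1 hR
    have h1 : truncTHT g₁ g₂ g₃ ε R x =
        ∫ u in ε..R, (pr g₁ g₂ g₃ x u - pr g₁ g₂ g₃ x (-u)) / (u : ℂ) :=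
      trunc_eq (hWc x) hε (by linarith)
    have h2 : ∫ u in R₀..R, (pr g₁ g₂ g₃ x u - pr g₁ g₂ g₃ x (-u)) / (u : ℂ) =
        ∫ _ in R₀..R, (0 : ℂ) := by
      refine intervalIntegral.integral_congr fun u hu => ?_
      rw [uIcc_of_le hR.le] at hu
      have h3 : M₁ + M₂ < |u| := by linarith [hu.1, le_abs_self u]
      show _ / _ = _
      rw [hz x u h3, hz x (-u) (by rwa [abs_neg]), sub_zero, zero_div]
    rw [h1, ← intervalIntegral.integral_add_adjacent_intervals (hii x hε hR0)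
      (hii x hR0 (hR0.trans hR)), h2, intervalIntegral.integral_zero, add_zero]
  intro η hη
  set c : ℝ≥0∞ := ENNReal.ofReal L * ENNReal.ofReal (2 * (2 * M₁ + M₂)) ^ (1 / r) with hc
  have hcf : c ≠ ∞ := ENNReal.mul_ne_top ENNReal.ofReal_ne_top
    (ENNReal.rpow_ne_top_of_nonneg (by positivity) ENNReal.ofReal_ne_top)
  obtain ⟨d, hd0, hd⟩ := ENNReal.exists_nnreal_pos_mul_lt hcf hη.ne'
  have hd0' : (0 : ℝ) < d := hd0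
  refine ⟨_, ev_box (lt_min hd0' one_pos) R₀, fun q hq q' hq' => ?_⟩
  obtain ⟨a1, a2, a3⟩ := hq
  obtain ⟨b1, b2, b3⟩ := hq'
  have a4 := a2.trans_le (min_le_left _ _)
  have a5 := a2.trans_le (min_le_right _ _)
  have b4 := b2.trans_le (min_le_left _ _)
  have b5 := b2.trans_le (min_le_right _ _)
  refine (S.small _ (L * d) (2 * M₁ + M₂) (by positivity) (fun x => ?_) fun x hx => ?_).trans ?_
  · rw [Pi.sub_apply, hT x _ _ a1 a5 a3, hT x _ _ b1 b5 b3,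
      ← intervalIntegral.integral_add_adjacent_intervals (hii x a1 b1) (hii x b1 hR0),
      add_sub_cancel_right]
    refine (intervalIntegral.norm_integral_le_of_norm_le_const (C := L) fun u hu => ?_).trans ?_
    · exact hlip x u ((lt_min a1 b1).trans hu.1)
    · refine mul_le_mul_of_nonneg_left ?_ hL0.le
      rw [abs_le]
      constructor <;> linarith
  · rw [Pi.sub_apply, trunc_def, trunc_def]
    simp only [hz2 x _ hx, zero_div, integral_zero, sub_zero]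
  · refine le_trans (le_of_eq ?_) hd.le
    rw [hc, ENNReal.ofReal_mul hL0.le, ENNReal.ofReal_coe_nnreal]
    ring

theorem L2.sub {f g : ℝ → ℂ} (hf : L2 f) (hg : L2 g) : L2 (f - g) :=
  ⟨hf.meas.sub hg.meas, fun M => ((eLpNorm_sub_le hf.meas.aestronglyMeasurable
    hg.meas.aestronglyMeasurable (by norm_num)).trans_lt
    (ENNReal.add_lt_top.2 ⟨(hf.fin M).lt_top, (hg.fin M).lt_top⟩)).ne⟩

theorem trunc_sub {f₁ f₂ f₃ g₁ g₂ g₃ : ℝ → ℂ} (h₁ : L2 f₁) (h₂ : L2 f₂) (h₃ : L2 f₃) (k₁ : L2 g₁)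
    (k₂ : L2 g₂) (k₃ : L2 g₃) {ε : ℝ} (hε : 0 < ε) (R : ℝ) :
    truncTHT g₁ g₂ g₃ ε R - truncTHT f₁ f₂ f₃ ε R =ᵐ[volume]
      truncTHT (g₁ - f₁) g₂ g₃ ε R + truncTHT f₁ (g₂ - f₂) g₃ ε R +
        truncTHT f₁ f₂ (g₃ - f₃) ε R := by
  filter_upwards [ae_int h₁ h₂ h₃, ae_int k₁ k₂ k₃, ae_int (k₁.sub h₁) k₂ k₃,
    ae_int h₁ (k₂.sub h₂) k₃, ae_int h₁ h₂ (k₃.sub h₃)] with x i1 i2 i3 i4 i5
  simp only [Pi.sub_apply, Pi.add_apply, trunc_def]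
  have i6 : IntegrableOn (fun t : ℝ => pr (g₁ - f₁) g₂ g₃ x t / (t : ℂ) +
      pr f₁ (g₂ - f₂) g₃ x t / (t : ℂ)) (An ε R) := (i3 ε R hε).add (i4 ε R hε)
  rw [← integral_sub (i2 ε R hε) (i1 ε R hε), ← integral_add (i3 ε R hε) (i4 ε R hε),
    ← integral_add i6 (i5 ε R hε)]
  refine integral_congr_ae (ae_of_all _ fun t => ?_)
  show _ / _ - _ / _ = _ / _ + _ / _ + _ / _
  rw [← sub_div, pr_sub, add_div, add_div]

/-- the Cauchy property passes to limits -/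
theorem cau_approx (S : Size N r) {p₁ p₂ p₃ C : ℝ≥0∞} (h₁ : 2 ≤ p₁) (h₂ : 2 ≤ p₂) (h₃ : 2 ≤ p₃)
    (hC : C ≠ ∞) (hB : BdL N p₁ p₂ p₃ C) {f₁ f₂ f₃ : ℝ → ℂ} (m₁ : Measurable f₁)
    (m₂ : Measurable f₂) (m₃ : Measurable f₃) (k₁ : MemLp f₁ p₁ volume) (k₂ : MemLp f₂ p₂ volume)
    (k₃ : MemLp f₃ p₃ volume)
    (H : ∀ δ : ℝ, 0 < δ → ∃ g₁ g₂ g₃ : ℝ → ℂ, Measurable g₁ ∧ Measurable g₂ ∧ Measurable g₃ ∧
      eLpNorm (f₁ - g₁) p₁ volume ≤ ENNReal.ofReal δ ∧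
      eLpNorm (f₂ - g₂) p₂ volume ≤ ENNReal.ofReal δ ∧
      eLpNorm (f₃ - g₃) p₃ volume ≤ ENNReal.ofReal δ ∧ Cau N g₁ g₂ g₃) : Cau N f₁ f₂ f₃ := by
  obtain ⟨K, hK, hadd⟩ := S.add3
  intro η hη
  set b₁ := eLpNorm f₁ p₁ volume + 1 with hb₁
  set b₂ := eLpNorm f₂ p₂ volume + 1 with hb₂
  set b₃ := eLpNorm f₃ p₃ volume + 1 with hb₃
  set A : ℝ≥0∞ := K * (3 * (C * (b₁ * b₂ * b₃))) with hA
  have hAf : A ≠ ∞ := ENNReal.mul_ne_top hK (ENNReal.mul_ne_top (by norm_num)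
    (ENNReal.mul_ne_top hC (ENNReal.mul_ne_top (ENNReal.mul_ne_top
      (ENNReal.add_ne_top.2 ⟨k₁.eLpNorm_ne_top, ENNReal.one_ne_top⟩)
      (ENNReal.add_ne_top.2 ⟨k₂.eLpNorm_ne_top, ENNReal.one_ne_top⟩))
      (ENNReal.add_ne_top.2 ⟨k₃.eLpNorm_ne_top, ENNReal.one_ne_top⟩))))
  obtain ⟨d, hd0, hd⟩ := ENNReal.exists_nnreal_pos_mul_lt (a := K * (A + 1 + A))
    (ENNReal.mul_ne_top hK (ENNReal.add_ne_top.2 ⟨ENNReal.add_ne_top.2 ⟨hAf, ENNReal.one_ne_top⟩,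
      hAf⟩)) hη.ne'
  have hd0' : (0 : ℝ) < d := hd0
  set δ : ℝ := min d 1 with hδ
  have hδ0 : 0 < δ := lt_min hd0' one_pos
  have hδ1 : ENNReal.ofReal δ ≤ 1 := ENNReal.ofReal_le_one.2 (min_le_right _ _)
  have hδd : ENNReal.ofReal δ ≤ d := by
    rw [← ENNReal.ofReal_coe_nnreal]
    exact ENNReal.ofReal_le_ofReal (min_le_left _ _)
  obtain ⟨g₁, g₂, g₃, n₁, n₂, n₃, d₁, d₂, d₃, hg⟩ := H δ hδ0
  have mem : ∀ {p : ℝ≥0∞} {f g : ℝ → ℂ}, 2 ≤ p → Measurable f → Measurable g → MemLp f p volume →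
      eLpNorm (f - g) p volume ≤ ENNReal.ofReal δ → MemLp (f - g) p volume ∧ MemLp g p volume ∧
        eLpNorm g p volume ≤ eLpNorm f p volume + 1 := by
    intro p f g hp hf hg hfp hd
    have h1 : MemLp (f - g) p volume :=
      ⟨(hf.sub hg).aestronglyMeasurable, hd.trans_lt ENNReal.ofReal_lt_top⟩
    have h2 := hfp.sub h1
    have h3 := eLpNorm_sub_le hfp.1 h1.1 (le_trans (by norm_num) hp)
    rw [sub_sub_cancel] at h2 h3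
    exact ⟨h1, h2, h3.trans (add_le_add le_rfl (hd.trans hδ1))⟩
  obtain ⟨x₁, y₁, z₁⟩ := mem h₁ m₁ n₁ k₁ d₁
  obtain ⟨x₂, y₂, z₂⟩ := mem h₂ m₂ n₂ k₂ d₂
  obtain ⟨x₃, y₃, z₃⟩ := mem h₃ m₃ n₃ k₃ d₃
  have o₁ : 1 ≤ b₁ := le_add_self
  have o₂ : 1 ≤ b₂ := le_add_self
  have o₃ : 1 ≤ b₃ := le_add_self
  have w₂ : eLpNorm f₂ p₂ volume ≤ b₂ := le_self_add
  have w₃ : eLpNorm f₃ p₃ volume ≤ b₃ := le_self_add
  have key : ∀ ε R : ℝ, 0 < ε → ε < R →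
      N (truncTHT f₁ f₂ f₃ ε R - truncTHT g₁ g₂ g₃ ε R) ≤ d * A := by
    intro ε R hε hR
    rw [S.congr (trunc_sub (L2.of_memLp h₁ n₁ y₁) (L2.of_memLp h₂ n₂ y₂) (L2.of_memLp h₃ n₃ y₃)
      (L2.of_memLp h₁ m₁ k₁) (L2.of_memLp h₂ m₂ k₂) (L2.of_memLp h₃ m₃ k₃) hε R)]
    refine (hadd _ _ _ (trunc_meas' (m₁.sub n₁) m₂ m₃ ε R).aestronglyMeasurable
      (trunc_meas' n₁ (m₂.sub n₂) m₃ ε R).aestronglyMeasurable
      (trunc_meas' n₁ n₂ (m₃.sub n₃) ε R).aestronglyMeasurable).trans ?_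
    have t₁ := hB _ _ _ (m₁.sub n₁) m₂ m₃ x₁ k₂ k₃ ε R hε hR
    have t₂ := hB _ _ _ n₁ (m₂.sub n₂) m₃ y₁ x₂ k₃ ε R hε hR
    have t₃ := hB _ _ _ n₁ n₂ (m₃.sub n₃) y₁ y₂ x₃ ε R hε hR
    have e₁ := d₁.trans hδd
    have e₂ := d₂.trans hδd
    have e₃ := d₃.trans hδd
    have u₁ : C * eLpNorm (f₁ - g₁) p₁ volume * eLpNorm f₂ p₂ volume * eLpNorm f₃ p₃ volume ≤
        C * (b₁ * b₂ * b₃) * d :=
      calc _ ≤ C * (1 * d) * b₂ * b₃ := by rw [one_mul]; gcongr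
        _ ≤ C * (b₁ * d) * b₂ * b₃ := by gcongr
        _ = _ := by ring
    have u₂ : C * eLpNorm g₁ p₁ volume * eLpNorm (f₂ - g₂) p₂ volume * eLpNorm f₃ p₃ volume ≤
        C * (b₁ * b₂ * b₃) * d :=
      calc _ ≤ C * b₁ * (1 * d) * b₃ := by rw [one_mul]; gcongr
        _ ≤ C * b₁ * (b₂ * d) * b₃ := by gcongr
        _ = _ := by ring
    have u₃ : C * eLpNorm g₁ p₁ volume * eLpNorm g₂ p₂ volume * eLpNorm (f₃ - g₃) p₃ volume ≤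
        C * (b₁ * b₂ * b₃) * d :=
      calc _ ≤ C * b₁ * b₂ * (1 * d) := by rw [one_mul]; gcongr
        _ ≤ C * b₁ * b₂ * (b₃ * d) := by gcongr
        _ = _ := by ring
    refine (mul_le_mul_right (add_le_add (add_le_add (t₁.trans u₁) (t₂.trans u₂))
      (t₃.trans u₃)) _).trans (le_of_eq ?_)
    rw [hA]
    ring
  obtain ⟨s, hs, hs2⟩ := hg d (by exact_mod_cast hd0)
  refine ⟨_, inter_mem hs (ev_box one_pos 1), fun q hq q' hq' => ?_⟩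
  have e : truncTHT f₁ f₂ f₃ q.1 q.2 - truncTHT f₁ f₂ f₃ q'.1 q'.2 =
      (truncTHT f₁ f₂ f₃ q.1 q.2 - truncTHT g₁ g₂ g₃ q.1 q.2) +
      (truncTHT g₁ g₂ g₃ q.1 q.2 - truncTHT g₁ g₂ g₃ q'.1 q'.2) +
      (truncTHT g₁ g₂ g₃ q'.1 q'.2 - truncTHT f₁ f₂ f₃ q'.1 q'.2) := by ring
  have mf := fun q : ℝ × ℝ => (trunc_meas' m₁ m₂ m₃ q.1 q.2).aestronglyMeasurable (μ := volume)
  have mg := fun q : ℝ × ℝ => (trunc_meas' n₁ n₂ n₃ q.1 q.2).aestronglyMeasurable (μ := volume)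
  rw [e]
  refine (hadd _ _ _ ((mf q).sub (mg q)) ((mg q).sub (mg q')) ((mg q').sub (mf q'))).trans ?_
  have j₁ := key q.1 q.2 hq.2.1 (hq.2.2.1.trans hq.2.2.2)
  have j₂ := hs2 q hq.1 q' hq'.1
  have j₃ := (S.sub_comm _ _).trans (key q'.1 q'.2 hq'.2.1 (hq'.2.2.1.trans hq'.2.2.2))
  refine (mul_le_mul_right (add_le_add (add_le_add j₁ j₂) j₃) _).trans
    (le_trans (le_of_eq ?_) hd.le)
  ring

theorem cau_fin (S : Size N r) {s C : ℝ≥0∞} (hs : 2 ≤ s) (hst : s ≠ ∞) (hC : C ≠ ∞)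
    (hB : BdL N s s s C) {f₁ f₂ f₃ : ℝ → ℂ} (m₁ : Measurable f₁) (m₂ : Measurable f₂)
    (m₃ : Measurable f₃) (k₁ : MemLp f₁ s volume) (k₂ : MemLp f₂ s volume)
    (k₃ : MemLp f₃ s volume) : Cau N f₁ f₂ f₃ := by
  have h1 : (1 : ℝ≥0∞) ≤ s := le_trans (by norm_num) hs
  refine cau_approx S hs hs hs hC hB m₁ m₂ m₃ k₁ k₂ k₃ fun δ hδ => ?_
  obtain ⟨g₁, a₁, b₁, c₁⟩ := k₁.exist_eLpNorm_sub_le hst h1 hδ
  obtain ⟨g₂, a₂, b₂, c₂⟩ := k₂.exist_eLpNorm_sub_le hst h1 hδ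
  obtain ⟨g₃, a₃, b₃, c₃⟩ := k₃.exist_eLpNorm_sub_le hst h1 hδ
  exact ⟨g₁, g₂, g₃, b₁.continuous.measurable, b₂.continuous.measurable, b₃.continuous.measurable,
    c₁, c₂, c₃, cau_smooth S a₁ a₂ a₃ b₁ b₂ b₃⟩

/-- bounded approximations, with bounded support if `p < ∞` -/
theorem approx_bd {p : ℝ≥0∞} (hp : 2 ≤ p) {f : ℝ → ℂ} (hm : Measurable f) (hf : MemLp f p volume)
    {δ : ℝ} (hδ : 0 < δ) : ∃ g : ℝ → ℂ, Measurable g ∧ MemLp g ∞ volume ∧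
      eLpNorm (f - g) p volume ≤ ENNReal.ofReal δ ∧
      ∃ M : ℝ, 0 < M ∧ (p ≠ ∞ → ∀ x, M < |x| → g x = 0) := by
  rcases eq_or_ne p ∞ with rfl | hpt
  · exact ⟨f, hm, hf, by simp, 1, one_pos, fun h => absurd rfl h⟩
  · obtain ⟨g, a, b, c⟩ := hf.exist_eLpNorm_sub_le hpt (le_trans (by norm_num) hp) hδ
    obtain ⟨M, hM, hz⟩ := supp_bd a
    exact ⟨g, b.continuous.measurable, b.continuous.memLp_of_hasCompactSupport a, c, M, hM,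
      fun _ => hz⟩

theorem pr_cut {g₁ g₂ g₃ : ℝ → ℂ} {M : ℝ} (hM : 0 < M)
    (h : ((∀ x, M < |x| → g₁ x = 0) ∧ ∀ x, M < |x| → g₂ x = 0) ∨
      ((∀ x, M < |x| → g₁ x = 0) ∧ ∀ x, M < |x| → g₃ x = 0) ∨
      ((∀ x, M < |x| → g₂ x = 0) ∧ ∀ x, M < |x| → g₃ x = 0)) (x t : ℝ) :
    pr ((Icc (-(3 * M)) (3 * M)).indicator g₁) ((Icc (-(3 * M)) (3 * M)).indicator g₂)
      ((Icc (-(3 * M)) (3 * M)).indicator g₃) x t = pr g₁ g₂ g₃ x t := by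
  by_cases h0 : pr g₁ g₂ g₃ x t = 0
  · rw [h0]
    refine norm_le_zero_iff.1 ?_
    rw [← norm_zero (E := ℂ), ← h0]
    unfold pr
    rw [norm_mul, norm_mul, norm_mul, norm_mul]
    gcongr <;> exact norm_indicator_le_norm_self _ _
  have n₁ : g₁ (x - t) ≠ 0 := fun h => h0 (by unfold pr; rw [h, zero_mul, zero_mul])
  have n₂ : g₂ (x - 2 * t) ≠ 0 := fun h => h0 (by unfold pr; rw [h, mul_zero, zero_mul])
  have n₃ : g₃ (x - 3 * t) ≠ 0 := fun h => h0 (by unfold pr; rw [h, mul_zero])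
  have key : x - t ∈ Icc (-(3 * M)) (3 * M) ∧ x - 2 * t ∈ Icc (-(3 * M)) (3 * M) ∧
      x - 3 * t ∈ Icc (-(3 * M)) (3 * M) := by
    rcases h with ⟨a, b⟩ | ⟨a, b⟩ | ⟨a, b⟩
    · have a1 := abs_le.1 (not_lt.1 fun h => n₁ (a _ h))
      have b1 := abs_le.1 (not_lt.1 fun h => n₂ (b _ h))
      refine ⟨⟨?_, ?_⟩, ⟨?_, ?_⟩, ⟨?_, ?_⟩⟩ <;> linarith [a1.1, a1.2, b1.1, b1.2]
    · have a1 := abs_le.1 (not_lt.1 fun h => n₁ (a _ h))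
      have b1 := abs_le.1 (not_lt.1 fun h => n₃ (b _ h))
      refine ⟨⟨?_, ?_⟩, ⟨?_, ?_⟩, ⟨?_, ?_⟩⟩ <;> linarith [a1.1, a1.2, b1.1, b1.2]
    · have a1 := abs_le.1 (not_lt.1 fun h => n₂ (a _ h))
      have b1 := abs_le.1 (not_lt.1 fun h => n₃ (b _ h))
      refine ⟨⟨?_, ?_⟩, ⟨?_, ?_⟩, ⟨?_, ?_⟩⟩ <;> linarith [a1.1, a1.2, b1.1, b1.2]
  unfold pr
  rw [indicator_of_mem key.1, indicator_of_mem key.2.1, indicator_of_mem key.2.2]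

theorem cau_all (S : Size N r) {p₁ p₂ p₃ s C C' : ℝ≥0∞} (h₁ : 2 ≤ p₁) (h₂ : 2 ≤ p₂) (h₃ : 2 ≤ p₃)
    (hs : 2 ≤ s) (hst : s ≠ ∞) (hC : C ≠ ∞) (hC' : C' ≠ ∞)
    (hfin : (p₁ ≠ ∞ ∧ p₂ ≠ ∞) ∨ (p₁ ≠ ∞ ∧ p₃ ≠ ∞) ∨ (p₂ ≠ ∞ ∧ p₃ ≠ ∞))
    (hB : BdL N p₁ p₂ p₃ C) (hB' : BdL N s s s C') {f₁ f₂ f₃ : ℝ → ℂ} (m₁ : Measurable f₁)
    (m₂ : Measurable f₂) (m₃ : Measurable f₃) (k₁ : MemLp f₁ p₁ volume) (k₂ : MemLp f₂ p₂ volume)
    (k₃ : MemLp f₃ p₃ volume) : Cau N f₁ f₂ f₃ := by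
  refine cau_approx S h₁ h₂ h₃ hC hB m₁ m₂ m₃ k₁ k₂ k₃ fun δ hδ => ?_
  obtain ⟨g₁, a₁, b₁, c₁, M₁, hM₁, z₁⟩ := approx_bd h₁ m₁ k₁ hδ
  obtain ⟨g₂, a₂, b₂, c₂, M₂, hM₂, z₂⟩ := approx_bd h₂ m₂ k₂ hδ
  obtain ⟨g₃, a₃, b₃, c₃, M₃, hM₃, z₃⟩ := approx_bd h₃ m₃ k₃ hδ
  refine ⟨g₁, g₂, g₃, a₁, a₂, a₃, c₁, c₂, c₃, ?_⟩
  set M := M₁ + M₂ + M₃ with hM
  have hM0 : 0 < M := by positivity
  set J := Icc (-(3 * M)) (3 * M) with hJ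
  have hJm : MeasurableSet J := measurableSet_Icc
  have mem : ∀ {g : ℝ → ℂ}, MemLp g ∞ volume → MemLp (J.indicator g) s volume := fun hg =>
    (memLp_indicator_iff_restrict hJm).2 ((hg.restrict J).mono_exponent le_top)
  have h := cau_fin S hs hst hC' hB' (a₁.indicator hJm) (a₂.indicator hJm) (a₃.indicator hJm)
    (mem b₁) (mem b₂) (mem b₃)
  have y₁ : p₁ ≠ ∞ → ∀ x, M < |x| → g₁ x = 0 := fun h x hx => z₁ h x (by linarith)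
  have y₂ : p₂ ≠ ∞ → ∀ x, M < |x| → g₂ x = 0 := fun h x hx => z₂ h x (by linarith)
  have y₃ : p₃ ≠ ∞ → ∀ x, M < |x| → g₃ x = 0 := fun h x hx => z₃ h x (by linarith)
  have e : truncTHT (J.indicator g₁) (J.indicator g₂) (J.indicator g₃) = truncTHT g₁ g₂ g₃ := by
    funext ε R x
    rw [trunc_def, trunc_def]
    refine integral_congr_ae (ae_of_all _ fun t => ?_)
    show _ / _ = _ / _
    rw [pr_cut hM0]
    rcases hfin with ⟨a, b⟩ | ⟨a, b⟩ | ⟨a, b⟩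
    · exact Or.inl ⟨y₁ a, y₂ b⟩
    · exact Or.inr (Or.inl ⟨y₁ a, y₃ b⟩)
    · exact Or.inr (Or.inr ⟨y₂ a, y₃ b⟩)
  unfold Cau at h ⊢
  rwa [e] at h

theorem line_ae {f g : ℝ → ℂ} (h : f =ᵐ[volume] g) (x : ℝ) {c : ℝ} (hc : c ≠ 0) :
    (fun t => f (x - c * t)) =ᵐ[volume] fun t => g (x - c * t) := by
  have h1 : Measure.QuasiMeasurePreserving (fun t : ℝ => x - c * t) volume volume := by
    have h2 : Measure.QuasiMeasurePreserving (fun t : ℝ => c • t) volume volume :=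
      Measure.quasiMeasurePreserving_smul volume hc
    exact (Measure.measurePreserving_sub_left volume x).quasiMeasurePreserving.comp h2
  exact h1.ae_eq_comp h

theorem pr_ae {f₁ f₂ f₃ g₁ g₂ g₃ : ℝ → ℂ} (h₁ : f₁ =ᵐ[volume] g₁) (h₂ : f₂ =ᵐ[volume] g₂)
    (h₃ : f₃ =ᵐ[volume] g₃) (x : ℝ) :
    (fun t : ℝ => pr f₁ f₂ f₃ x t / (t : ℂ)) =ᵐ[volume] fun t : ℝ => pr g₁ g₂ g₃ x t / (t : ℂ) := by
  filter_upwards [line_ae h₁ x one_ne_zero, line_ae h₂ x two_ne_zero, line_ae h₃ x three_ne_zero]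
    with t a b c
  rw [one_mul] at a
  unfold pr
  rw [a, b, c]

/-- **the extension theorem** -/
theorem ext_main (S : Size N r) {p₁ p₂ p₃ s C C' : ℝ≥0∞} (h₁ : 2 ≤ p₁) (h₂ : 2 ≤ p₂) (h₃ : 2 ≤ p₃)
    (hs : 2 ≤ s) (hst : s ≠ ∞) (hC : C ≠ ∞) (hC' : C' ≠ ∞)
    (hfin : (p₁ ≠ ∞ ∧ p₂ ≠ ∞) ∨ (p₁ ≠ ∞ ∧ p₃ ≠ ∞) ∨ (p₂ ≠ ∞ ∧ p₃ ≠ ∞))
    (hB : Bd N p₁ p₂ p₃ C) (hB' : Bd N s s s C') {f₁ f₂ f₃ : ℝ → ℂ}
    (k₁ : MemLp f₁ p₁ volume) (k₂ : MemLp f₂ p₂ volume) (k₃ : MemLp f₃ p₃ volume) :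
    (∀ᵐ x, ∀ ε R : ℝ, 0 < ε → IntegrableOn
      (fun t : ℝ => f₁ (x - t) * f₂ (x - 2 * t) * f₃ (x - 3 * t) / (t : ℂ))
      {t : ℝ | ε < |t| ∧ |t| < R}) ∧
    (∀ ε R : ℝ, Measurable (truncTHT f₁ f₂ f₃ ε R)) ∧
    (∀ ε R : ℝ, 0 < ε → ε < R → N (truncTHT f₁ f₂ f₃ ε R) ≤
      C * eLpNorm f₁ p₁ volume * eLpNorm f₂ p₂ volume * eLpNorm f₃ p₃ volume) ∧
    ∃ F : ℝ → ℂ, AEStronglyMeasurable F volume ∧
      N F ≤ C * eLpNorm f₁ p₁ volume * eLpNorm f₂ p₂ volume * eLpNorm f₃ p₃ volume ∧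
      Tendsto (fun q : ℝ × ℝ => N (truncTHT f₁ f₂ f₃ q.1 q.2 - F)) (𝓝[>] (0 : ℝ) ×ˢ atTop)
        (𝓝 0) := by
  have e₁ := k₁.1.ae_eq_mk
  have e₂ := k₂.1.ae_eq_mk
  have e₃ := k₃.1.ae_eq_mk
  set g₁ := k₁.1.mk f₁ with hg₁
  set g₂ := k₂.1.mk f₂ with hg₂
  set g₃ := k₃.1.mk f₃ with hg₃
  have m₁ : Measurable g₁ := k₁.1.stronglyMeasurable_mk.measurable
  have m₂ : Measurable g₂ := k₂.1.stronglyMeasurable_mk.measurable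
  have m₃ : Measurable g₃ := k₃.1.stronglyMeasurable_mk.measurable
  have l₁ : MemLp g₁ p₁ volume := k₁.ae_eq e₁
  have l₂ : MemLp g₂ p₂ volume := k₂.ae_eq e₂
  have l₃ : MemLp g₃ p₃ volume := k₃.ae_eq e₃
  have eT : truncTHT f₁ f₂ f₃ = truncTHT g₁ g₂ g₃ := by
    funext ε R x
    exact integral_congr_ae (ae_restrict_of_ae (pr_ae e₁ e₂ e₃ x))
  have hL := ext_bd S h₁ h₂ h₃ hC hB
  have hb := hL g₁ g₂ g₃ m₁ m₂ m₃ l₁ l₂ l₃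
  rw [eT, eLpNorm_congr_ae e₁, eLpNorm_congr_ae e₂, eLpNorm_congr_ae e₃]
  refine ⟨?_, trunc_meas' m₁ m₂ m₃, hb, ?_⟩
  · filter_upwards [ae_int (L2.of_memLp h₁ m₁ l₁) (L2.of_memLp h₂ m₂ l₂) (L2.of_memLp h₃ m₃ l₃)]
      with x hx ε R hε
    exact (hx ε R hε).congr (ae_restrict_of_ae (pr_ae e₁ e₂ e₃ x).symm)
  · refine S.cauchy (T := fun q : ℝ × ℝ => truncTHT g₁ g₂ g₃ q.1 q.2)
      (fun q => (trunc_meas' m₁ m₂ m₃ q.1 q.2).aestronglyMeasurable)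
      (cau_all S h₁ h₂ h₃ hs hst hC hC' hfin hL (ext_bd S hs hs hs hC' hB') m₁ m₂ m₃ l₁ l₂ l₃) ?_
    filter_upwards [ev_box one_pos 1] with q hq
    exact hb q.1 q.2 hq.1 (hq.2.1.trans hq.2.2)

/-- the limit in norm is the pointwise limit, if there is one -/
theorem Size.lim_eq (S : Size N r) {ι : Type*} {l : Filter ι} [l.NeBot] [l.IsCountablyGenerated]
    {T : ι → ℝ → ℂ} (hT : ∀ q, AEStronglyMeasurable (T q) volume) {F G : ℝ → ℂ}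
    (hF : AEStronglyMeasurable F volume) (h1 : Tendsto (fun q => N (T q - F)) l (𝓝 0))
    (h2 : ∀ᵐ x, Tendsto (fun q => T q x) l (𝓝 (G x))) : F =ᵐ[volume] G := by
  obtain ⟨q, hq⟩ := l.exists_seq_tendsto
  have h3 : ∀ᵐ x, Tendsto (fun n => T (q n) x) atTop (𝓝 (G x)) := h2.mono fun x hx => hx.comp hq
  have hG : AEStronglyMeasurable G volume :=
    aestronglyMeasurable_of_tendsto_ae atTop (fun n => hT (q n)) h3
  have h4 : N (G - F) = 0 := by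
    refine le_antisymm (le_of_forall_gt_imp_ge_of_dense fun e he => ?_) zero_le
    refine S.fatou (fun n => T (q n) - F) _ _ (fun n => (hT _).sub hF) ?_
      (ENNReal.tendsto_nhds_zero.1 (h1.comp hq) e he)
    filter_upwards [h3] with x hx
    exact hx.sub tendsto_const_nhds
  filter_upwards [S.eq_zero (hG.sub hF) h4] with x hx
  exact (sub_eq_zero.1 hx).symm

end

end Vale.Agent.N141.Ext
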