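import Vale.Agent.N141.Ext3

/-!
# P141: extension to all `L^p` inputs, IV: strong type and weak type
-/

namespace Vale.Agent.N141.Ext

open MeasureTheory Set Filter Topology
open scoped ENNReal NNReal SchwartzMap
open Vale.Agent.P141 (truncTHT THT IsHolderTuple)

noncomputable section

theorem inv_three {r : ℝ≥0∞} : r⁻¹ = (3 * r)⁻¹ + (3 * r)⁻¹ + (3 * r)⁻¹ := by
  rw [ENNReal.mul_inv (Or.inl (by norm_num)) (Or.inl (by norm_num)), ← add_mul, ← add_mul,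
    ENNReal.inv_three_add_inv_three, one_mul]

theorem diag_le {p₁ p₂ p₃ r : ℝ≥0∞} (h : IsHolderTuple p₁ p₂ p₃ r) (h₁ : 2 ≤ p₁) (h₂ : 2 ≤ p₂)
    (h₃ : 2 ≤ p₃) : 2 ≤ 3 * r := by
  by_contra hc
  have h4 : (2 : ℝ≥0∞)⁻¹ < (3 * r)⁻¹ := ENNReal.inv_lt_inv.2 (not_le.1 hc)
  have h5 : r⁻¹ ≤ 2⁻¹ + 2⁻¹ + 2⁻¹ := by
    rw [h.holder]
    exact add_le_add (add_le_add (ENNReal.inv_le_inv.2 h₁) (ENNReal.inv_le_inv.2 h₂))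
      (ENNReal.inv_le_inv.2 h₃)
  rw [inv_three] at h5
  exact absurd h5 (not_le.2 (ENNReal.add_lt_add (ENNReal.add_lt_add h4 h4) h4))

theorem diag_lt {p₁ p₂ p₃ r : ℝ≥0∞} (h : IsHolderTuple p₁ p₂ p₃ r) (h₁ : 2 < p₁) (h₂ : 2 < p₂)
    (h₃ : 2 < p₃) : 2 < 3 * r := by
  by_contra hc
  have h4 : (2 : ℝ≥0∞)⁻¹ ≤ (3 * r)⁻¹ := ENNReal.inv_le_inv.2 (not_lt.1 hc)
  have h5 : r⁻¹ < 2⁻¹ + 2⁻¹ + 2⁻¹ := by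
    rw [h.holder]
    exact ENNReal.add_lt_add (ENNReal.add_lt_add (ENNReal.inv_lt_inv.2 h₁)
      (ENNReal.inv_lt_inv.2 h₂)) (ENNReal.inv_lt_inv.2 h₃)
  rw [inv_three] at h5
  exact absurd h5 (not_lt.2 (add_le_add (add_le_add h4 h4) h4))

theorem diag_tuple {r : ℝ≥0∞} (h0 : 0 < r) (ht : r < ∞) (h : 2 ≤ 3 * r) :
    IsHolderTuple (3 * r) (3 * r) (3 * r) r :=
  have h1 : 1 < 3 * r := lt_of_lt_of_le (by norm_num) h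
  ⟨h1, h1, h1, h0, ht, inv_three⟩

theorem two_fin {p₁ p₂ p₃ r : ℝ≥0∞} (h : IsHolderTuple p₁ p₂ p₃ r) (h₁ : 2 ≤ p₁) (h₂ : 2 ≤ p₂)
    (h₃ : 2 ≤ p₃) (hr : r < 2) :
    (p₁ ≠ ∞ ∧ p₂ ≠ ∞) ∨ (p₁ ≠ ∞ ∧ p₃ ≠ ∞) ∨ (p₂ ≠ ∞ ∧ p₃ ≠ ∞) := by
  have h4 : (2 : ℝ≥0∞)⁻¹ < r⁻¹ := ENNReal.inv_lt_inv.2 hr
  rw [h.holder] at h4
  have i₁ := ENNReal.inv_le_inv.2 h₁
  have i₂ := ENNReal.inv_le_inv.2 h₂
  have i₃ := ENNReal.inv_le_inv.2 h₃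
  by_cases a : p₁ = ∞
  · by_cases b : p₂ = ∞
    · rw [a, b, ENNReal.inv_top, zero_add, zero_add] at h4
      exact absurd h4 (not_lt.2 i₃)
    · by_cases c : p₃ = ∞
      · rw [a, c, ENNReal.inv_top, zero_add, add_zero] at h4
        exact absurd h4 (not_lt.2 i₂)
      · exact Or.inr (Or.inr ⟨b, c⟩)
  · by_cases b : p₂ = ∞
    · by_cases c : p₃ = ∞
      · rw [b, c, ENNReal.inv_top, add_zero, add_zero] at h4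
        exact absurd h4 (not_lt.2 i₁)
      · exact Or.inr (Or.inl ⟨a, c⟩)
    · exact Or.inl ⟨a, b⟩

/-- the integrand is integrable for almost every `x` -/
theorem ae_integrable {p₁ p₂ p₃ : ℝ≥0∞} (h₁ : 2 ≤ p₁) (h₂ : 2 ≤ p₂) (h₃ : 2 ≤ p₃)
    {f₁ f₂ f₃ : ℝ → ℂ} (k₁ : MemLp f₁ p₁ volume) (k₂ : MemLp f₂ p₂ volume)
    (k₃ : MemLp f₃ p₃ volume) : ∀ᵐ x, ∀ ε R : ℝ, 0 < ε → IntegrableOn
      (fun t : ℝ => f₁ (x - t) * f₂ (x - 2 * t) * f₃ (x - 3 * t) / (t : ℂ))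
      {t : ℝ | ε < |t| ∧ |t| < R} := by
  have e₁ := k₁.1.ae_eq_mk
  have e₂ := k₂.1.ae_eq_mk
  have e₃ := k₃.1.ae_eq_mk
  filter_upwards [ae_int (L2.of_memLp h₁ k₁.1.stronglyMeasurable_mk.measurable (k₁.ae_eq e₁))
    (L2.of_memLp h₂ k₂.1.stronglyMeasurable_mk.measurable (k₂.ae_eq e₂))
    (L2.of_memLp h₃ k₃.1.stronglyMeasurable_mk.measurable (k₃.ae_eq e₃))] with x hx ε R hε
  exact (hx ε R hε).congr (ae_restrict_of_ae (pr_ae e₁ e₂ e₃ x).symm)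

/-- **strong type, all inputs** -/
theorem ext_strong
    (H : ∀ p₁ p₂ p₃ r : ℝ≥0∞, IsHolderTuple p₁ p₂ p₃ r → 2 < p₁ → 2 < p₂ → 2 < p₃ → r < 2 →
      ∃ C : ℝ, ∀ f₁ f₂ f₃ : 𝓢(ℝ, ℂ), ∀ ε R : ℝ, 0 < ε → ε < R →
        eLpNorm (truncTHT f₁ f₂ f₃ ε R) r volume ≤
          ENNReal.ofReal C * eLpNorm f₁ p₁ volume * eLpNorm f₂ p₂ volume *
            eLpNorm f₃ p₃ volume)
    {p₁ p₂ p₃ r : ℝ≥0∞} (h : IsHolderTuple p₁ p₂ p₃ r) (h₁ : 2 < p₁) (h₂ : 2 < p₂) (h₃ : 2 < p₃)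
    (hr : r < 2) : ∃ C : ℝ≥0∞, C < ∞ ∧ ∀ f₁ f₂ f₃ : ℝ → ℂ, MemLp f₁ p₁ volume →
      MemLp f₂ p₂ volume → MemLp f₃ p₃ volume →
      (∀ ε R : ℝ, 0 < ε → ε < R → eLpNorm (truncTHT f₁ f₂ f₃ ε R) r volume ≤
        C * eLpNorm f₁ p₁ volume * eLpNorm f₂ p₂ volume * eLpNorm f₃ p₃ volume) ∧
      ∃ F : ℝ → ℂ, AEStronglyMeasurable F volume ∧ eLpNorm F r volume ≤
        C * eLpNorm f₁ p₁ volume * eLpNorm f₂ p₂ volume * eLpNorm f₃ p₃ volume ∧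
        Tendsto (fun q : ℝ × ℝ => eLpNorm (truncTHT f₁ f₂ f₃ q.1 q.2 - F) r volume)
          (𝓝[>] (0 : ℝ) ×ˢ atTop) (𝓝 0) ∧
        ∀ G : ℝ → ℂ, (∀ᵐ x, Tendsto (fun q : ℝ × ℝ => truncTHT f₁ f₂ f₃ q.1 q.2 x)
          (𝓝[>] (0 : ℝ) ×ˢ atTop) (𝓝 (G x))) → F =ᵐ[volume] G := by
  obtain ⟨C, hC⟩ := H _ _ _ _ h h₁ h₂ h₃ hr
  have hd := diag_lt h h₁ h₂ h₃
  obtain ⟨C', hC'⟩ := H _ _ _ _ (diag_tuple h.r_pos h.r_lt_top hd.le) hd hd hd hr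
  have S := size_eLpNorm h.r_pos.ne' h.r_lt_top.ne
  refine ⟨ENNReal.ofReal C, ENNReal.ofReal_lt_top, fun f₁ f₂ f₃ k₁ k₂ k₃ => ?_⟩
  obtain ⟨-, a2, a3, F, a4, a5, a6⟩ := ext_main S h₁.le h₂.le h₃.le hd.le
    (ENNReal.mul_ne_top (by norm_num) h.r_lt_top.ne) ENNReal.ofReal_ne_top ENNReal.ofReal_ne_top
    (two_fin h h₁.le h₂.le h₃.le hr) hC hC' k₁ k₂ k₃
  exact ⟨a3, F, a4, a5, a6, fun G hG =>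
    S.lim_eq (fun q : ℝ × ℝ => (a2 q.1 q.2).aestronglyMeasurable) a4 a6 hG⟩

/-- **weak type, all inputs** -/
theorem ext_weak
    (H : ∀ p₁ p₂ p₃ r : ℝ≥0∞, IsHolderTuple p₁ p₂ p₃ r → 2 ≤ p₁ → 2 ≤ p₂ → 2 ≤ p₃ → r < 2 →
      ∃ C : ℝ≥0∞, C < ∞ ∧ ∀ f₁ f₂ f₃ : 𝓢(ℝ, ℂ), ∀ l : ℝ, 0 < l → ∀ ε R : ℝ, 0 < ε → ε < R →
        ENNReal.ofReal l * volume {x | l < ‖truncTHT f₁ f₂ f₃ ε R x‖} ^ (1 / r.toReal) ≤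
          C * eLpNorm f₁ p₁ volume * eLpNorm f₂ p₂ volume * eLpNorm f₃ p₃ volume)
    {p₁ p₂ p₃ r : ℝ≥0∞} (h : IsHolderTuple p₁ p₂ p₃ r) (h₁ : 2 ≤ p₁) (h₂ : 2 ≤ p₂) (h₃ : 2 ≤ p₃)
    (hr : r < 2) : ∃ C : ℝ≥0∞, C < ∞ ∧ ∀ f₁ f₂ f₃ : ℝ → ℂ, MemLp f₁ p₁ volume →
      MemLp f₂ p₂ volume → MemLp f₃ p₃ volume →
      (∀ ε R : ℝ, 0 < ε → ε < R → wn r.toReal (truncTHT f₁ f₂ f₃ ε R) ≤
        C * eLpNorm f₁ p₁ volume * eLpNorm f₂ p₂ volume * eLpNorm f₃ p₃ volume) ∧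
      ∃ F : ℝ → ℂ, AEStronglyMeasurable F volume ∧ wn r.toReal F ≤
        C * eLpNorm f₁ p₁ volume * eLpNorm f₂ p₂ volume * eLpNorm f₃ p₃ volume ∧
        Tendsto (fun q : ℝ × ℝ => wn r.toReal (truncTHT f₁ f₂ f₃ q.1 q.2 - F))
          (𝓝[>] (0 : ℝ) ×ˢ atTop) (𝓝 0) ∧
        ∀ G : ℝ → ℂ, (∀ᵐ x, Tendsto (fun q : ℝ × ℝ => truncTHT f₁ f₂ f₃ q.1 q.2 x)
          (𝓝[>] (0 : ℝ) ×ˢ atTop) (𝓝 (G x))) → F =ᵐ[volume] G := by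
  obtain ⟨C, hCt, hC⟩ := H _ _ _ _ h h₁ h₂ h₃ hr
  have hd := diag_le h h₁ h₂ h₃
  obtain ⟨C', hCt', hC'⟩ := H _ _ _ _ (diag_tuple h.r_pos h.r_lt_top hd) hd hd hd hr
  have S := size_wn (ENNReal.toReal_pos h.r_pos.ne' h.r_lt_top.ne)
  refine ⟨C, hCt, fun f₁ f₂ f₃ k₁ k₂ k₃ => ?_⟩
  obtain ⟨-, a2, a3, F, a4, a5, a6⟩ := ext_main S h₁ h₂ h₃ hd
    (ENNReal.mul_ne_top (by norm_num) h.r_lt_top.ne) hCt.ne hCt'.ne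
    (two_fin h h₁ h₂ h₃ hr)
    (fun g₁ g₂ g₃ ε R hε hR => wn_le_iff.2 fun l hl => hC g₁ g₂ g₃ l hl ε R hε hR)
    (fun g₁ g₂ g₃ ε R hε hR => wn_le_iff.2 fun l hl => hC' g₁ g₂ g₃ l hl ε R hε hR) k₁ k₂ k₃
  exact ⟨a3, F, a4, a5, a6, fun G hG =>
    S.lim_eq (fun q : ℝ × ℝ => (a2 q.1 q.2).aestronglyMeasurable) a4 a6 hG⟩

end

end Vale.Agent.N141.Ext
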