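import Vale.Agent.P141.H530.HLs

/-!
# P141, boundary of the local range: interpolation for one function, the quadratic maximal function
-/

namespace Vale.Agent.N141.Face

open MeasureTheory Set Filter Topology
open scoped ENNReal
open Vale.Agent.P141.H530

noncomputable section

/-- the constant of the interpolation -/
def Ki (a b c : ℝ) : ℝ := c * (1 / (c - a) + 1 / (b - c))

theorem Ki_pos {a b c : ℝ} (hc : 0 < c) (hac : a < c) (hcb : c < b) : 0 < Ki a b c := by
  unfold Ki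
  have h1 : 0 < c - a := by linarith
  have h2 : 0 < b - c := by linarith
  positivity

/-- two weak bounds for one function give a strong bound -/
theorem interp_lint {V : ℝ → ℝ} (hV : Measurable V) (h0 : ∀ x, 0 ≤ V x) {a b c m l : ℝ}
    (hc : 0 < c) (hac : a < c) (hcb : c < b) (hm : 0 ≤ m) (hl : 0 < l)
    (ha : ∀ s, 0 < s → s ≤ l → volume {x | s < V x} ≤ ENNReal.ofReal (m * (l / s) ^ a))
    (hb : ∀ s, l < s → volume {x | s < V x} ≤ ENNReal.ofReal (m * (l / s) ^ b)) :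
    ∫⁻ x, ENNReal.ofReal (V x ^ c) ≤ ENNReal.ofReal (Ki a b c * m * l ^ c) := by
  rw [lintegral_rpow_eq_lintegral_meas_lt_mul volume (ae_of_all _ h0) hV.aemeasurable hc]
  have hsub : Ioi (0 : ℝ) ⊆ Ioc 0 l ∪ Ioi l := by
    intro s hs
    rcases le_or_gt s l with h | h
    · exact Or.inl ⟨hs, h⟩
    · exact Or.inr h
  have e1 : ∀ s d : ℝ, 0 < s → m * (l / s) ^ d * s ^ (c - 1) = m * l ^ d * s ^ (c - 1 - d) := by
    intro s d hs
    rw [Real.div_rpow hl.le hs.le, Real.rpow_sub hs (c - 1) d]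
    ring
  have i1 : IntegrableOn (fun s : ℝ => m * l ^ a * s ^ (c - 1 - a)) (Ioc 0 l) :=
    ((intervalIntegral.intervalIntegrable_rpow' (a := 0) (b := l)
      (by linarith : -1 < c - 1 - a)).1).const_mul _
  have i2 : IntegrableOn (fun s : ℝ => m * l ^ b * s ^ (c - 1 - b)) (Ioi l) :=
    (integrableOn_Ioi_rpow_of_lt (by linarith : c - 1 - b < -1) hl).const_mul _
  have p1 : ∫⁻ s in Ioc 0 l, volume {x | s < V x} * ENNReal.ofReal (s ^ (c - 1)) ≤
      ENNReal.ofReal (m * l ^ c / (c - a)) := by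
    have h1 : ∫⁻ s in Ioc 0 l, volume {x | s < V x} * ENNReal.ofReal (s ^ (c - 1)) ≤
        ∫⁻ s in Ioc 0 l, ENNReal.ofReal (m * l ^ a * s ^ (c - 1 - a)) := by
      refine setLIntegral_mono' measurableSet_Ioc fun s hs => ?_
      refine (mul_le_mul_left (ha s hs.1 hs.2) _).trans (le_of_eq ?_)
      rw [← ENNReal.ofReal_mul (by have := hs.1; positivity), e1 s a hs.1]
    refine h1.trans (le_of_eq ?_)
    rw [← ofReal_integral_eq_lintegral_ofReal i1 ((ae_restrict_iff' measurableSet_Ioc).2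
      (ae_of_all _ fun s hs => by have := hs.1; positivity))]
    congr 1
    rw [← intervalIntegral.integral_of_le hl.le, intervalIntegral.integral_const_mul,
      integral_rpow (Or.inl (by linarith))]
    have e2 : c - 1 - a + 1 = c - a := by ring
    rw [e2, Real.zero_rpow (by linarith), sub_zero, Real.rpow_sub hl]
    have := Real.rpow_pos_of_pos hl a
    have h2 : c - a ≠ 0 := by linarith
    field_simp
  have p2 : ∫⁻ s in Ioi l, volume {x | s < V x} * ENNReal.ofReal (s ^ (c - 1)) ≤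
      ENNReal.ofReal (m * l ^ c / (b - c)) := by
    have h1 : ∫⁻ s in Ioi l, volume {x | s < V x} * ENNReal.ofReal (s ^ (c - 1)) ≤
        ∫⁻ s in Ioi l, ENNReal.ofReal (m * l ^ b * s ^ (c - 1 - b)) := by
      refine setLIntegral_mono' measurableSet_Ioi fun s hs => ?_
      have hs0 : 0 < s := hl.trans hs
      refine (mul_le_mul_left (hb s hs) _).trans (le_of_eq ?_)
      rw [← ENNReal.ofReal_mul (by positivity), e1 s b hs0]
    refine h1.trans (le_of_eq ?_)
    rw [← ofReal_integral_eq_lintegral_ofReal i2 ((ae_restrict_iff' measurableSet_Ioi).2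
      (ae_of_all _ fun s hs => by have : 0 < s := hl.trans hs; positivity))]
    congr 1
    rw [integral_const_mul, integral_Ioi_rpow_of_lt (by linarith) hl]
    have e2 : c - 1 - b + 1 = c - b := by ring
    rw [e2, Real.rpow_sub hl]
    have := Real.rpow_pos_of_pos hl b
    have h2 : c - b ≠ 0 := by linarith
    have h3 : b - c ≠ 0 := by linarith
    field_simp
    ring
  have h3 := ((lintegral_mono_set hsub).trans (lintegral_union_le _ _ _)).trans (add_le_add p1 p2)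
  refine (mul_le_mul_right h3 _).trans (le_of_eq ?_)
  have q1 : 0 < c - a := by linarith
  have q2 : 0 < b - c := by linarith
  rw [← ENNReal.ofReal_add (by positivity) (by positivity), ← ENNReal.ofReal_mul hc.le]
  congr 1
  unfold Ki
  ring

theorem eLp_eq {V : ℝ → ℝ} (h0 : ∀ x, 0 ≤ V x) {c : ℝ} (hc : 0 < c) :
    eLpNorm V (ENNReal.ofReal c) volume = (∫⁻ x, ENNReal.ofReal (V x ^ c)) ^ (1 / c) := by
  rw [eLpNorm_eq_lintegral_rpow_enorm_toReal (by simpa using hc) ENNReal.ofReal_ne_top,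
    ENNReal.toReal_ofReal hc.le]
  congr 1
  refine lintegral_congr fun x => ?_
  rw [Real.enorm_of_nonneg (h0 x), ENNReal.ofReal_rpow_of_nonneg (h0 x) hc.le]

/-- two weak bounds for one function give a strong bound, norm form -/
theorem interp {V : ℝ → ℝ} (hV : Measurable V) (h0 : ∀ x, 0 ≤ V x) {a b c m l : ℝ}
    (hc : 0 < c) (hac : a < c) (hcb : c < b) (hm : 0 ≤ m) (hl : 0 < l)
    (ha : ∀ s, 0 < s → s ≤ l → volume {x | s < V x} ≤ ENNReal.ofReal (m * (l / s) ^ a))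
    (hb : ∀ s, l < s → volume {x | s < V x} ≤ ENNReal.ofReal (m * (l / s) ^ b)) :
    eLpNorm V (ENNReal.ofReal c) volume ≤
      ENNReal.ofReal (Ki a b c ^ (1 / c) * m ^ (1 / c) * l) := by
  have hK := Ki_pos hc hac hcb
  rw [eLp_eq h0 hc]
  refine (ENNReal.rpow_le_rpow (interp_lint hV h0 hc hac hcb hm hl ha hb)
    (by positivity)).trans (le_of_eq ?_)
  rw [ENNReal.ofReal_rpow_of_nonneg (by positivity) (by positivity),
    Real.mul_rpow (by positivity) (by positivity), Real.mul_rpow hK.le hm, ← Real.rpow_mul hl.le,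
    mul_one_div_cancel hc.ne', Real.rpow_one]

/-- continuous, bounded, square integrable -/
structure Nice (f : ℝ → ℂ) : Prop where
  cont : Continuous f
  bdd : ∃ b : ℝ, ∀ x, ‖f x‖ ≤ b
  int2 : Integrable fun y => ‖f y‖ ^ (2 : ℝ)

/-- the quadratic maximal function -/
def U (f : ℝ → ℂ) (x : ℝ) : ℝ := (MM (fun y => ‖f y‖ ^ (2 : ℝ)) x ^ (1 / 2 : ℝ)).toReal

theorem U_nonneg (f : ℝ → ℂ) (x : ℝ) : 0 ≤ U f x := ENNReal.toReal_nonneg

section
variable {f : ℝ → ℂ} (hf : Nice f)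
include hf

theorem sq_le {b : ℝ} (hb : ∀ x, ‖f x‖ ≤ b) (x : ℝ) :
    MM (fun y => ‖f y‖ ^ (2 : ℝ)) x ≤ ENNReal.ofReal (b ^ (2 : ℝ)) :=
  MM_le hf.int2 (fun y => Real.rpow_le_rpow (norm_nonneg _) (hb y) (by norm_num)) x

theorem MM_ne_top (x : ℝ) : MM (fun y => ‖f y‖ ^ (2 : ℝ)) x ≠ ∞ := by
  obtain ⟨b, hb⟩ := hf.bdd
  exact ((sq_le hf hb x).trans_lt ENNReal.ofReal_lt_top).ne

theorem ofReal_U (x : ℝ) :
    ENNReal.ofReal (U f x) = MM (fun y => ‖f y‖ ^ (2 : ℝ)) x ^ (1 / 2 : ℝ) :=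
  ENNReal.ofReal_toReal (ENNReal.rpow_ne_top_of_nonneg (by norm_num) (MM_ne_top hf x))

theorem U_meas : Measurable (U f) :=
  ((MM_meas hf.int2).pow_const _).ennreal_toReal

theorem U_le {b : ℝ} (hb : ∀ x, ‖f x‖ ≤ b) (x : ℝ) : U f x ≤ b := by
  have hb0 : 0 ≤ b := (norm_nonneg _).trans (hb 0)
  have h1 : ENNReal.ofReal (U f x) ≤ ENNReal.ofReal b := by
    rw [ofReal_U hf]
    refine (ENNReal.rpow_le_rpow (sq_le hf hb x) (by norm_num)).trans (le_of_eq ?_)
    rw [ENNReal.ofReal_rpow_of_nonneg (by positivity) (by norm_num), ← Real.rpow_mul hb0]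
    norm_num
  exact (ENNReal.ofReal_le_ofReal_iff hb0).1 h1

/-- weak type at the exponent two -/
theorem U_weak {s : ℝ} (hs : 0 < s) :
    volume {x | s < U f x} ≤ ENNReal.ofReal (4 * (∫ y, ‖f y‖ ^ (2 : ℝ)) / s ^ (2 : ℝ)) := by
  have h1 := weak hf.int2 (fun y => by positivity) (l := s ^ (2 : ℝ)) (by positivity)
  have h2 : {x | s < U f x} ⊆
      {x | ENNReal.ofReal (s ^ (2 : ℝ)) < MM (fun y => ‖f y‖ ^ (2 : ℝ)) x} := by
    intro x hx
    have h3 : ENNReal.ofReal s < ENNReal.ofReal (U f x) :=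
      (ENNReal.ofReal_lt_ofReal_iff_of_nonneg hs.le).2 hx
    rw [ofReal_U hf] at h3
    have h4 := ENNReal.rpow_lt_rpow h3 (show (0 : ℝ) < 2 by norm_num)
    rw [← ENNReal.rpow_mul, ENNReal.ofReal_rpow_of_nonneg hs.le (by norm_num)] at h4
    simpa using h4
  refine ((measure_mono h2).trans h1).trans (le_of_eq ?_)
  rw [← ofReal_integral_eq_lintegral_ofReal hf.int2 (ae_of_all _ fun y => by positivity),
    ← ENNReal.ofReal_mul (by positivity)]
  congr 1
  ring

end

/-- strong type above the exponent two -/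
theorem U_strong {p : ℝ≥0∞} (hp : 2 < p) : ∃ C : ℝ≥0∞, C ≠ ∞ ∧ ∀ f : ℝ → ℂ, Nice f →
    eLpNorm (U f) p volume ≤ C * eLpNorm f p volume := by
  rcases eq_or_ne p ∞ with rfl | hp'
  · refine ⟨1, ENNReal.one_ne_top, fun f hf => ?_⟩
    rw [one_mul]
    obtain ⟨b, hb⟩ := hf.bdd
    have hfin : eLpNorm f ∞ volume ≠ ∞ := by
      rw [eLpNorm_exponent_top]
      exact (eLpNormEssSup_lt_top_of_ae_bound (ae_of_all _ hb)).ne
    have h1 : ∀ᵐ x, ‖f x‖ ≤ (eLpNorm f ∞ volume).toReal := by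
      filter_upwards [ae_le_eLpNormEssSup (f := f) (μ := volume)] with x hx
      rw [eLpNorm_exponent_top] at hfin ⊢
      have := ENNReal.toReal_mono hfin hx
      simpa using this
    have h2 : ∀ x, ‖f x‖ ≤ (eLpNorm f ∞ volume).toReal := by
      have h3 := Measure.dense_of_ae h1
      have h4 : IsClosed {x | ‖f x‖ ≤ (eLpNorm f ∞ volume).toReal} :=
        isClosed_le hf.cont.norm continuous_const
      intro x
      have h5 : x ∈ closure {x | ‖f x‖ ≤ (eLpNorm f ∞ volume).toReal} := h3 x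
      rwa [h4.closure_eq] at h5
    have h6 : eLpNorm (U f) ∞ volume ≤ ENNReal.ofReal (eLpNorm f ∞ volume).toReal := by
      rw [eLpNorm_exponent_top (f := U f)]
      refine eLpNormEssSup_le_of_ae_bound (ae_of_all _ fun x => ?_)
      rw [Real.norm_of_nonneg (U_nonneg f x)]
      exact U_le hf h2 x
    rwa [ENNReal.ofReal_toReal hfin] at h6
  · have hp0 : p ≠ 0 := (lt_trans (by norm_num) hp).ne'
    set c : ℝ := p.toReal with hc
    have hc2 : 2 < c := by
      have := (ENNReal.toReal_lt_toReal (by norm_num) hp').2 hp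
      simpa using this
    have hc0 : 0 < c := by linarith
    have hq : 1 < c / 2 := by linarith
    refine ⟨ENNReal.ofReal (c / 2 * (8 * 2 ^ (c / 2 - 1) / (c / 2 - 1))) ^ (1 / c),
      ENNReal.rpow_ne_top_of_nonneg (by positivity) ENNReal.ofReal_ne_top, fun f hf => ?_⟩
    obtain ⟨b, hb⟩ := hf.bdd
    have h1 := strong hq (G := fun y => ‖f y‖ ^ (2 : ℝ))
      (hf.cont.norm.rpow_const fun _ => Or.inr (by norm_num)).measurable hf.int2
      (fun y => by positivity) (b := b ^ (2 : ℝ))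
      (fun y => Real.rpow_le_rpow (norm_nonneg _) (hb y) (by norm_num))
    rw [eLpNorm_eq_lintegral_rpow_enorm_toReal hp0 hp', eLpNorm_eq_lintegral_rpow_enorm_toReal hp0 hp',
      ← hc, ← ENNReal.mul_rpow_of_nonneg _ _ (by positivity)]
    refine ENNReal.rpow_le_rpow ?_ (by positivity)
    have e1 : ∀ x, ‖U f x‖ₑ ^ c = MM (fun y => ‖f y‖ ^ (2 : ℝ)) x ^ (c / 2) := by
      intro x
      rw [Real.enorm_of_nonneg (U_nonneg f x), ofReal_U hf, ← ENNReal.rpow_mul]
      congr 1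
      ring
    have e2 : ∀ x, ‖f x‖ₑ ^ c = ENNReal.ofReal ((‖f x‖ ^ (2 : ℝ)) ^ (c / 2)) := by
      intro x
      rw [← Real.rpow_mul (norm_nonneg _), ← ofReal_norm,
        ENNReal.ofReal_rpow_of_nonneg (norm_nonneg _) hc0.le]
      congr 2
      ring
    simp only [e1, e2]
    exact h1

/-- Hoelder for three functions -/
theorem hold3 {V : Fin 3 → ℝ → ℝ} (hV : ∀ i, Measurable (V i)) {q : Fin 3 → ℝ≥0∞} {s : ℝ≥0∞}
    (hs : s⁻¹ = (q 0)⁻¹ + (q 1)⁻¹ + (q 2)⁻¹) :
    eLpNorm (fun x => ∏ i, V i x) s volume ≤ ∏ i, eLpNorm (V i) (q i) volume := by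
  set t : ℝ≥0∞ := ((q 0)⁻¹ + (q 1)⁻¹)⁻¹ with ht
  have h1 : ENNReal.HolderTriple (q 0) (q 1) t := ⟨by rw [ht, inv_inv]⟩
  have h2 : ENNReal.HolderTriple t (q 2) s := ⟨by rw [ht, inv_inv, hs]⟩
  have a1 := eLpNorm_smul_le_mul_eLpNorm (μ := volume) (p := q 0) (q := q 1) (r := t)
    (hV 1).aestronglyMeasurable (hV 0).aestronglyMeasurable
  have a2 := eLpNorm_smul_le_mul_eLpNorm (μ := volume) (p := t) (q := q 2) (r := s)
    (hV 2).aestronglyMeasurable ((hV 0).mul (hV 1)).aestronglyMeasurable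
  rw [Fin.prod_univ_three]
  have e : (fun x => ∏ i, V i x) = (fun x => V 0 x * V 1 x) • V 2 := by
    funext x
    simp [Fin.prod_univ_three]
  rw [e]
  exact a2.trans (mul_le_mul_left a1 _)

/-- the product of the three maximal functions -/
theorem prod_U {q : Fin 3 → ℝ≥0∞} (hq : ∀ i, 2 < q i) {s : ℝ≥0∞}
    (hs : s⁻¹ = (q 0)⁻¹ + (q 1)⁻¹ + (q 2)⁻¹) : ∃ C : ℝ≥0∞, C ≠ ∞ ∧ ∀ f : Fin 3 → ℝ → ℂ,
      (∀ i, Nice (f i)) →
      eLpNorm (fun x => ∏ i, U (f i) x) s volume ≤ C * ∏ i, eLpNorm (f i) (q i) volume := by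
  choose C hC h using fun i => U_strong (hq i)
  refine ⟨∏ i, C i, ENNReal.prod_ne_top fun i _ => hC i, fun f hf => ?_⟩
  refine (hold3 (fun i => U_meas (hf i)) hs).trans ?_
  rw [← Finset.prod_mul_distrib]
  exact Finset.prod_le_prod' fun i _ => h i (f i) (hf i)

/-- the pairing of a function of weak type two with a function in two spaces -/
theorem pair {d : ℝ} (hd0 : 0 < d) (hd : d < 1 / 2) : ∃ K : ℝ, 0 ≤ K ∧ ∀ u H : ℝ → ℝ,
    Measurable u → Measurable H → (∀ x, 0 ≤ u x) → (∀ x, 0 ≤ H x) → ∀ G m : ℝ, 0 < G → 0 < m →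
    (∀ s, 0 < s → volume {x | s < u x} ≤ ENNReal.ofReal (4 * G / s ^ (2 : ℝ))) →
    ∫⁻ x, ENNReal.ofReal (u x * H x) ≤ ENNReal.ofReal (K * √G) *
      (ENNReal.ofReal (m ^ d) * eLpNorm H (ENNReal.ofReal (1 / 2 - d)⁻¹) volume +
        ENNReal.ofReal (m ^ (-d)) * eLpNorm H (ENNReal.ofReal (1 / 2 + d)⁻¹) volume) := by
  set a : ℝ := (1 / 2 + d)⁻¹ with ha
  set b : ℝ := (1 / 2 - d)⁻¹ with hb
  have k1 : 0 < 1 / 2 + d := by linarith
  have k2 : 0 < 1 / 2 - d := by linarith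
  have ha0 : 0 < a := inv_pos.2 k1
  have hb0 : 0 < b := inv_pos.2 k2
  have ha2 : a < 2 := by
    rw [ha, inv_lt_comm₀ k1 (by norm_num)]
    linarith
  have hb2 : 2 < b := by
    rw [hb, lt_inv_comm₀ (by norm_num) k2]
    linarith
  have ia : 1 / a = 1 / 2 + d := by rw [ha, one_div, inv_inv]
  have ib : 1 / b = 1 / 2 - d := by rw [hb, one_div, inv_inv]
  set K1 : ℝ := Ki 0 2 a ^ (1 / a) * 4 ^ (1 / a) with hK1
  set K2 : ℝ := Ki 2 (b + 1) b ^ (1 / b) * 4 ^ (1 / b) with hK2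
  have hKa := Ki_pos (a := 0) (b := 2) ha0 ha0 ha2
  have hKb := Ki_pos (a := 2) (b := b + 1) hb0 hb2 (by linarith)
  have hK10 : 0 ≤ K1 := by positivity
  have hK20 : 0 ≤ K2 := by positivity
  refine ⟨K1 + K2, by positivity, fun u H hu hH u0 H0 G m hG hm hw => ?_⟩
  set l : ℝ := √(G / m) with hl
  have hl0 : 0 < l := Real.sqrt_pos.2 (by positivity)
  have hl2 : l ^ (2 : ℝ) = G / m := by
    rw [Real.rpow_two, hl, Real.sq_sqrt (by positivity)]
  have hw' : ∀ s, 0 < s → volume {x | s < u x} ≤ ENNReal.ofReal (4 * m * (l / s) ^ (2 : ℝ)) := by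
    intro s hs
    refine (hw s hs).trans (le_of_eq ?_)
    congr 1
    rw [Real.div_rpow hl0.le hs.le, hl2]
    field_simp
  set u1 : ℝ → ℝ := {x | l < u x}.indicator u with hu1
  set u2 : ℝ → ℝ := fun x => min (u x) l with hu2
  have m1 : Measurable u1 := hu.indicator (measurableSet_lt measurable_const hu)
  have m2 : Measurable u2 := hu.min measurable_const
  have z1 : ∀ x, 0 ≤ u1 x := fun x => indicator_nonneg (fun y _ => u0 y) x
  have z2 : ∀ x, 0 ≤ u2 x := fun x => le_min (u0 x) hl0.le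
  have le1 : ∀ x, u1 x ≤ u x := fun x => indicator_le_self' (fun y _ => u0 y) x
  have hsum : ∀ x, u x ≤ u1 x + u2 x := by
    intro x
    by_cases hx : l < u x
    · have : u1 x = u x := indicator_of_mem (show x ∈ {x | l < u x} from hx) u
      linarith [z2 x]
    · have : u2 x = u x := min_eq_left (not_lt.1 hx)
      linarith [z1 x]
  have n1 : eLpNorm u1 (ENNReal.ofReal a) volume ≤
      ENNReal.ofReal (Ki 0 2 a ^ (1 / a) * (4 * m) ^ (1 / a) * l) := by
    refine interp m1 z1 ha0 ha0 ha2 (by positivity) hl0 (fun s hs _ => ?_) (fun s hs => ?_)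
    · have h1 : {x | s < u1 x} ⊆ {x | l < u x} := by
        intro x hx
        by_contra h
        have : u1 x = 0 := indicator_of_notMem h u
        have h2 : s < u1 x := hx
        linarith
      refine ((measure_mono h1).trans (hw' l hl0)).trans (le_of_eq ?_)
      rw [div_self hl0.ne', Real.one_rpow, Real.rpow_zero]
    · exact (measure_mono fun x hx => lt_of_lt_of_le hx (le1 x)).trans (hw' s (hl0.trans hs))
  have n2 : eLpNorm u2 (ENNReal.ofReal b) volume ≤
      ENNReal.ofReal (Ki 2 (b + 1) b ^ (1 / b) * (4 * m) ^ (1 / b) * l) := by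
    refine interp m2 z2 hb0 hb2 (by linarith) (by positivity) hl0 (fun s hs _ => ?_)
      (fun s hs => ?_)
    · have h1 : {x | s < u2 x} ⊆ {x | s < u x} := fun x hx =>
        lt_of_lt_of_le (show s < min (u x) l from hx) (min_le_left _ _)
      exact (measure_mono h1).trans (hw' s hs)
    · have h1 : {x | s < u2 x} = ∅ := by
        refine eq_empty_of_forall_notMem fun x hx => ?_
        have h2 : s < min (u x) l := hx
        linarith [min_le_right (u x) l]
      rw [h1, measure_empty]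
      exact zero_le
  have hml : m ^ (1 / 2 : ℝ) * l = √G := by
    rw [← Real.sqrt_eq_rpow, hl, ← Real.sqrt_mul hm.le]
    congr 1
    field_simp
  have v1 : Ki 0 2 a ^ (1 / a) * (4 * m) ^ (1 / a) * l = K1 * √G * m ^ d := by
    rw [Real.mul_rpow (by norm_num) hm.le, hK1, ← hml]
    have : m ^ (1 / a) = m ^ (1 / 2 : ℝ) * m ^ d := by rw [ia, Real.rpow_add hm]
    rw [this]
    ring
  have v2 : Ki 2 (b + 1) b ^ (1 / b) * (4 * m) ^ (1 / b) * l = K2 * √G * m ^ (-d) := by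
    rw [Real.mul_rpow (by norm_num) hm.le, hK2, ← hml]
    have : m ^ (1 / b) = m ^ (1 / 2 : ℝ) * m ^ (-d) := by
      rw [ib, sub_eq_add_neg, Real.rpow_add hm]
    rw [this]
    ring
  rw [v1] at n1
  rw [v2] at n2
  have hab : (ENNReal.ofReal a)⁻¹ + (ENNReal.ofReal b)⁻¹ = 1⁻¹ := by
    rw [← ENNReal.ofReal_inv_of_pos ha0, ← ENNReal.ofReal_inv_of_pos hb0, ha, hb, inv_inv, inv_inv,
      ← ENNReal.ofReal_add k1.le k2.le]
    norm_num
  have t1 : ENNReal.HolderTriple (ENNReal.ofReal a) (ENNReal.ofReal b) 1 := ⟨hab⟩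
  have t2 : ENNReal.HolderTriple (ENNReal.ofReal b) (ENNReal.ofReal a) 1 :=
    ⟨by rw [add_comm, hab]⟩
  have c1 := eLpNorm_smul_le_mul_eLpNorm (μ := volume) (p := ENNReal.ofReal a)
    (q := ENNReal.ofReal b) (r := 1) hH.aestronglyMeasurable m1.aestronglyMeasurable
  have c2 := eLpNorm_smul_le_mul_eLpNorm (μ := volume) (p := ENNReal.ofReal b)
    (q := ENNReal.ofReal a) (r := 1) hH.aestronglyMeasurable m2.aestronglyMeasurable
  rw [eLpNorm_one_eq_lintegral_enorm] at c1 c2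
  have hpt : ∀ x, ENNReal.ofReal (u x * H x) ≤ ‖(u1 • H) x‖ₑ + ‖(u2 • H) x‖ₑ := by
    intro x
    have e1 : (u1 • H) x = u1 x * H x := rfl
    have e2 : (u2 • H) x = u2 x * H x := rfl
    rw [e1, e2, Real.enorm_of_nonneg (mul_nonneg (z1 x) (H0 x)),
      Real.enorm_of_nonneg (mul_nonneg (z2 x) (H0 x)),
      ← ENNReal.ofReal_add (mul_nonneg (z1 x) (H0 x)) (mul_nonneg (z2 x) (H0 x))]
    refine ENNReal.ofReal_le_ofReal ?_
    nlinarith [hsum x, H0 x]
  refine (lintegral_mono hpt).trans ?_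
  rw [lintegral_add_left (show Measurable fun x => ‖(u1 • H) x‖ₑ from (m1.mul hH).enorm)]
  refine (add_le_add (c1.trans (mul_le_mul_left n1 _)) (c2.trans (mul_le_mul_left n2 _))).trans ?_
  have hs0 : 0 ≤ √G := Real.sqrt_nonneg G
  rw [mul_add, ← mul_assoc, ← mul_assoc, ← ENNReal.ofReal_mul (by positivity),
    ← ENNReal.ofReal_mul (by positivity)]
  refine add_le_add (mul_le_mul_left (ENNReal.ofReal_le_ofReal ?_) _)
    (mul_le_mul_left (ENNReal.ofReal_le_ofReal ?_) _)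
  · have : 0 ≤ √G * m ^ d := by positivity
    nlinarith
  · have : 0 ≤ √G * m ^ (-d) := by positivity
    nlinarith

end

end Vale.Agent.N141.Face
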