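import Vale.Agent.N141.Wk
import Vale.Agent.P141.H530.RealD
import Vale.Agent.P141.PL.H620.Full

/-!
# P141: weak type on the closed local `L²` range, domination by the maximal function `M₂`
-/

namespace Vale.Agent.N141

open MeasureTheory Filter Topology
open scoped ENNReal SchwartzMap
open Vale.Agent.P141.H530
open Vale.Agent.P141 (truncTHT THT IsHolderTuple exists_tendsto_truncTHT)
open Vale.Agent.P141.H337 (RootQ)

noncomputable section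

theorem MM_le_ae {G : ℝ → ℝ} (hG : ∀ a b, IntervalIntegrable G volume a b) {b : ℝ}
    (hb : ∀ᵐ x, G x ≤ b) (x : ℝ) : MM G x ≤ ENNReal.ofReal b := by
  refine iSup_le fun p => ENNReal.ofReal_le_ofReal ?_
  obtain ⟨⟨t, c⟩, ht, hc⟩ := p
  simp only at ht hc ⊢
  unfold mv
  rw [inv_mul_le_iff₀ (by positivity)]
  have h1 : (∫ y in (x + c - 16 * t)..(x + c + 16 * t), G y) ≤
      ∫ _ in (x + c - 16 * t)..(x + c + 16 * t), b :=
    intervalIntegral.integral_mono_ae (by linarith) (hG _ _) intervalIntegrable_const hb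
  rw [intervalIntegral.integral_const, smul_eq_mul] at h1
  linarith

theorem weakM {G : ℝ → ℝ} (hG : Integrable G) (hGm : Measurable G) (h0 : ∀ x, 0 ≤ G x) {p t : ℝ}
    (hp : 1 ≤ p) (ht : 0 < t) : volume {x | ENNReal.ofReal (2 * t) < MM G x} ≤
      ENNReal.ofReal (4 * t ^ (-p)) * ∫⁻ x, ENNReal.ofReal (G x ^ p) := by
  have hS : MeasurableSet {y | t < G y} := measurableSet_lt measurable_const hGm
  have h1 : {x | ENNReal.ofReal (2 * t) < MM G x} ⊆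
      {x | ENNReal.ofReal t < MM ({y | t < G y}.indicator G) x} := by
    intro x hx
    have h2 := lt_of_lt_of_le (show ENNReal.ofReal (2 * t) < MM G x from hx)
      (MM_split hG hGm h0 ht.le x)
    rw [two_mul, ENNReal.ofReal_add ht.le ht.le] at h2
    exact lt_of_add_lt_add_right h2
  refine (measure_mono h1).trans ((weak (hG.indicator hS)
    (fun x => Set.indicator_nonneg (fun y _ => h0 y) x) ht).trans ?_)
  have h2 : ∀ x, ENNReal.ofReal ({y | t < G y}.indicator G x) ≤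
      ENNReal.ofReal (t ^ (1 - p)) * ENNReal.ofReal (G x ^ p) := by
    intro x
    rw [← ENNReal.ofReal_mul (Real.rpow_nonneg ht.le _)]
    refine ENNReal.ofReal_le_ofReal ?_
    by_cases hx : t < G x
    · rw [Set.indicator_of_mem (show x ∈ {y | t < G y} from hx)]
      have h3 : 0 < G x := ht.trans hx
      have h4 : G x ^ (1 - p) ≤ t ^ (1 - p) := Real.rpow_le_rpow_of_nonpos ht hx.le (by linarith)
      calc G x = G x ^ (1 - p) * G x ^ p := by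
            rw [← Real.rpow_add h3, sub_add_cancel, Real.rpow_one]
        _ ≤ _ := mul_le_mul_of_nonneg_right h4 (Real.rpow_nonneg h3.le _)
    · rw [Set.indicator_of_notMem (show x ∉ {y | t < G y} from hx)]
      exact mul_nonneg (Real.rpow_nonneg ht.le _) (Real.rpow_nonneg (h0 x) _)
  refine (mul_le_mul_right (lintegral_mono h2) _).trans (le_of_eq ?_)
  rw [lintegral_const_mul' _ _ ENNReal.ofReal_ne_top, ← mul_assoc,
    ← ENNReal.ofReal_mul (by positivity)]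
  congr 2
  rw [Real.rpow_sub ht, Real.rpow_one, Real.rpow_neg ht.le]
  field_simp

/-- continuous, bounded, square integrable -/
structure Good (f : ℝ → ℂ) : Prop where
  cont : Continuous f
  int : Integrable fun y => ‖f y‖ ^ (2 : ℝ)
  bd : ∃ b : ℝ, ∀ y, ‖f y‖ ^ (2 : ℝ) ≤ b

theorem good_of_bd {f : ℝ → ℂ} (hf : Continuous f) (hi : Integrable f) {b : ℝ}
    (hb : ∀ y, ‖f y‖ ≤ b) : Good f := by
  have hc : Continuous fun y => ‖f y‖ ^ (2 : ℝ) := hf.norm.rpow_const fun _ => Or.inr zero_le_two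
  refine ⟨hf, (hi.norm.const_mul b).mono' hc.aestronglyMeasurable (ae_of_all _ fun y => ?_),
    b ^ (2 : ℝ), fun y => Real.rpow_le_rpow (norm_nonneg _) (hb y) zero_le_two⟩
  rw [Real.norm_eq_abs, abs_of_nonneg (Real.rpow_nonneg (norm_nonneg _) _), Real.rpow_two, sq]
  exact mul_le_mul_of_nonneg_right (hb y) (norm_nonneg _)

theorem good_schwartz (f : 𝓢(ℝ, ℂ)) : Good f :=
  good_of_bd f.continuous f.integrable fun y => f.norm_le_seminorm ℝ y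

theorem good_compact {f : ℝ → ℂ} (hf : Continuous f) (hs : HasCompactSupport f) : Good f := by
  obtain ⟨b, hb⟩ := hs.exists_bound_of_continuous hf
  exact good_of_bd hf (hf.integrable_of_hasCompactSupport hs) hb

/-- the maximal function of exponent `2`, real valued -/
def ph (f : ℝ → ℂ) (x : ℝ) : ℝ := (MM (fun y => ‖f y‖ ^ (2 : ℝ)) x).toReal ^ (1 / 2 : ℝ)

theorem ph_nonneg (f : ℝ → ℂ) (x : ℝ) : 0 ≤ ph f x := Real.rpow_nonneg ENNReal.toReal_nonneg _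

theorem Good.MM_fin {f : ℝ → ℂ} (hf : Good f) (x : ℝ) : MM (fun y => ‖f y‖ ^ (2 : ℝ)) x ≠ ∞ := by
  obtain ⟨b, hb⟩ := hf.bd
  exact ((MM_le hf.int hb x).trans_lt ENNReal.ofReal_lt_top).ne

theorem Good.ph_meas {f : ℝ → ℂ} (hf : Good f) : Measurable (ph f) :=
  (MM_meas hf.int).ennreal_toReal.pow_const _

theorem Good.ofReal_ph {f : ℝ → ℂ} (hf : Good f) (x : ℝ) {ρ : ℝ} (hρ : 0 ≤ ρ) :
    ENNReal.ofReal (ph f x ^ ρ) = MM (fun y => ‖f y‖ ^ (2 : ℝ)) x ^ (ρ / 2) := by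
  unfold ph
  rw [← Real.rpow_mul ENNReal.toReal_nonneg, ← ENNReal.ofReal_rpow_of_nonneg ENNReal.toReal_nonneg
    (by positivity), ENNReal.ofReal_toReal (hf.MM_fin x)]
  congr 1
  ring

theorem weak_ph {f : ℝ → ℂ} (hf : Good f) {p : ℝ≥0∞} (hp : 2 ≤ p) {a ν s : ℝ} (ha : 0 < a)
    (hfa : eLpNorm f p volume ≤ ENNReal.ofReal a) (hν : 0 < ν) :
    volume {x | 2 * a * ν ^ (s * (p⁻¹).toReal) < ph f x} ≤ ENNReal.ofReal (4 * ν ^ (-s)) := by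
  have hGc : Continuous fun y => ‖f y‖ ^ (2 : ℝ) :=
    hf.cont.norm.rpow_const fun _ => Or.inr zero_le_two
  set τ : ℝ := a * ν ^ (s * (p⁻¹).toReal) with hτ
  have hτ0 : 0 < τ := by positivity
  have h1 : {x | 2 * a * ν ^ (s * (p⁻¹).toReal) < ph f x} ⊆
      {x | ENNReal.ofReal (2 * τ ^ (2 : ℝ)) < MM (fun y => ‖f y‖ ^ (2 : ℝ)) x} := by
    intro x hx
    have h2 : 2 * τ < ph f x := by
      rw [hτ, ← mul_assoc]
      exact hx
    have h3 := hf.ofReal_ph x zero_le_two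
    rw [div_self two_ne_zero, ENNReal.rpow_one] at h3
    show _ < MM (fun y => ‖f y‖ ^ (2 : ℝ)) x
    rw [← h3, ENNReal.ofReal_lt_ofReal_iff_of_nonneg (by positivity), Real.rpow_two, Real.rpow_two]
    nlinarith
  refine (measure_mono h1).trans ?_
  rcases eq_or_ne p ∞ with rfl | hpt
  · have h2 : ∀ᵐ y, ‖f y‖ ^ (2 : ℝ) ≤ a ^ (2 : ℝ) := by
      rw [eLpNorm_exponent_top] at hfa
      filter_upwards [ae_le_eLpNormEssSup (f := f) (μ := volume)] with y hy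
      have h3 := hy.trans hfa
      rw [← ofReal_norm, ENNReal.ofReal_le_ofReal_iff ha.le] at h3
      exact Real.rpow_le_rpow (norm_nonneg _) h3 zero_le_two
    have h3 : {x | ENNReal.ofReal (2 * τ ^ (2 : ℝ)) < MM (fun y => ‖f y‖ ^ (2 : ℝ)) x} = ∅ := by
      ext x
      simp only [Set.mem_ofPred_eq, Set.mem_empty_iff_false, iff_false, not_lt]
      refine (MM_le_ae (fun _ _ => hGc.intervalIntegrable _ _) h2 x).trans
        (ENNReal.ofReal_le_ofReal ?_)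
      rw [hτ, ENNReal.inv_top, ENNReal.toReal_zero, mul_zero, Real.rpow_zero, mul_one]
      have : 0 ≤ a ^ (2 : ℝ) := by positivity
      linarith
    rw [h3, measure_empty]
    exact zero_le
  · have hp0 : p ≠ 0 := (zero_lt_two.trans_le hp).ne'
    set P : ℝ := p.toReal with hP
    have hP2 : 2 ≤ P := by simpa using ENNReal.toReal_mono hpt hp
    have hP0 : 0 < P := by linarith
    refine (weakM hf.int hGc.measurable (fun y => Real.rpow_nonneg (norm_nonneg _) _)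
      (p := P / 2) (by linarith) (by positivity)).trans ?_
    have h2 : ∫⁻ x, ENNReal.ofReal ((‖f x‖ ^ (2 : ℝ)) ^ (P / 2)) ≤ ENNReal.ofReal (a ^ P) := by
      rw [eLpNorm_eq_lintegral_rpow_enorm_toReal hp0 hpt, ← hP] at hfa
      have h3 := ENNReal.rpow_le_rpow hfa hP0.le
      rw [← ENNReal.rpow_mul, one_div_mul_cancel hP0.ne', ENNReal.rpow_one,
        ENNReal.ofReal_rpow_of_nonneg ha.le hP0.le] at h3
      refine le_trans (le_of_eq (lintegral_congr fun x => ?_)) h3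
      rw [← Real.rpow_mul (norm_nonneg _), ← ofReal_norm,
        ENNReal.ofReal_rpow_of_nonneg (norm_nonneg _) hP0.le]
      congr 2
      ring
    refine (mul_le_mul_right h2 _).trans (le_of_eq ?_)
    rw [← ENNReal.ofReal_mul (by positivity)]
    congr 1
    rw [← Real.rpow_mul hτ0.le, show (2 : ℝ) * -(P / 2) = -P by ring, hτ,
      Real.mul_rpow ha.le (by positivity), ← Real.rpow_mul hν.le, ENNReal.toReal_inv, ← hP,
      show s * P⁻¹ * -P = -s by field_simp, Real.rpow_neg ha.le]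
    have : 0 < a ^ P := by positivity
    field_simp

/-- the product of the three maximal functions -/
def Ph (f₁ f₂ f₃ : ℝ → ℂ) (x : ℝ) : ℝ := ph f₁ x * ph f₂ x * ph f₃ x

theorem Ph_nonneg (f₁ f₂ f₃ : ℝ → ℂ) (x : ℝ) : 0 ≤ Ph f₁ f₂ f₃ x :=
  mul_nonneg (mul_nonneg (ph_nonneg _ _) (ph_nonneg _ _)) (ph_nonneg _ _)

theorem holder_real {p₁ p₂ p₃ r : ℝ≥0∞} (h : IsHolderTuple p₁ p₂ p₃ r) :
    0 < r.toReal ∧ r.toReal * (p₁⁻¹).toReal + r.toReal * (p₂⁻¹).toReal +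
      r.toReal * (p₃⁻¹).toReal = 1 := by
  have n1 : p₁⁻¹ ≠ ∞ := ENNReal.inv_ne_top.2 (zero_lt_one.trans h.one_lt_p₁).ne'
  have n2 : p₂⁻¹ ≠ ∞ := ENNReal.inv_ne_top.2 (zero_lt_one.trans h.one_lt_p₂).ne'
  have n3 : p₃⁻¹ ≠ ∞ := ENNReal.inv_ne_top.2 (zero_lt_one.trans h.one_lt_p₃).ne'
  have hsum : (r⁻¹).toReal = (p₁⁻¹).toReal + (p₂⁻¹).toReal + (p₃⁻¹).toReal := by
    rw [h.holder, ENNReal.toReal_add (ENNReal.add_ne_top.2 ⟨n1, n2⟩) n3, ENNReal.toReal_add n1 n2]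
  have hr : 0 < r.toReal := ENNReal.toReal_pos h.r_pos.ne' h.r_lt_top.ne
  refine ⟨hr, ?_⟩
  rw [← mul_add, ← mul_add, ← hsum, ENNReal.toReal_inv, mul_inv_cancel₀ hr.ne']

theorem weak_Ph {p₁ p₂ p₃ r : ℝ≥0∞} (h : IsHolderTuple p₁ p₂ p₃ r) (h₁ : 2 ≤ p₁) (h₂ : 2 ≤ p₂)
    (h₃ : 2 ≤ p₃) {f₁ f₂ f₃ : ℝ → ℂ} (g₁ : Good f₁) (g₂ : Good f₂) (g₃ : Good f₃) {a₁ a₂ a₃ : ℝ}
    (ha₁ : 0 < a₁) (ha₂ : 0 < a₂) (ha₃ : 0 < a₃) (k₁ : eLpNorm f₁ p₁ volume ≤ ENNReal.ofReal a₁)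
    (k₂ : eLpNorm f₂ p₂ volume ≤ ENNReal.ofReal a₂) (k₃ : eLpNorm f₃ p₃ volume ≤ ENNReal.ofReal a₃)
    {t : ℝ} (ht : 0 < t) : volume {x | t < Ph f₁ f₂ f₃ x} ≤
      ENNReal.ofReal (12 * (t / (8 * (a₁ * a₂ * a₃))) ^ (-r.toReal)) := by
  obtain ⟨hr, hs⟩ := holder_real h
  set ν : ℝ := t / (8 * (a₁ * a₂ * a₃)) with hν
  have hν0 : 0 < ν := by positivity
  set s := r.toReal with hsdef
  have h1 : {x | t < Ph f₁ f₂ f₃ x} ⊆ {x | 2 * a₁ * ν ^ (s * (p₁⁻¹).toReal) < ph f₁ x} ∪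
      {x | 2 * a₂ * ν ^ (s * (p₂⁻¹).toReal) < ph f₂ x} ∪
      {x | 2 * a₃ * ν ^ (s * (p₃⁻¹).toReal) < ph f₃ x} := by
    intro x hx
    by_contra hc
    simp only [Set.mem_union, Set.mem_ofPred_eq, not_or, not_lt] at hc
    obtain ⟨⟨c1, c2⟩, c3⟩ := hc
    have h2 : Ph f₁ f₂ f₃ x ≤ (2 * a₁ * ν ^ (s * (p₁⁻¹).toReal)) *
        (2 * a₂ * ν ^ (s * (p₂⁻¹).toReal)) * (2 * a₃ * ν ^ (s * (p₃⁻¹).toReal)) :=
      mul_le_mul (mul_le_mul c1 c2 (ph_nonneg _ _) (by positivity)) c3 (ph_nonneg _ _)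
        (by positivity)
    have h3 : ν ^ (s * (p₁⁻¹).toReal) * ν ^ (s * (p₂⁻¹).toReal) * ν ^ (s * (p₃⁻¹).toReal) = ν := by
      rw [← Real.rpow_add hν0, ← Real.rpow_add hν0, hs, Real.rpow_one]
    have h4 : 8 * (a₁ * a₂ * a₃) * ν = t := by
      rw [hν]
      field_simp
    have h5 : t < Ph f₁ f₂ f₃ x := hx
    have h6 : (2 * a₁ * ν ^ (s * (p₁⁻¹).toReal)) * (2 * a₂ * ν ^ (s * (p₂⁻¹).toReal)) *
        (2 * a₃ * ν ^ (s * (p₃⁻¹).toReal)) = 8 * (a₁ * a₂ * a₃) * (ν ^ (s * (p₁⁻¹).toReal) *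
          ν ^ (s * (p₂⁻¹).toReal) * ν ^ (s * (p₃⁻¹).toReal)) := by ring
    rw [h6, h3, h4] at h2
    linarith
  refine (measure_mono h1).trans ((measure_union_le _ _).trans ((add_le_add
    ((measure_union_le _ _).trans (add_le_add (weak_ph g₁ h₁ ha₁ k₁ hν0)
      (weak_ph g₂ h₂ ha₂ k₂ hν0))) (weak_ph g₃ h₃ ha₃ k₃ hν0)).trans (le_of_eq ?_)))
  rw [← ENNReal.ofReal_add (by positivity) (by positivity),
    ← ENNReal.ofReal_add (by positivity) (by positivity)]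
  congr 1
  ring

theorem DomBy.smul {ρ : ℝ} (hρ : 0 < ρ) {C : ℝ≥0∞} {F : ℝ → ℂ} {Φ : ℝ → ℝ} (h0 : ∀ x, 0 ≤ Φ x)
    (h : DomBy ρ C F Φ) {c : ℝ} (hc : 0 < c) :
    DomBy ρ C (fun x => (c : ℂ) * F x) fun x => c * Φ x := by
  intro g hg
  have e1 : ∀ x, ‖g x * ((c : ℂ) * F x)‖ₑ ^ ρ = ENNReal.ofReal (c ^ ρ) * ‖g x * F x‖ₑ ^ ρ := by
    intro x
    rw [mul_left_comm, enorm_mul, ENNReal.mul_rpow_of_nonneg _ _ hρ.le, ← ofReal_norm (c : ℂ),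
      Complex.norm_real, Real.norm_eq_abs, abs_of_pos hc, ENNReal.ofReal_rpow_of_pos hc]
  have e2 : ∀ x, MM (fun y => ‖g y‖ ^ (2 : ℝ)) x ^ (ρ / 2) * ENNReal.ofReal ((c * Φ x) ^ ρ) =
      ENNReal.ofReal (c ^ ρ) *
        (MM (fun y => ‖g y‖ ^ (2 : ℝ)) x ^ (ρ / 2) * ENNReal.ofReal (Φ x ^ ρ)) := by
    intro x
    rw [Real.mul_rpow hc.le (h0 x), ENNReal.ofReal_mul (by positivity)]
    ring
  simp only [e1, e2]
  rw [lintegral_const_mul' _ _ ENNReal.ofReal_ne_top, lintegral_const_mul' _ _ ENNReal.ofReal_ne_top,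
    mul_left_comm]
  exact mul_le_mul_right (h g hg) _

theorem DomBy.lim {ρ : ℝ} {C : ℝ≥0∞} {F : ℕ → ℝ → ℂ} {T : ℝ → ℂ} {Φ : ℝ → ℝ}
    (hF : ∀ n, Measurable (F n)) (hlim : ∀ x, Tendsto (fun n => F n x) atTop (𝓝 (T x)))
    (h : ∀ n, DomBy ρ C (F n) Φ) : DomBy ρ C T Φ := by
  intro g hg
  have h1 : ∀ x, ‖g x * T x‖ₑ ^ ρ = liminf (fun n => ‖g x * F n x‖ₑ ^ ρ) atTop := by
    intro x
    have h2 : Tendsto (fun n => ‖g x * F n x‖ₑ ^ ρ) atTop (𝓝 (‖g x * T x‖ₑ ^ ρ)) :=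
      ((ENNReal.continuous_rpow_const (y := ρ)).tendsto _).comp
        ((continuous_enorm.tendsto _).comp ((hlim x).const_mul _))
    exact h2.liminf_eq.symm
  simp only [h1]
  have hm : ∀ n, Measurable fun x => g x * F n x := fun n => hg.measurable.mul (hF n)
  refine (lintegral_liminf_le fun n => (hm n).enorm.pow_const ρ).trans ?_
  exact liminf_le_of_frequently_le' (Frequently.of_forall fun n => h n g hg)

/-- weak type for a dominated function -/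
theorem weak_gen {p₁ p₂ p₃ r : ℝ≥0∞} (h : IsHolderTuple p₁ p₂ p₃ r) (h₁ : 2 ≤ p₁) (h₂ : 2 ≤ p₂)
    (h₃ : 2 ≤ p₃) (hr : r < 2) (C : ℝ → ℝ≥0∞) (hC : ∀ ρ, C ρ ≠ ∞) : ∃ C' : ℝ≥0∞, C' < ∞ ∧
    ∀ (F f₁ f₂ f₃ : ℝ → ℂ), Measurable F → Good f₁ → Good f₂ → Good f₃ →
      eLpNorm f₁ p₁ volume ≠ ∞ → eLpNorm f₂ p₂ volume ≠ ∞ → eLpNorm f₃ p₃ volume ≠ ∞ →
      (∀ ρ, 0 < ρ → ρ ≤ 1 → DomBy ρ (C ρ) F (Ph f₁ f₂ f₃)) → ∀ l : ℝ, 0 < l →
      ENNReal.ofReal l * volume {x | l < ‖F x‖} ^ (1 / r.toReal) ≤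
        C' * eLpNorm f₁ p₁ volume * eLpNorm f₂ p₂ volume * eLpNorm f₃ p₃ volume := by
  obtain ⟨hs0, -⟩ := holder_real h
  have hs2 : r.toReal < 2 := by
    simpa using (ENNReal.toReal_lt_toReal h.r_lt_top.ne (by simp)).2 hr
  set s := r.toReal with hs
  obtain ⟨ρ, hρ0, hρ1, H⟩ := weak_of_dom hs0 hs2
  obtain ⟨C', hC', H⟩ := H (C ρ) (hC ρ)
  have hfin : (C' * 12) ^ (1 / s) * 8 ≠ ∞ := ENNReal.mul_ne_top
    (ENNReal.rpow_ne_top_of_nonneg (by positivity) (ENNReal.mul_ne_top hC' (by norm_num)))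
    (by norm_num)
  refine ⟨(C' * 12) ^ (1 / s) * 8, hfin.lt_top, ?_⟩
  intro F f₁ f₂ f₃ hF g₁ g₂ g₃ n₁ n₂ n₃ hdom l hl
  have key : ∀ a₁ a₂ a₃ : ℝ, 0 < a₁ → 0 < a₂ → 0 < a₃ → eLpNorm f₁ p₁ volume ≤ ENNReal.ofReal a₁ →
      eLpNorm f₂ p₂ volume ≤ ENNReal.ofReal a₂ → eLpNorm f₃ p₃ volume ≤ ENNReal.ofReal a₃ →
      ENNReal.ofReal l * volume {x | l < ‖F x‖} ^ (1 / s) ≤
        (C' * 12) ^ (1 / s) * 8 * ENNReal.ofReal (a₁ * a₂ * a₃) := by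
    intro a₁ a₂ a₃ ha₁ ha₂ ha₃ k₁ k₂ k₃
    set A := a₁ * a₂ * a₃ with hA
    have hA0 : 0 < A := by positivity
    have hl' : 0 < l⁻¹ := inv_pos.2 hl
    have h1 := H (fun x => ((l⁻¹ : ℝ) : ℂ) * F x) (fun x => l⁻¹ * Ph f₁ f₂ f₃ x)
      (12 * ENNReal.ofReal ((8 * A / l) ^ s)) (hF.const_mul _)
      (((g₁.ph_meas.mul g₂.ph_meas).mul g₃.ph_meas).const_mul _)
      (fun x => mul_nonneg hl'.le (Ph_nonneg _ _ _ _))
      ((hdom ρ hρ0 hρ1).smul hρ0 (Ph_nonneg _ _ _) hl') (fun t ht => by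
        have e : {x | t < l⁻¹ * Ph f₁ f₂ f₃ x} = {x | l * t < Ph f₁ f₂ f₃ x} := by
          ext x
          simp only [Set.mem_ofPred_eq]
          rw [lt_inv_mul_iff₀ hl]
        rw [e]
        refine (weak_Ph h h₁ h₂ h₃ g₁ g₂ g₃ ha₁ ha₂ ha₃ k₁ k₂ k₃ (mul_pos hl ht)).trans
          (le_of_eq ?_)
        have e1 : (l * t / (8 * (a₁ * a₂ * a₃))) ^ (-r.toReal) = (8 * A / l) ^ s * t ^ (-s) := by
          rw [← hA, ← hs, show l * t / (8 * A) = (8 * A / l)⁻¹ * t by field_simp,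
            Real.mul_rpow (by positivity) ht.le, Real.inv_rpow (by positivity),
            Real.rpow_neg (by positivity), inv_inv]
        rw [e1, ENNReal.ofReal_mul (by norm_num), ENNReal.ofReal_mul (by positivity), mul_assoc]
        norm_num)
    have e : {x | 1 < ‖((l⁻¹ : ℝ) : ℂ) * F x‖} = {x | l < ‖F x‖} := by
      ext x
      simp only [Set.mem_ofPred_eq]
      rw [norm_mul, Complex.norm_real, Real.norm_eq_abs, abs_of_pos hl', lt_inv_mul_iff₀ hl, mul_one]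
    rw [e, ← mul_assoc] at h1
    refine (mul_le_mul_right (ENNReal.rpow_le_rpow h1 (by positivity)) _).trans (le_of_eq ?_)
    rw [ENNReal.mul_rpow_of_nonneg _ _ (by positivity), ENNReal.ofReal_rpow_of_nonneg
      (by positivity) (by positivity), ← Real.rpow_mul (by positivity), mul_one_div_cancel hs0.ne',
      Real.rpow_one, mul_left_comm, ← ENNReal.ofReal_mul hl.le, mul_div_cancel₀ _ hl.ne',
      ENNReal.ofReal_mul (by norm_num), mul_assoc]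
    norm_num
  have h1 := lim_delta (r := 1) (K1 := 1) (K2 := 1) (K3 := 1) hfin n₁ n₂ n₃ (by simp) (by simp)
    (by simp) one_pos (A := ENNReal.ofReal l * volume {x | l < ‖F x‖} ^ (1 / s)) fun δ hδ => by
      have k : ∀ n : ℝ≥0∞, n ≠ ∞ → ENNReal.ofReal (n.toReal + δ) = n + ENNReal.ofReal δ * 1 := by
        intro n hn
        rw [ENNReal.ofReal_add ENNReal.toReal_nonneg hδ.le, ENNReal.ofReal_toReal hn, mul_one]
      have k0 : ∀ n : ℝ≥0∞, 0 < n.toReal + δ := fun n => by positivity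
      refine (key _ _ _ (k0 _) (k0 _) (k0 _) ((k _ n₁).ge.trans' le_self_add)
        ((k _ n₂).ge.trans' le_self_add) ((k _ n₃).ge.trans' le_self_add)).trans (le_of_eq ?_)
      rw [ENNReal.ofReal_mul (by positivity), ENNReal.ofReal_mul (by positivity), k _ n₁, k _ n₂,
        k _ n₃]
      simp only [ENNReal.rpow_one]
  simp only [ENNReal.rpow_one] at h1
  refine h1.trans (le_of_eq ?_)
  ring

section
variable {P : ℝ} (hP : 0 ≤ P) (H : ∀ n, RootQ 2 n P)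
include hP H

theorem domBy_trunc {ρ : ℝ} (hρ0 : 0 < ρ) (hρ1 : ρ ≤ 1) {f₁ f₂ f₃ : ℝ → ℂ} (g₁ : Good f₁)
    (g₂ : Good f₂) (g₃ : Good f₃) {ε R : ℝ} (hε : 0 < ε) (hR : ε < R) :
    DomBy ρ (Cd ρ P) (truncTHT f₁ f₂ f₃ ε R) (Ph f₁ f₂ f₃) := by
  intro g hg
  have h1 := dom_main (q := fun _ => 2) (fun _ => by norm_num) (by simp; norm_num) hP
    (fun n => rootV_of_rootQ (H n)) hρ0 hρ1 (g := ![g, f₁, f₂, f₃]) (fun j => by
      fin_cases j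
      · exact hg
      · exact g₁.cont
      · exact g₂.cont
      · exact g₃.cont) hε hR
  refine h1.trans (mul_le_mul_right (le_of_eq (lintegral_congr fun x => ?_)) _)
  rw [Fin.prod_univ_four]
  unfold Ph
  rw [Real.mul_rpow (mul_nonneg (ph_nonneg _ _) (ph_nonneg _ _)) (ph_nonneg _ _),
    Real.mul_rpow (ph_nonneg _ _) (ph_nonneg _ _),
    ENNReal.ofReal_mul (mul_nonneg (Real.rpow_nonneg (ph_nonneg _ _) _)
      (Real.rpow_nonneg (ph_nonneg _ _) _)),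
    ENNReal.ofReal_mul (Real.rpow_nonneg (ph_nonneg _ _) _), g₁.ofReal_ph x hρ0.le,
    g₂.ofReal_ph x hρ0.le, g₃.ofReal_ph x hρ0.le]
  simp only [Matrix.cons_val_zero, Matrix.cons_val_one, Matrix.cons_val]
  ring

omit hP H in
/-- a sequence of truncations that tends to `T` -/
theorem tht_seq (f₁ f₂ f₃ : 𝓢(ℝ, ℂ)) : ∃ e s : ℕ → ℝ, (∀ n, 0 < e n) ∧ (∀ n, e n < s n) ∧
    ∀ x, Tendsto (fun n => truncTHT f₁ f₂ f₃ (e n) (s n) x) atTop (𝓝 (THT f₁ f₂ f₃ x)) := by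
  set e : ℕ → ℝ := fun n => 1 / ((n : ℝ) + 1) with he
  set s : ℕ → ℝ := fun n => 2 + n with hs
  have he0 : ∀ n, 0 < e n := fun n => by rw [he]; positivity
  have hes : ∀ n, e n < s n := fun n => by
    have h1 : (1 : ℝ) / ((n : ℝ) + 1) ≤ 1 := by
      rw [div_le_one (by positivity)]; linarith [(Nat.cast_nonneg n : (0 : ℝ) ≤ n)]
    simp only [he, hs]
    linarith [(Nat.cast_nonneg n : (0 : ℝ) ≤ n)]
  have t1 : Tendsto e atTop (𝓝[>] 0) := by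
    rw [tendsto_nhdsWithin_iff]
    exact ⟨tendsto_one_div_add_atTop_nhds_zero_nat (𝕜 := ℝ), Eventually.of_forall he0⟩
  have t2 : Tendsto s atTop atTop :=
    tendsto_atTop_add_const_left _ _ tendsto_natCast_atTop_atTop
  exact ⟨e, s, he0, hes, fun x => (exists_tendsto_truncTHT f₁ f₂ f₃ x).comp (t1.prodMk t2)⟩

omit hP H in
theorem tht_meas (f₁ f₂ f₃ : 𝓢(ℝ, ℂ)) : Measurable (THT f₁ f₂ f₃) := by
  obtain ⟨e, s, he, hes, hlim⟩ := tht_seq f₁ f₂ f₃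
  exact measurable_of_tendsto_metrizable (fun n => trunc_meas f₁.continuous f₂.continuous
    f₃.continuous (he n) (hes n)) (tendsto_pi_nhds.2 hlim)

theorem domBy_tht {ρ : ℝ} (hρ0 : 0 < ρ) (hρ1 : ρ ≤ 1) (f₁ f₂ f₃ : 𝓢(ℝ, ℂ)) :
    DomBy ρ (Cd ρ P) (THT f₁ f₂ f₃) (Ph f₁ f₂ f₃) := by
  obtain ⟨e, s, he, hes, hlim⟩ := tht_seq f₁ f₂ f₃
  exact DomBy.lim (fun n => trunc_meas f₁.continuous f₂.continuous f₃.continuous (he n) (hes n))
    hlim fun n => domBy_trunc hP H hρ0 hρ1 (good_schwartz f₁) (good_schwartz f₂)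
      (good_schwartz f₃) (he n) (hes n)

/-- **weak type on the closed range**, truncations, good functions of finite norms -/
theorem weak_trunc_good {p₁ p₂ p₃ r : ℝ≥0∞} (h : IsHolderTuple p₁ p₂ p₃ r) (h₁ : 2 ≤ p₁)
    (h₂ : 2 ≤ p₂) (h₃ : 2 ≤ p₃) (hr : r < 2) : ∃ C : ℝ≥0∞, C < ∞ ∧
    ∀ f₁ f₂ f₃ : ℝ → ℂ, Good f₁ → Good f₂ → Good f₃ →
      eLpNorm f₁ p₁ volume ≠ ∞ → eLpNorm f₂ p₂ volume ≠ ∞ → eLpNorm f₃ p₃ volume ≠ ∞ →
      ∀ ε R : ℝ, 0 < ε → ε < R → ∀ l : ℝ, 0 < l →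
      ENNReal.ofReal l * volume {x | l < ‖truncTHT f₁ f₂ f₃ ε R x‖} ^ (1 / r.toReal) ≤
        C * eLpNorm f₁ p₁ volume * eLpNorm f₂ p₂ volume * eLpNorm f₃ p₃ volume := by
  obtain ⟨C, hC, HC⟩ := weak_gen h h₁ h₂ h₃ hr (fun ρ => Cd ρ P) fun ρ => Cd_ne_top ρ P
  exact ⟨C, hC, fun f₁ f₂ f₃ g₁ g₂ g₃ n₁ n₂ n₃ ε R hε hR l hl =>
    HC _ f₁ f₂ f₃ (trunc_meas g₁.cont g₂.cont g₃.cont hε hR) g₁ g₂ g₃ n₁ n₂ n₃
      (fun ρ hρ0 hρ1 => domBy_trunc hP H hρ0 hρ1 g₁ g₂ g₃ hε hR) l hl⟩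

/-- **weak type on the closed range `2 ≤ p_i ≤ ∞`, `r < 2`**: all truncations and `T`, one
constant -/
theorem weak_closed {p₁ p₂ p₃ r : ℝ≥0∞} (h : IsHolderTuple p₁ p₂ p₃ r) (h₁ : 2 ≤ p₁)
    (h₂ : 2 ≤ p₂) (h₃ : 2 ≤ p₃) (hr : r < 2) : ∃ C : ℝ≥0∞, C < ∞ ∧
    ∀ f₁ f₂ f₃ : 𝓢(ℝ, ℂ), ∀ l : ℝ, 0 < l →
      (∀ ε R : ℝ, 0 < ε → ε < R →
        ENNReal.ofReal l * volume {x | l < ‖truncTHT f₁ f₂ f₃ ε R x‖} ^ (1 / r.toReal) ≤
          C * eLpNorm f₁ p₁ volume * eLpNorm f₂ p₂ volume * eLpNorm f₃ p₃ volume) ∧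
      ENNReal.ofReal l * volume {x | l < ‖THT f₁ f₂ f₃ x‖} ^ (1 / r.toReal) ≤
        C * eLpNorm f₁ p₁ volume * eLpNorm f₂ p₂ volume * eLpNorm f₃ p₃ volume := by
  obtain ⟨C, hC, HC⟩ := weak_gen h h₁ h₂ h₃ hr (fun ρ => Cd ρ P) fun ρ => Cd_ne_top ρ P
  refine ⟨C, hC, fun f₁ f₂ f₃ l hl => ?_⟩
  have g₁ := good_schwartz f₁
  have g₂ := good_schwartz f₂
  have g₃ := good_schwartz f₃
  have n₁ := (f₁.eLpNorm_lt_top p₁ volume).ne
  have n₂ := (f₂.eLpNorm_lt_top p₂ volume).ne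
  have n₃ := (f₃.eLpNorm_lt_top p₃ volume).ne
  exact ⟨fun ε R hε hR => HC _ f₁ f₂ f₃ (trunc_meas g₁.cont g₂.cont g₃.cont hε hR) g₁ g₂ g₃
      n₁ n₂ n₃ (fun ρ hρ0 hρ1 => domBy_trunc hP H hρ0 hρ1 g₁ g₂ g₃ hε hR) l hl,
    HC _ f₁ f₂ f₃ (tht_meas f₁ f₂ f₃) g₁ g₂ g₃ n₁ n₂ n₃
      (fun ρ hρ0 hρ1 => domBy_tht hP H hρ0 hρ1 f₁ f₂ f₃) l hl⟩

/-- the `L^s` norm of the truncations against the product of the maximal functions, `0 < s < 2` -/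
theorem Ls_trunc {s : ℝ} (hs0 : 0 < s) (hs2 : s < 2) : ∃ C : ℝ≥0∞, C ≠ ∞ ∧
    ∀ f₁ f₂ f₃ : ℝ → ℂ, Good f₁ → Good f₂ → Good f₃ → ∀ ε R : ℝ, 0 < ε → ε < R →
      ∫⁻ x, ‖truncTHT f₁ f₂ f₃ ε R x‖ₑ ^ s ≤ C * ∫⁻ x, ENNReal.ofReal (Ph f₁ f₂ f₃ x ^ s) := by
  rcases le_or_gt s 1 with hs1 | hs1
  · refine ⟨Cd s P, Cd_ne_top s P, fun f₁ f₂ f₃ g₁ g₂ g₃ ε R hε hR => ?_⟩
    have h1 := domBy_trunc hP H hs0 hs1 g₁ g₂ g₃ hε hR (fun _ => 1) continuous_const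
    simp only [one_mul, norm_one, Real.one_rpow] at h1
    refine h1.trans (mul_le_mul_right (lintegral_mono fun x => mul_le_of_le_one_left' ?_) _)
    refine ENNReal.rpow_le_one ?_ (by positivity)
    simpa using MM_le_ae (G := fun _ => (1 : ℝ)) (b := 1) (fun _ _ => intervalIntegrable_const)
      (ae_of_all _ fun _ => le_rfl) x
  · obtain ⟨C, hC, HC⟩ := Ls_of_dom hs1 hs2 (Cd_ne_top 1 P)
    exact ⟨C, hC, fun f₁ f₂ f₃ g₁ g₂ g₃ ε R hε hR => HC _ _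
      (trunc_cont g₁.cont g₂.cont g₃.cont hε hR) ((g₁.ph_meas.mul g₂.ph_meas).mul g₃.ph_meas)
      (Ph_nonneg _ _ _) (domBy_trunc hP H one_pos le_rfl g₁ g₂ g₃ hε hR)⟩

end

end

end Vale.Agent.N141
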