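import Vale.Agent.N141.FaceA
import Vale.Agent.N141.Wk2

/-!
# P141, boundary of the local range: strong bounds with one function restricted to a set
-/

namespace Vale.Agent.N141.Face

open MeasureTheory Set Filter Topology
open scoped ENNReal SchwartzMap
open Vale.Agent.P141.H530
open Vale.Agent.P141 (truncTHT THT IsHolderTuple)

noncomputable section

theorem nice_of_good {f : ℝ → ℂ} (hf : Good f) : Nice f := by
  obtain ⟨b, hb⟩ := hf.bd
  refine ⟨hf.cont, ⟨√b, fun x => ?_⟩, hf.int⟩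
  refine Real.le_sqrt_of_sq_le ?_
  have := hb x
  rwa [Real.rpow_two] at this

theorem ph_eq (f : ℝ → ℂ) (x : ℝ) : ph f x = U f x := by
  unfold ph U
  rw [ENNReal.toReal_rpow]

theorem Ph_eq (f : Fin 3 → ℝ → ℂ) (x : ℝ) : Ph (f 0) (f 1) (f 2) x = ∏ i, U (f i) x := by
  unfold Ph
  rw [Fin.prod_univ_three, ph_eq, ph_eq, ph_eq]

/-- the exponents with the one of number `j` replaced by `1 / t` -/
def upd (p : Fin 3 → ℝ≥0∞) (j : Fin 3) (t : ℝ) : Fin 3 → ℝ≥0∞ :=
  Function.update p j (ENNReal.ofReal t⁻¹)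

theorem upd_prod (p : Fin 3 → ℝ≥0∞) (j : Fin 3) (t : ℝ) (f : Fin 3 → ℝ → ℂ) :
    ∏ i, eLpNorm (f i) (upd p j t i) volume = eLpNorm (f j) (ENNReal.ofReal t⁻¹) volume *
      ∏ i ∈ Finset.univ.erase j, eLpNorm (f i) (p i) volume := by
  rw [← Finset.mul_prod_erase _ _ (Finset.mem_univ j)]
  congr 1
  · simp [upd]
  · refine Finset.prod_congr rfl fun i hi => ?_
    rw [upd, Function.update_of_ne (Finset.ne_of_mem_erase hi)]

theorem upd_sum {p : Fin 3 → ℝ≥0∞} {r : ℝ≥0∞} (h : IsHolderTuple (p 0) (p 1) (p 2) r) (j : Fin 3)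
    (hj0 : p j ≠ 0) {e : ℝ} (he : 0 < 1 / (p j).toReal + e) :
    0 < 1 / r.toReal + e ∧ (ENNReal.ofReal (1 / r.toReal + e)⁻¹)⁻¹ =
      (upd p j (1 / (p j).toReal + e) 0)⁻¹ + (upd p j (1 / (p j).toReal + e) 1)⁻¹ +
        (upd p j (1 / (p j).toReal + e) 2)⁻¹ := by
  set t : ℝ := 1 / (p j).toReal + e with ht
  set S : ℝ≥0∞ := ∑ i ∈ Finset.univ.erase j, (p i)⁻¹ with hS
  have h1 : r⁻¹ = (p j)⁻¹ + S := by
    rw [h.holder, hS, Finset.add_sum_erase _ (fun i => (p i)⁻¹) (Finset.mem_univ j),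
      Fin.sum_univ_three]
  have h2 : (upd p j t 0)⁻¹ + (upd p j t 1)⁻¹ + (upd p j t 2)⁻¹ = ENNReal.ofReal t + S := by
    rw [← Fin.sum_univ_three (fun i => (upd p j t i)⁻¹),
      ← Finset.add_sum_erase _ _ (Finset.mem_univ j)]
    congr 1
    · rw [upd, Function.update_self, ENNReal.ofReal_inv_of_pos he, inv_inv]
    · refine Finset.sum_congr rfl fun i hi => ?_
      rw [upd, Function.update_of_ne (Finset.ne_of_mem_erase hi)]
  have hr : r⁻¹ ≠ ∞ := ENNReal.inv_ne_top.2 h.r_pos.ne'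
  have hS' : S ≠ ∞ := by
    rw [h1] at hr
    exact (ENNReal.add_ne_top.1 hr).2
  have h3 : 1 / r.toReal = 1 / (p j).toReal + S.toReal := by
    have := congrArg ENNReal.toReal h1
    rw [ENNReal.toReal_add (ENNReal.inv_ne_top.2 hj0) hS', ENNReal.toReal_inv,
      ENNReal.toReal_inv] at this
    rw [one_div, one_div, this]
  have h4 : 1 / r.toReal + e = t + S.toReal := by rw [h3, ht]; ring
  have h5 : 0 ≤ S.toReal := ENNReal.toReal_nonneg
  have h6 : 0 < 1 / r.toReal + e := by rw [h4]; linarith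
  refine ⟨h6, ?_⟩
  rw [h2, ENNReal.ofReal_inv_of_pos h6, inv_inv, h4, ENNReal.ofReal_add he.le h5,
    ENNReal.ofReal_toReal hS']

theorem two_lt_ofReal {t : ℝ} (h0 : 0 < t) (ht : t < 1 / 2) : 2 < ENNReal.ofReal t⁻¹ := by
  have h1 : (2 : ℝ) < t⁻¹ := by
    rw [lt_inv_comm₀ (by norm_num) h0]
    linarith
  have h2 := (ENNReal.ofReal_lt_ofReal_iff_of_nonneg (by norm_num : (0 : ℝ) ≤ 2)).2 h1
  simpa using h2

theorem ofReal_lt_two {t : ℝ} (ht : 1 / 2 < t) : ENNReal.ofReal t⁻¹ < 2 := by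
  have h0 : 0 < t := by linarith
  have h1 : t⁻¹ < 2 := by
    rw [inv_lt_comm₀ h0 (by norm_num)]
    linarith
  have h2 := (ENNReal.ofReal_lt_ofReal_iff (by norm_num : (0 : ℝ) < 2)).2 h1
  simpa using h2

theorem ind_norm {f : ℝ → ℂ} {F : Set ℝ} (hf : ∀ x, ‖f x‖ ≤ F.indicator 1 x) {m t : ℝ}
    (hm : 0 ≤ m) (hF : volume F ≤ ENNReal.ofReal m) (ht : 0 < t) :
    eLpNorm f (ENNReal.ofReal t⁻¹) volume ≤ ENNReal.ofReal (m ^ t) := by
  have h1 : eLpNorm f (ENNReal.ofReal t⁻¹) volume ≤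
      eLpNorm (F.indicator fun _ => (1 : ℝ)) (ENNReal.ofReal t⁻¹) volume :=
    eLpNorm_mono fun x => (hf x).trans (le_abs_self _)
  refine (h1.trans (eLpNorm_indicator_const_le _ _)).trans ?_
  rw [ENNReal.toReal_ofReal (inv_pos.2 ht).le, one_div, inv_inv, enorm_one, one_mul,
    ← ENNReal.ofReal_rpow_of_nonneg hm ht.le]
  exact ENNReal.rpow_le_rpow hF ht.le

theorem vol_of_weak {v : ℝ≥0∞} {l a X : ℝ} (hl : 0 < l) (ha : 0 < a) (hX : 0 ≤ X)
    (h : ENNReal.ofReal l * v ^ (1 / a) ≤ ENNReal.ofReal X) :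
    v ≤ ENNReal.ofReal ((X / l) ^ a) := by
  have h1 : v ^ (1 / a) ≤ ENNReal.ofReal (X / l) := by
    rw [ENNReal.ofReal_div_of_pos hl, ENNReal.le_div_iff_mul_le (Or.inl (by simpa using hl))
      (Or.inl ENNReal.ofReal_ne_top), mul_comm]
    exact h
  have h2 := ENNReal.rpow_le_rpow h1 ha.le
  rwa [← ENNReal.rpow_mul, one_div_mul_cancel ha.ne', ENNReal.rpow_one,
    ENNReal.ofReal_rpow_of_nonneg (by positivity) ha.le] at h2

/-- the form of the bound with real numbers -/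
def RB (p : Fin 3 → ℝ≥0∞) (r : ℝ≥0∞) (j : Fin 3) (c : ℝ) : Prop :=
  ∀ f : Fin 3 → 𝓢(ℝ, ℂ), ∀ F : Set ℝ, (∀ x, ‖f j x‖ ≤ F.indicator 1 x) → ∀ m b : ℝ, 0 < m → 0 < b →
    volume F ≤ ENNReal.ofReal m →
    ∏ i ∈ Finset.univ.erase j, eLpNorm (f i) (p i) volume ≤ ENNReal.ofReal b →
    ∀ ε R : ℝ, 0 < ε → ε < R →
      eLpNorm (truncTHT (f 0) (f 1) (f 2) ε R) r volume ≤
        ENNReal.ofReal (c * m ^ (1 / (p j).toReal) * b)

section
variable {P : ℝ} (hP : 0 ≤ P) (H : ∀ n, Vale.Agent.P141.H337.RootQ 2 n P)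
  {p : Fin 3 → ℝ≥0∞} {r : ℝ≥0∞} (h : IsHolderTuple (p 0) (p 1) (p 2) r) (hp : ∀ i, 2 ≤ p i)
  {j : Fin 3} (hj2 : 2 < p j) (hj : p j ≠ ∞)
include hP H h hp hj2 hj

/-- the weak bound at a moved tuple -/
theorem weak_upd {e : ℝ} (he0 : 0 < 1 / (p j).toReal + e) (he1 : 1 / (p j).toReal + e < 1 / 2)
    (he2 : 1 / 2 < 1 / r.toReal + e) : ∃ c : ℝ, 0 < c ∧
      ∀ f : Fin 3 → 𝓢(ℝ, ℂ), ∀ F : Set ℝ, (∀ x, ‖f j x‖ ≤ F.indicator 1 x) → ∀ m b : ℝ, 0 < m →
      0 < b → volume F ≤ ENNReal.ofReal m →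
      ∏ i ∈ Finset.univ.erase j, eLpNorm (f i) (p i) volume ≤ ENNReal.ofReal b →
      ∀ ε R : ℝ, 0 < ε → ε < R → ∀ c' : ℝ, c ≤ c' → ∀ l : ℝ, 0 < l →
        volume {x | l < ‖truncTHT (f 0) (f 1) (f 2) ε R x‖} ≤ ENNReal.ofReal (m *
          (c' * b * m ^ (1 / (p j).toReal - 1 / r.toReal) / l) ^ (1 / r.toReal + e)⁻¹) := by
  have hj0 : p j ≠ 0 := (lt_trans (by norm_num) hj2).ne'
  obtain ⟨k0, k1⟩ := upd_sum h j hj0 he0
  set t : ℝ := 1 / (p j).toReal + e with ht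
  set s : ℝ := 1 / r.toReal + e with hs
  have hq : ∀ i, 2 ≤ upd p j t i := by
    intro i
    rcases eq_or_ne i j with rfl | hi
    · rw [upd, Function.update_self]
      exact (two_lt_ofReal he0 he1).le
    · rw [upd, Function.update_of_ne hi]
      exact hp i
  have hq1 : ∀ i, 1 < upd p j t i := fun i => lt_of_lt_of_le (by norm_num) (hq i)
  have hT : IsHolderTuple (upd p j t 0) (upd p j t 1) (upd p j t 2) (ENNReal.ofReal s⁻¹) :=
    ⟨hq1 0, hq1 1, hq1 2, by simpa using k0, ENNReal.ofReal_lt_top, k1⟩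
  obtain ⟨C, hC, HC⟩ := weak_closed hP H hT (hq 0) (hq 1) (hq 2) (ofReal_lt_two he2)
  refine ⟨C.toReal + 1, by positivity, fun f F hf m b hm hb hF hB ε R hε hR c' hc' l hl => ?_⟩
  have hc0 : 0 ≤ C.toReal := ENNReal.toReal_nonneg
  have hc1 : 0 < c' := by linarith
  have h1 := (HC (f 0) (f 1) (f 2) l hl).1 ε R hε hR
  have h2 := upd_prod p j t fun i => f i
  rw [Fin.prod_univ_three] at h2
  rw [ENNReal.toReal_ofReal (inv_pos.2 k0).le, mul_assoc, mul_assoc, ← mul_assoc (eLpNorm _ _ _),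
    h2] at h1
  have h3 : C ≤ ENNReal.ofReal c' := by
    rw [← ENNReal.ofReal_toReal hC.ne]
    exact ENNReal.ofReal_le_ofReal (by linarith)
  have h4 := h1.trans (mul_le_mul' h3 (mul_le_mul' (ind_norm hf hm.le hF he0) hB))
  rw [← ENNReal.ofReal_mul (by positivity), ← ENNReal.ofReal_mul hc1.le] at h4
  refine (vol_of_weak hl (inv_pos.2 k0) (by positivity) h4).trans (le_of_eq ?_)
  congr 1
  have e1 : ∀ y : ℝ, 0 ≤ y → m * y ^ s⁻¹ = (m ^ s * y) ^ s⁻¹ := fun y hy => by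
    rw [Real.mul_rpow (by positivity) hy, Real.rpow_rpow_inv hm.le k0.ne']
  rw [e1 _ (by positivity)]
  congr 1
  have e2 : m ^ t = m ^ s * m ^ (1 / (p j).toReal - 1 / r.toReal) := by
    rw [← Real.rpow_add hm]
    congr 1
    rw [ht, hs]
    ring
  rw [e2]
  ring

theorem rb_lt (hr : r < 2) : ∃ c : ℝ, 0 < c ∧ RB p r j c := by
  have hπ : 2 < (p j).toReal := by
    have := (ENNReal.toReal_lt_toReal (by norm_num) hj).2 hj2
    simpa using this
  have hρ0 : 0 < r.toReal := ENNReal.toReal_pos h.r_pos.ne' h.r_lt_top.ne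
  have hρ : r.toReal < 2 := by
    have := (ENNReal.toReal_lt_toReal h.r_lt_top.ne (by norm_num)).2 hr
    simpa using this
  have a0 : 0 < 1 / (p j).toReal := by positivity
  have a1 : 1 / (p j).toReal < 1 / 2 := one_div_lt_one_div_of_lt (by norm_num) hπ
  have a2 : 1 / 2 < 1 / r.toReal := one_div_lt_one_div_of_lt hρ0 hρ
  obtain ⟨d, d0, d1, d2, d3⟩ : ∃ d : ℝ, 0 < d ∧ d < 1 / (p j).toReal ∧
      1 / (p j).toReal + d < 1 / 2 ∧ 1 / 2 + d < 1 / r.toReal := by
    refine ⟨min (1 / (p j).toReal) (min (1 / 2 - 1 / (p j).toReal) (1 / r.toReal - 1 / 2)) / 2,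
      ?_, ?_, ?_, ?_⟩
    · have : 0 < min (1 / (p j).toReal)
          (min (1 / 2 - 1 / (p j).toReal) (1 / r.toReal - 1 / 2)) :=
        lt_min a0 (lt_min (by linarith) (by linarith))
      linarith
    · linarith [min_le_left (1 / (p j).toReal)
        (min (1 / 2 - 1 / (p j).toReal) (1 / r.toReal - 1 / 2))]
    · linarith [min_le_right (1 / (p j).toReal)
        (min (1 / 2 - 1 / (p j).toReal) (1 / r.toReal - 1 / 2)),
        min_le_left (1 / 2 - 1 / (p j).toReal) (1 / r.toReal - 1 / 2)]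
    · linarith [min_le_right (1 / (p j).toReal)
        (min (1 / 2 - 1 / (p j).toReal) (1 / r.toReal - 1 / 2)),
        min_le_right (1 / 2 - 1 / (p j).toReal) (1 / r.toReal - 1 / 2)]
  obtain ⟨c1, hc1, H1⟩ := weak_upd hP H h hp hj2 hj (e := d) (by linarith) d2 (by linarith)
  obtain ⟨c2, hc2, H2⟩ := weak_upd hP H h hp hj2 hj (e := -d) (by linarith) (by linarith)
    (by linarith)
  have b1 : (1 / r.toReal + d)⁻¹ < r.toReal := by
    rw [inv_lt_comm₀ (by linarith) hρ0, ← one_div]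
    linarith
  have b2 : r.toReal < (1 / r.toReal + -d)⁻¹ := by
    rw [lt_inv_comm₀ hρ0 (by linarith), ← one_div]
    linarith
  have hK := Ki_pos hρ0 b1 b2
  refine ⟨Ki (1 / r.toReal + d)⁻¹ (1 / r.toReal + -d)⁻¹ r.toReal ^ (1 / r.toReal) * (c1 + c2),
    by positivity, fun f F hf m b hm hb hF hB ε R hε hR => ?_⟩
  have hme := (trunc_meas (f 0).continuous (f 1).continuous (f 2).continuous hε hR).norm
  have h1 := interp (V := fun x => ‖truncTHT (f 0) (f 1) (f 2) ε R x‖) hme (fun x => norm_nonneg _)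
    hρ0 b1 b2 hm.le (l := (c1 + c2) * b * m ^ (1 / (p j).toReal - 1 / r.toReal)) (by positivity)
    (fun s hs _ => H1 f F hf m b hm hb hF hB ε R hε hR (c1 + c2) (by linarith) s hs)
    (fun s hs => H2 f F hf m b hm hb hF hB ε R hε hR (c1 + c2) (by linarith) s
      (lt_trans (by positivity) hs))
  rw [ENNReal.ofReal_toReal h.r_lt_top.ne, eLpNorm_norm] at h1
  refine h1.trans (le_of_eq ?_)
  congr 1
  have e2 : m ^ (1 / (p j).toReal) =
      m ^ (1 / r.toReal) * m ^ (1 / (p j).toReal - 1 / r.toReal) := by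
    rw [← Real.rpow_add hm]
    congr 1
    ring
  rw [e2]
  ring

theorem rb_two (hr : r = 2) : ∃ c : ℝ, 0 < c ∧ RB p r j c := by
  subst hr
  have hj0 : p j ≠ 0 := (lt_trans (by norm_num) hj2).ne'
  have hπ : 2 < (p j).toReal := by
    have := (ENNReal.toReal_lt_toReal (by norm_num) hj).2 hj2
    simpa using this
  have a0 : 0 < 1 / (p j).toReal := by positivity
  have a1 : 1 / (p j).toReal < 1 / 2 := one_div_lt_one_div_of_lt (by norm_num) hπ
  have hp2 : ∀ i, 2 < p i := by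
    intro i
    rcases eq_or_ne i j with rfl | hi
    · exact hj2
    · have h1 : (p j)⁻¹ + (p i)⁻¹ ≤ ∑ k, (p k)⁻¹ := by
        rw [← Finset.sum_pair (f := fun k => (p k)⁻¹) hi.symm]
        exact Finset.sum_le_sum_of_subset (Finset.subset_univ _)
      rw [Fin.sum_univ_three, ← h.holder] at h1
      have h2 : (p i)⁻¹ < (p j)⁻¹ + (p i)⁻¹ := by
        rw [add_comm]
        exact ENNReal.lt_add_right (ENNReal.inv_ne_top.2 (lt_of_lt_of_le (by norm_num) (hp i)).ne')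
          (ENNReal.inv_ne_zero.2 hj)
      exact ENNReal.inv_lt_inv.1 (h2.trans_le h1)
  obtain ⟨d, d0, d1, d2⟩ : ∃ d : ℝ, 0 < d ∧ d < 1 / (p j).toReal ∧
      1 / (p j).toReal + d < 1 / 2 := by
    refine ⟨min (1 / (p j).toReal) (1 / 2 - 1 / (p j).toReal) / 2, ?_, ?_, ?_⟩
    · have : 0 < min (1 / (p j).toReal) (1 / 2 - 1 / (p j).toReal) := lt_min a0 (by linarith)
      linarith
    · linarith [min_le_left (1 / (p j).toReal) (1 / 2 - 1 / (p j).toReal)]
    · linarith [min_le_right (1 / (p j).toReal) (1 / 2 - 1 / (p j).toReal)]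
  have hq : ∀ t : ℝ, 0 < t → t < 1 / 2 → ∀ i, 2 < upd p j t i := by
    intro t t0 t1 i
    rcases eq_or_ne i j with rfl | hi
    · rw [upd, Function.update_self]
      exact two_lt_ofReal t0 t1
    · rw [upd, Function.update_of_ne hi]
      exact hp2 i
  have t2 : (2 : ℝ≥0∞).toReal = 2 := by norm_num
  obtain ⟨-, k1⟩ := upd_sum h j hj0 (e := d) (by linarith)
  obtain ⟨-, k2⟩ := upd_sum h j hj0 (e := -d) (by linarith)
  rw [t2] at k1 k2
  obtain ⟨C1, hC1, H1⟩ := prod_U (hq _ (by linarith) d2) k1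
  obtain ⟨C2, hC2, H2⟩ := prod_U (hq (1 / (p j).toReal + -d) (by linarith) (by linarith)) k2
  rw [← sub_eq_add_neg (1 / 2 : ℝ)] at H2
  obtain ⟨K, hK, HK⟩ := pair d0 (by linarith)
  set D : ℝ := (Cd 1 P).toReal with hD
  have hD0 : 0 ≤ D := ENNReal.toReal_nonneg
  have hD1 : Cd 1 P = ENNReal.ofReal D := (ENNReal.ofReal_toReal (Cd_ne_top 1 P)).symm
  have c1 : 0 ≤ C1.toReal := ENNReal.toReal_nonneg
  have c2 : 0 ≤ C2.toReal := ENNReal.toReal_nonneg
  refine ⟨D * K * (C1.toReal + C2.toReal) + 1, by positivity,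
    fun f F hf m b hm hb hF hB ε R hε hR => ?_⟩
  set T : ℝ → ℂ := truncTHT (f 0) (f 1) (f 2) ε R with hT
  have hTc : Continuous T := trunc_cont (f 0).continuous (f 1).continuous (f 2).continuous hε hR
  have hN : ∀ i, Nice (f i) := fun i => nice_of_good (good_schwartz (f i))
  set W : ℝ → ℝ := fun x => ∏ i, U (f i) x with hW
  have hWm : Measurable W := Finset.measurable_prod _ fun i _ => U_meas (hN i)
  have hW0 : ∀ x, 0 ≤ W x := fun x => Finset.prod_nonneg fun i _ => U_nonneg _ _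
  have n1 : eLpNorm W (ENNReal.ofReal (1 / 2 + d)⁻¹) volume ≤
      ENNReal.ofReal (C1.toReal * (m ^ (1 / (p j).toReal + d) * b)) := by
    refine (H1 (fun i => f i) hN).trans ?_
    rw [upd_prod, ENNReal.ofReal_mul c1, ENNReal.ofReal_toReal hC1, ENNReal.ofReal_mul (by positivity)]
    exact mul_le_mul_right (mul_le_mul' (ind_norm hf hm.le hF (by linarith)) hB) _
  have n2 : eLpNorm W (ENNReal.ofReal (1 / 2 - d)⁻¹) volume ≤
      ENNReal.ofReal (C2.toReal * (m ^ (1 / (p j).toReal + -d) * b)) := by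
    refine (H2 (fun i => f i) hN).trans ?_
    rw [upd_prod, ENNReal.ofReal_mul c2, ENNReal.ofReal_toReal hC2, ENNReal.ofReal_mul (by positivity)]
    exact mul_le_mul_right (mul_le_mul' (ind_norm hf hm.le hF (by linarith)) hB) _
  set X : ℝ := (D * K * (C1.toReal + C2.toReal) + 1) * m ^ (1 / (p j).toReal) * b with hX
  have hX0 : 0 < X := by positivity
  have hcut : ∀ k : ℕ, eLpNorm (cf k T) 2 volume ≤ ENNReal.ofReal X := by
    intro k
    have hg : Good (cf k T) := good_compact (cf_cont _ hTc) (cf_supp _ _)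
    have hgN := nice_of_good hg
    set G : ℝ := ∫ y, ‖cf k T y‖ ^ (2 : ℝ) with hG
    have hG0 : 0 ≤ G := integral_nonneg fun y => by positivity
    have hGl : ENNReal.ofReal G = ∫⁻ y, ENNReal.ofReal (‖cf k T y‖ ^ (2 : ℝ)) :=
      ofReal_integral_eq_lintegral_ofReal hg.int (ae_of_all _ fun y => by positivity)
    have hnorm : eLpNorm (cf k T) 2 volume = ENNReal.ofReal √G := by
      rw [← eLpNorm_norm, show (2 : ℝ≥0∞) = ENNReal.ofReal 2 by norm_num,
        eLp_eq (fun x => norm_nonneg _) (by norm_num), ← hGl,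
        ENNReal.ofReal_rpow_of_nonneg hG0 (by norm_num), Real.sqrt_eq_rpow]
    rw [hnorm]
    refine ENNReal.ofReal_le_ofReal ?_
    rcases hG0.eq_or_lt with h0 | h0
    · rw [← h0, Real.sqrt_zero]
      exact hX0.le
    have s0 : 0 < √G := Real.sqrt_pos.2 h0
    have h1 := domBy_trunc hP H one_pos le_rfl (good_schwartz (f 0)) (good_schwartz (f 1))
      (good_schwartz (f 2)) hε hR (cf k T) (cf_cont _ hTc)
    have h2 : ENNReal.ofReal G ≤ ∫⁻ x, ‖cf k T x * T x‖ₑ ^ (1 : ℝ) := by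
      rw [hGl]
      refine lintegral_mono fun x => ?_
      rw [ENNReal.rpow_one, ← ofReal_norm, norm_mul, Real.rpow_two, sq]
      exact ENNReal.ofReal_le_ofReal (mul_le_mul_of_nonneg_left (cf_le _ _ _) (norm_nonneg _))
    have h3 : ∀ x, MM (fun y => ‖cf k T y‖ ^ (2 : ℝ)) x ^ ((1 : ℝ) / 2) *
        ENNReal.ofReal (Ph (f 0) (f 1) (f 2) x ^ (1 : ℝ)) =
        ENNReal.ofReal (U (cf k T) x * W x) := by
      intro x
      rw [Real.rpow_one, ← ofReal_U hgN, ENNReal.ofReal_mul (U_nonneg _ _),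
        Ph_eq (fun i => f i)]
    simp only [h3] at h1
    have h4 := HK (U (cf k T)) W (U_meas hgN) hWm (U_nonneg _) hW0 G m h0 hm
      fun s hs => U_weak hgN hs
    have h5 := (h2.trans h1).trans (mul_le_mul_right (h4.trans (mul_le_mul_right
      (add_le_add (mul_le_mul_right n2 _) (mul_le_mul_right n1 _)) _)) _)
    rw [hD1, ← ENNReal.ofReal_mul (by positivity), ← ENNReal.ofReal_mul (by positivity),
      ← ENNReal.ofReal_add (by positivity) (by positivity), ← ENNReal.ofReal_mul (by positivity),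
      ← ENNReal.ofReal_mul hD0] at h5
    have h6 := (ENNReal.ofReal_le_ofReal_iff (by positivity)).1 h5
    have e1 : m ^ d * m ^ (1 / (p j).toReal + -d) = m ^ (1 / (p j).toReal) := by
      rw [← Real.rpow_add hm]
      congr 1
      ring
    have e2 : m ^ (-d) * m ^ (1 / (p j).toReal + d) = m ^ (1 / (p j).toReal) := by
      rw [← Real.rpow_add hm]
      congr 1
      ring
    have e3 : D * (K * √G * (m ^ d * (C2.toReal * (m ^ (1 / (p j).toReal + -d) * b)) +
        m ^ (-d) * (C1.toReal * (m ^ (1 / (p j).toReal + d) * b)))) =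
        √G * (D * K * (C1.toReal + C2.toReal) * m ^ (1 / (p j).toReal) * b) := by
      have e4 : m ^ d * (C2.toReal * (m ^ (1 / (p j).toReal + -d) * b)) =
          C2.toReal * (m ^ d * m ^ (1 / (p j).toReal + -d)) * b := by ring
      have e5 : m ^ (-d) * (C1.toReal * (m ^ (1 / (p j).toReal + d) * b)) =
          C1.toReal * (m ^ (-d) * m ^ (1 / (p j).toReal + d)) * b := by ring
      rw [e4, e5, e1, e2]
      ring
    rw [e3] at h6
    have h7 : √G * √G ≤ √G * (D * K * (C1.toReal + C2.toReal) * m ^ (1 / (p j).toReal) * b) := by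
      rwa [Real.mul_self_sqrt hG0]
    refine (le_of_mul_le_mul_left h7 s0).trans ?_
    have : 0 ≤ m ^ (1 / (p j).toReal) * b := by positivity
    rw [hX]
    nlinarith
  have hlim : ∀ x, Tendsto (fun k : ℕ => cf k T x) atTop (𝓝 (T x)) := by
    intro x
    refine tendsto_const_nhds.congr' ?_
    obtain ⟨k₀, hk₀⟩ := exists_nat_gt |x|
    filter_upwards [eventually_ge_atTop k₀] with k hk
    exact (cf_eq T (hk₀.le.trans (by exact_mod_cast hk))).symm
  refine (Lp.eLpNorm_lim_le_liminf_eLpNorm (fun k => (cf_cont _ hTc).aestronglyMeasurable) T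
    (ae_of_all _ hlim)).trans ?_
  exact liminf_le_of_frequently_le' (Frequently.of_forall hcut)

end

theorem trunc_zero (f : Fin 3 → ℝ → ℂ) {i : Fin 3} (hi : f i = 0) (ε R : ℝ) :
    truncTHT (f 0) (f 1) (f 2) ε R = 0 := by
  funext x
  unfold truncTHT
  fin_cases i
  · have : f 0 = 0 := hi
    simp [this]
  · have : f 1 = 0 := hi
    simp [this]
  · have : f 2 = 0 := hi
    simp [this]

theorem zero_of_norm {f : ℝ → ℂ} (hf : Continuous f) {q : ℝ≥0∞} (hq : q ≠ 0)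
    (h : eLpNorm f q volume = 0) : f = 0 :=
  (hf.ae_eq_iff_eq volume continuous_zero).1
    ((eLpNorm_eq_zero_iff hf.aestronglyMeasurable hq).1 h)

/-- **strong bounds on the closed range, one function restricted to a set** -/
theorem restricted {P : ℝ} (hP : 0 ≤ P) (H : ∀ n, Vale.Agent.P141.H337.RootQ 2 n P)
    (p : Fin 3 → ℝ≥0∞) (r : ℝ≥0∞) (h : IsHolderTuple (p 0) (p 1) (p 2) r) (hp : ∀ i, 2 ≤ p i)
    (hr : r ≤ 2) (j : Fin 3) (hj2 : 2 < p j) (hj : p j < ∞) : ∃ C : ℝ≥0∞, C < ∞ ∧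
      ∀ f : Fin 3 → 𝓢(ℝ, ℂ), ∀ F : Set ℝ, volume F < ∞ → (∀ x, ‖f j x‖ ≤ F.indicator 1 x) →
        (∀ ε R : ℝ, 0 < ε → ε < R → eLpNorm (truncTHT (f 0) (f 1) (f 2) ε R) r volume ≤
          C * volume F ^ (1 / (p j).toReal) *
            ∏ i ∈ Finset.univ.erase j, eLpNorm (f i) (p i) volume) ∧
        eLpNorm (THT (f 0) (f 1) (f 2)) r volume ≤ C * volume F ^ (1 / (p j).toReal) *
          ∏ i ∈ Finset.univ.erase j, eLpNorm (f i) (p i) volume := by
  obtain ⟨c, hc, HC⟩ : ∃ c : ℝ, 0 < c ∧ RB p r j c := by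
    rcases hr.eq_or_lt with h2 | h2
    · exact rb_two hP H h hp hj2 hj.ne h2
    · exact rb_lt hP H h hp hj2 hj.ne h2
  refine ⟨ENNReal.ofReal c, ENNReal.ofReal_lt_top, fun f F hF hf => ?_⟩
  have hp0 : ∀ i, p i ≠ 0 := fun i => (lt_of_lt_of_le (by norm_num) (hp i)).ne'
  set B : ℝ≥0∞ := ∏ i ∈ Finset.univ.erase j, eLpNorm (f i) (p i) volume with hB
  have hBt : B ≠ ∞ := ENNReal.prod_ne_top fun i _ => ((f i).memLp (p i) volume).2.ne
  have h1 : ∀ ε R : ℝ, 0 < ε → ε < R → eLpNorm (truncTHT (f 0) (f 1) (f 2) ε R) r volume ≤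
      ENNReal.ofReal c * volume F ^ (1 / (p j).toReal) * B := by
    intro ε R hε hR
    rcases eq_or_ne B 0 with h0 | h0
    · obtain ⟨i, -, hi⟩ := Finset.prod_eq_zero_iff.1 h0
      rw [trunc_zero (fun i => f i) (zero_of_norm (f i).continuous (hp0 i) hi), eLpNorm_zero]
      exact zero_le
    rcases eq_or_ne (volume F) 0 with h2 | h2
    · have h3 : (f j : ℝ → ℂ) = 0 := by
        refine ((f j).continuous.ae_eq_iff_eq volume continuous_zero).1 ?_
        filter_upwards [measure_eq_zero_iff_ae_notMem.1 h2] with x hx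
        have := hf x
        rw [indicator_of_notMem hx] at this
        exact norm_le_zero_iff.1 this
      rw [trunc_zero (fun i => f i) h3, eLpNorm_zero]
      exact zero_le
    have hm := ENNReal.toReal_pos h2 hF.ne
    have hb := ENNReal.toReal_pos h0 hBt
    refine (HC f F hf _ _ hm hb (ENNReal.ofReal_toReal hF.ne).ge (ENNReal.ofReal_toReal hBt).ge ε R
      hε hR).trans (le_of_eq ?_)
    rw [ENNReal.ofReal_mul (by positivity), ENNReal.ofReal_mul hc.le, ENNReal.ofReal_toReal hBt,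
      ← ENNReal.ofReal_rpow_of_pos hm, ENNReal.ofReal_toReal hF.ne]
  refine ⟨h1, ?_⟩
  obtain ⟨e, s, he, hes, hlim⟩ := tht_seq (f 0) (f 1) (f 2)
  refine (Lp.eLpNorm_lim_le_liminf_eLpNorm (fun n => (trunc_meas (f 0).continuous (f 1).continuous
    (f 2).continuous (he n) (hes n)).aestronglyMeasurable) _ (ae_of_all _ hlim)).trans ?_
  exact liminf_le_of_frequently_le' (Frequently.of_forall fun n => h1 _ _ (he n) (hes n))

end

end Vale.Agent.N141.Face
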