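import Vale.Agent.P141.Defs

open MeasureTheory
open scoped ENNReal

namespace Vale.Agent.N141

/-- The maximal function of exponent `2`: the supremum of the quadratic means of `|f|` over the
intervals `(a, b)` that contain the point `x`. -/
noncomputable def M2 (f : ℝ → ℂ) (x : ℝ) : ℝ≥0∞ :=
  ⨆ (a : ℝ) (b : ℝ) (_ : a < x) (_ : x < b),
    ((∫⁻ y in Set.Ioo a b, ‖f y‖ₑ ^ 2) / ENNReal.ofReal (b - a)) ^ (1 / 2 : ℝ)

end Vale.Agent.N141
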