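import Vale.Agent.N141.BotD

/-!
# P141: from the domination by maximal functions to weak type and to `L^s` bounds
-/

namespace Vale.Agent.N141

open MeasureTheory Filter Topology
open scoped ENNReal
open Vale.Agent.P141.H530
open Vale.Agent.P141 (truncTHT)

noncomputable section

/-- large values of a function of weak type -/
theorem large_part {s ρ : ℝ} (hρ : 0 < ρ) (hρs : ρ < s) : ∃ K : ℝ≥0∞, K ≠ ∞ ∧
    ∀ (Φ : ℝ → ℝ) (B : ℝ≥0∞), Measurable Φ →
      (∀ t : ℝ, 0 < t → volume {x | t < Φ x} ≤ B * ENNReal.ofReal (t ^ (-s))) →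
      ∫⁻ x, ENNReal.ofReal ((if 1 < Φ x then Φ x else 0) ^ ρ) ≤ K * B := by
  set k : ℝ → ℝ≥0∞ := fun t => ENNReal.ofReal (max t 1 ^ (-s)) * ENNReal.ofReal (t ^ (ρ - 1))
    with hk
  have hfin : ∫⁻ t in Set.Ioi 0, k t ≠ ∞ := by
    rw [← Set.Ioc_union_Ioi_eq_Ioi zero_le_one, lintegral_union measurableSet_Ioi
      (Set.Ioc_disjoint_Ioi le_rfl)]
    refine ENNReal.add_ne_top.2 ⟨?_, ?_⟩
    · have h1 : IntegrableOn (fun t : ℝ => t ^ (ρ - 1)) (Set.Ioc 0 1) :=
        (intervalIntegrable_iff_integrableOn_Ioc_of_le zero_le_one).1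
          (intervalIntegral.intervalIntegrable_rpow' (by linarith))
      refine (lt_of_le_of_lt (setLIntegral_mono' measurableSet_Ioc fun t ht => ?_) h1.2).ne
      simp only [hk]
      rw [max_eq_right ht.2, Real.one_rpow, ENNReal.ofReal_one, one_mul]
      exact Real.ofReal_le_enorm _
    · have h1 : IntegrableOn (fun t : ℝ => t ^ (ρ - 1 - s)) (Set.Ioi 1) :=
        integrableOn_Ioi_rpow_of_lt (by linarith) one_pos
      refine (lt_of_le_of_lt (setLIntegral_mono' measurableSet_Ioi fun t ht => ?_) h1.2).ne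
      have ht0 : 0 < t := one_pos.trans ht
      simp only [hk]
      rw [max_eq_left (le_of_lt ht), ← ENNReal.ofReal_mul (Real.rpow_nonneg ht0.le _),
        ← Real.rpow_add ht0, show -s + (ρ - 1) = ρ - 1 - s by ring]
      exact Real.ofReal_le_enorm _
  refine ⟨ENNReal.ofReal ρ * ∫⁻ t in Set.Ioi 0, k t, ENNReal.mul_ne_top ENNReal.ofReal_ne_top hfin,
    fun Φ B hΦ hw => ?_⟩
  have hm : Measurable fun x => if 1 < Φ x then Φ x else 0 :=
    Measurable.ite (measurableSet_lt measurable_const hΦ) hΦ measurable_const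
  rw [lintegral_rpow_eq_lintegral_meas_lt_mul volume (ae_of_all _ fun x => by
    show 0 ≤ if 1 < Φ x then Φ x else 0
    split_ifs with h <;> linarith) hm.aemeasurable hρ, mul_assoc]
  refine mul_le_mul_right ?_ _
  have hkm : Measurable k := by
    simp only [hk]
    fun_prop
  rw [← lintegral_mul_const _ hkm]
  refine setLIntegral_mono' measurableSet_Ioi fun t ht => ?_
  have h1 : {a | t < if 1 < Φ a then Φ a else 0} ⊆ {x | max t 1 < Φ x} := by
    intro a ha
    simp only [Set.mem_ofPred_eq] at ha ⊢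
    split_ifs at ha with h
    · exact max_lt ha h
    · exact absurd ha (not_lt.2 (le_of_lt ht))
  refine (mul_le_mul_left ((measure_mono h1).trans (hw _ (lt_max_of_lt_right one_pos))) _).trans
    (le_of_eq ?_)
  simp only [hk]
  ring

/-- small values of a function of weak type -/
theorem small_part {s b : ℝ} (hs : 0 < s) (hsb : s < b) : ∃ K : ℝ≥0∞, K ≠ ∞ ∧
    ∀ (Φ : ℝ → ℝ) (B : ℝ≥0∞), Measurable Φ → (∀ x, 0 ≤ Φ x) →
      (∀ t : ℝ, 0 < t → volume {x | t < Φ x} ≤ B * ENNReal.ofReal (t ^ (-s))) →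
      ∫⁻ x, ENNReal.ofReal (min (Φ x) 1 ^ b) ≤ K * B := by
  set k : ℝ → ℝ≥0∞ := (Set.Ioc (0 : ℝ) 1).indicator fun t => ENNReal.ofReal (t ^ (b - 1 - s))
    with hk
  have hfin : ∫⁻ t in Set.Ioi 0, k t ≠ ∞ := by
    have h1 : IntegrableOn (fun t : ℝ => t ^ (b - 1 - s)) (Set.Ioc 0 1) :=
      (intervalIntegrable_iff_integrableOn_Ioc_of_le zero_le_one).1
        (intervalIntegral.intervalIntegrable_rpow' (by linarith))
    refine (lt_of_le_of_lt ((setLIntegral_le_lintegral _ _).trans ?_) h1.2).ne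
    rw [hk, lintegral_indicator measurableSet_Ioc]
    exact lintegral_mono fun t => Real.ofReal_le_enorm _
  refine ⟨ENNReal.ofReal b * ∫⁻ t in Set.Ioi 0, k t, ENNReal.mul_ne_top ENNReal.ofReal_ne_top hfin,
    fun Φ B hΦ h0 hw => ?_⟩
  have hm : Measurable fun x => min (Φ x) 1 := hΦ.min measurable_const
  rw [lintegral_rpow_eq_lintegral_meas_lt_mul volume (ae_of_all _ fun x =>
    le_min (h0 x) zero_le_one) hm.aemeasurable (hs.trans hsb), mul_assoc]
  refine mul_le_mul_right ?_ _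
  have hkm : Measurable k := by
    refine Measurable.indicator ?_ measurableSet_Ioc
    fun_prop
  rw [← lintegral_mul_const _ hkm]
  refine setLIntegral_mono' measurableSet_Ioi fun t ht => ?_
  have ht0 : 0 < t := ht
  by_cases h1 : t ≤ 1
  · have h2 : {a | t < min (Φ a) 1} ⊆ {x | t < Φ x} := fun a ha =>
      lt_of_lt_of_le (show t < min (Φ a) 1 from ha) (min_le_left _ _)
    refine (mul_le_mul_left ((measure_mono h2).trans (hw _ ht0)) _).trans (le_of_eq ?_)
    rw [hk, Set.indicator_of_mem (Set.mem_Ioc.2 ⟨ht0, h1⟩), mul_assoc,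
      ← ENNReal.ofReal_mul (Real.rpow_nonneg ht0.le _), ← Real.rpow_add ht0,
      show -s + (b - 1) = b - 1 - s by ring, mul_comm]
  · have h2 : {a | t < min (Φ a) 1} = ∅ := by
      ext a
      simp only [Set.mem_ofPred_eq, Set.mem_empty_iff_false, iff_false, not_lt]
      exact (min_le_right _ _).trans (not_le.1 h1).le
    rw [h2, measure_empty, zero_mul]
    exact zero_le

theorem young_half {x y D α β : ℝ} (hx : 0 ≤ x) (hy : 0 ≤ y) (hD : 0 ≤ D) (hα : 0 < α) (hβ : 0 < β)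
    (h : α + β = 1) : D * (x ^ α * y ^ β) ≤ x / 2 + (D * 2 ^ α) ^ β⁻¹ * y := by
  have h1 : 0 ≤ D * 2 ^ α := by positivity
  have h2 := Real.geom_mean_le_arith_mean2_weighted hα.le hβ.le (by positivity : 0 ≤ x / 2)
    (by positivity : 0 ≤ (D * 2 ^ α) ^ β⁻¹ * y) h
  rw [Real.div_rpow hx (by norm_num), Real.mul_rpow (by positivity) hy,
    Real.rpow_inv_rpow h1 hβ.ne'] at h2
  have h3 : (0 : ℝ) < 2 ^ α := by positivity
  have e : x ^ α / 2 ^ α * (D * 2 ^ α * y ^ β) = D * (x ^ α * y ^ β) := by field_simp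
  rw [e] at h2
  have h4 : 0 ≤ (D * 2 ^ α) ^ β⁻¹ * y := by positivity
  nlinarith

theorem absorb {κ B D E : ℝ≥0∞} (hκ : κ ≠ ∞) (hD : D ≠ ∞) (hE : E ≠ ∞) {α β : ℝ} (hα : 0 < α)
    (hβ : 0 < β) (h : α + β = 1) (H : κ ≤ D * (κ ^ α * B ^ β) + E * B) :
    κ ≤ ENNReal.ofReal (2 * ((D.toReal * 2 ^ α) ^ β⁻¹ + E.toReal) + 1) * B := by
  have hc : 0 ≤ (D.toReal * 2 ^ α) ^ β⁻¹ + E.toReal := by positivity
  rcases eq_or_ne B ∞ with rfl | hB
  · rw [ENNReal.mul_top (by simp only [ne_eq, ENNReal.ofReal_eq_zero, not_le]; linarith)]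
    exact le_top
  have h1 := ENNReal.toReal_mono (by finiteness) H
  rw [ENNReal.toReal_add (by finiteness) (by finiteness), ENNReal.toReal_mul, ENNReal.toReal_mul,
    ENNReal.toReal_mul, ← ENNReal.toReal_rpow, ← ENNReal.toReal_rpow] at h1
  have h2 := young_half (x := κ.toReal) (y := B.toReal) (D := D.toReal) ENNReal.toReal_nonneg
    ENNReal.toReal_nonneg ENNReal.toReal_nonneg hα hβ h
  rw [← ENNReal.ofReal_toReal hκ, ← ENNReal.ofReal_toReal hB, ← ENNReal.ofReal_mul (by linarith)]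
  refine ENNReal.ofReal_le_ofReal ?_
  have h3 : 0 ≤ B.toReal := ENNReal.toReal_nonneg
  nlinarith

/-- the hypothesis of domination of `F` by `Φ`, exponent `ρ`, constant `C` -/
def DomBy (ρ : ℝ) (C : ℝ≥0∞) (F : ℝ → ℂ) (Φ : ℝ → ℝ) : Prop :=
  ∀ g : ℝ → ℂ, Continuous g → ∫⁻ x, ‖g x * F x‖ₑ ^ ρ ≤
    C * ∫⁻ x, MM (fun y => ‖g y‖ ^ (2 : ℝ)) x ^ (ρ / 2) * ENNReal.ofReal (Φ x ^ ρ)

/-- **weak type from the domination** -/
theorem weak_of_dom {s : ℝ} (hs0 : 0 < s) (hs2 : s < 2) : ∃ ρ : ℝ, 0 < ρ ∧ ρ ≤ 1 ∧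
    ∀ C : ℝ≥0∞, C ≠ ∞ → ∃ C' : ℝ≥0∞, C' ≠ ∞ ∧ ∀ (F : ℝ → ℂ) (Φ : ℝ → ℝ) (B : ℝ≥0∞),
      Measurable F → Measurable Φ → (∀ x, 0 ≤ Φ x) → DomBy ρ C F Φ →
      (∀ t : ℝ, 0 < t → volume {x | t < Φ x} ≤ B * ENNReal.ofReal (t ^ (-s))) →
      volume {x | 1 < ‖F x‖} ≤ C' * B := by
  -- the exponents
  have hu : 1 / 2 < s⁻¹ := by
    rw [one_div]
    exact inv_strictAnti₀ hs0 hs2
  set u : ℝ := s⁻¹ with hudef
  set σ : ℝ := (max 1 u + u + 1 / 2) / 2 with hσ
  have m1 := le_max_left 1 u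
  have m2 := le_max_right 1 u
  have m3 : max 1 u < u + 1 / 2 := max_lt (by linarith) (by linarith)
  have hσ1 : 1 < σ := by rw [hσ]; linarith
  have hσu : u < σ := by rw [hσ]; linarith
  set δ : ℝ := u + 1 / 2 - σ with hδ
  have hδ0 : 0 < δ := by rw [hδ, hσ]; linarith
  have hδ1 : δ ≤ 1 / 4 := by rw [hδ, hσ]; linarith
  set ρ : ℝ := σ⁻¹ with hρ
  have hρ0 : 0 < ρ := inv_pos.2 (by linarith)
  have hρ1 : ρ ≤ 1 := inv_le_one_of_one_le₀ hσ1.le
  have hρs : ρ < s := by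
    rw [hρ, ← inv_inv s]
    exact inv_strictAnti₀ (by linarith) hσu
  set b : ℝ := (u - δ / 2)⁻¹ with hb
  have hb' : 0 < u - δ / 2 := by linarith
  have hsb : s < b := by
    rw [hb, ← inv_inv s]
    exact inv_strictAnti₀ hb' (by linarith)
  set p : ℝ := (1 - δ)⁻¹ with hp
  have hp' : 0 < 1 - δ := by linarith
  have hp1 : 1 < p := (one_lt_inv₀ hp').2 (by linarith)
  set α : ℝ := ρ * ((1 - δ) / 2) with hα
  set β : ℝ := ρ * (u - δ / 2) with hβ
  have hα0 : 0 < α := by positivity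
  have hβ0 : 0 < β := by positivity
  have hαβ : α + β = 1 := by
    have e : (1 - δ) / 2 + (u - δ / 2) = σ := by rw [hδ]; ring
    rw [hα, hβ, ← mul_add, e, hρ, inv_mul_cancel₀ (by linarith)]
  have hpα : p * α = ρ / 2 := by
    rw [hp, hα]
    field_simp
  have hbβ : b * β = ρ := by
    rw [hb, hβ, mul_left_comm, inv_mul_cancel₀ hb'.ne', mul_one]
  obtain ⟨K₁, hK₁, hlarge⟩ := large_part hρ0 hρs
  obtain ⟨K₂, hK₂, hsmall⟩ := small_part hs0 hsb
  set c : ℝ≥0∞ := ENNReal.ofReal (p * (8 * 2 ^ (p - 1) / (p - 1))) with hc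
  refine ⟨ρ, hρ0, hρ1, fun C hC => ?_⟩
  set D : ℝ≥0∞ := C * ((c * 2) ^ α * K₂ ^ β) with hD
  have hDt : D ≠ ∞ := ENNReal.mul_ne_top hC (ENNReal.mul_ne_top
    (ENNReal.rpow_ne_top_of_nonneg hα0.le (ENNReal.mul_ne_top ENNReal.ofReal_ne_top (by norm_num)))
    (ENNReal.rpow_ne_top_of_nonneg hβ0.le hK₂))
  refine ⟨ENNReal.ofReal (2 * ((D.toReal * 2 ^ α) ^ β⁻¹ + (C * K₁).toReal) + 1),
    ENNReal.ofReal_ne_top, fun F Φ B hF hΦ h0 hdom hw => ?_⟩
  have hE : MeasurableSet {x | 1 < ‖F x‖} := measurableSet_lt measurable_const hF.norm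
  rw [hE.measure_eq_iSup_isCompact]
  refine iSup_le fun K => iSup_le fun hKE => iSup_le fun hK => ?_
  have hKt : volume K ≠ ∞ := hK.measure_lt_top.ne
  rcases eq_or_ne (volume K) 0 with hK0 | hK0
  · rw [hK0]
    exact zero_le
  refine absorb hKt hDt (ENNReal.mul_ne_top hC hK₁) hα0 hβ0 hαβ ?_
  obtain ⟨U, hKU, hUo, hU⟩ := K.exists_isOpen_lt_of_lt (2 * volume K) (by
    rw [two_mul]
    exact ENNReal.lt_add_right hKt hK0)
  obtain ⟨g, hg1, hg0, -, hg⟩ := exists_continuous_one_zero_of_isCompact hK hUo.isClosed_compl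
    (Set.disjoint_compl_right_iff_subset.2 hKU)
  have hgc : Continuous fun x => (g x : ℂ) := Complex.continuous_ofReal.comp g.continuous
  have h1 := hdom _ hgc
  -- the left side
  have h2 : volume K ≤ ∫⁻ x, ‖(g x : ℂ) * F x‖ₑ ^ ρ := by
    rw [← lintegral_indicator_one hK.measurableSet]
    refine lintegral_mono fun x => ?_
    by_cases hx : x ∈ K
    · rw [Set.indicator_of_mem hx, hg1 hx]
      simp only [Pi.one_apply, Complex.ofReal_one, one_mul]
      refine ENNReal.one_le_rpow ?_ hρ0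
      rw [← ofReal_norm]
      exact ENNReal.one_le_ofReal.2 (le_of_lt (hKE hx))
    · rw [Set.indicator_of_notMem hx]
      exact zero_le
  -- the maximal function of the indicator
  set χ : ℝ → ℝ := U.indicator fun _ => 1 with hχ
  have hUt : volume U ≠ ∞ := (hU.trans (ENNReal.mul_lt_top (by norm_num) hKt.lt_top)).ne
  have hχi : Integrable χ :=
    (integrable_indicator_iff hUo.measurableSet).2 (integrableOn_const hUt)
  have hχ0 : ∀ x, 0 ≤ χ x := fun x => Set.indicator_nonneg (fun _ _ => zero_le_one) x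
  have hχ1 : ∀ x, χ x ≤ 1 := fun x => Set.indicator_le_self' (fun _ _ => zero_le_one) x
  have hχm : Measurable χ := measurable_const.indicator hUo.measurableSet
  have hgχ : ∀ x, MM (fun y => ‖(g y : ℂ)‖ ^ (2 : ℝ)) x ≤ MM χ x := by
    refine MM_mono (fun _ _ => (hgc.norm.rpow_const fun _ => Or.inr zero_le_two).intervalIntegrable
      _ _) (fun _ _ => hχi.intervalIntegrable) fun y => ?_
    by_cases hy : y ∈ U
    · rw [hχ, Set.indicator_of_mem hy, Complex.norm_real, Real.norm_eq_abs, abs_of_nonneg (hg y).1]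
      exact Real.rpow_le_one (hg y).1 (hg y).2 zero_le_two
    · rw [hg0 hy]
      simp [hχ0 y]
  have hM1 : ∀ x, MM χ x ≤ 1 := fun x => by simpa using MM_le hχi hχ1 x
  have hMp : ∫⁻ x, MM χ x ^ p ≤ c * 2 * volume K := by
    refine (strong hp1 hχm hχi hχ0 hχ1).trans ?_
    rw [mul_assoc]
    refine mul_le_mul_right (le_trans (le_of_eq ?_) hU.le) _
    rw [← lintegral_indicator_one hUo.measurableSet]
    refine lintegral_congr fun x => ?_
    by_cases hx : x ∈ U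
    · simp [hχ, hx]
    · simp [hχ, hx, (by linarith : p ≠ 0)]
  have hpt : ∀ x, MM (fun y => ‖(g y : ℂ)‖ ^ (2 : ℝ)) x ^ (ρ / 2) * ENNReal.ofReal (Φ x ^ ρ) ≤
      (MM χ x ^ p) ^ α * ENNReal.ofReal (min (Φ x) 1 ^ b) ^ β +
        ENNReal.ofReal ((if 1 < Φ x then Φ x else 0) ^ ρ) := by
    intro x
    have h3 : MM (fun y => ‖(g y : ℂ)‖ ^ (2 : ℝ)) x ^ (ρ / 2) ≤ MM χ x ^ (ρ / 2) :=
      ENNReal.rpow_le_rpow (hgχ x) (by positivity)
    by_cases hx : 1 < Φ x
    · rw [if_pos hx]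
      refine le_trans ?_ le_add_self
      refine mul_le_of_le_one_left' (h3.trans ?_)
      exact ENNReal.rpow_le_one (hM1 x) (by positivity)
    · refine le_trans (le_trans (mul_le_mul_left h3 _) (le_of_eq ?_)) le_self_add
      rw [min_eq_left (not_lt.1 hx), ← ENNReal.rpow_mul, hpα,
        ENNReal.ofReal_rpow_of_nonneg (Real.rpow_nonneg (h0 x) _) hβ0.le, ← Real.rpow_mul (h0 x),
        hbβ]
  have m1 : Measurable fun x => MM χ x ^ p := (MM_meas hχi).pow_const _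
  have m2 : Measurable fun x => ENNReal.ofReal (min (Φ x) 1 ^ b) :=
    ENNReal.measurable_ofReal.comp ((hΦ.min measurable_const).pow_const _)
  have h3 := lintegral_mono (μ := (volume : Measure ℝ)) hpt
  have m12 : Measurable fun x => (MM χ x ^ p) ^ α * ENNReal.ofReal (min (Φ x) 1 ^ b) ^ β :=
    (m1.pow_const _).mul (m2.pow_const _)
  rw [lintegral_add_left m12] at h3
  have h4 := ENNReal.lintegral_mul_norm_pow_le (μ := (volume : Measure ℝ)) m1.aemeasurable
    m2.aemeasurable hα0.le hβ0.le hαβ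
  have h5 := h4.trans (mul_le_mul' (ENNReal.rpow_le_rpow hMp hα0.le)
    (ENNReal.rpow_le_rpow (hsmall Φ B hΦ h0 hw) hβ0.le))
  refine h2.trans (h1.trans ((mul_le_mul_right (h3.trans (add_le_add h5
    (hlarge Φ B hΦ hw))) _).trans (le_of_eq ?_)))
  rw [hD, ENNReal.mul_rpow_of_nonneg _ _ hα0.le, ENNReal.mul_rpow_of_nonneg K₂ _ hβ0.le]
  ring

/-- **`L^s` bound from the domination**, `1 < s < 2` -/
theorem Ls_of_dom {s : ℝ} (hs1 : 1 < s) (hs2 : s < 2) {C : ℝ≥0∞} (hC : C ≠ ∞) :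
    ∃ C' : ℝ≥0∞, C' ≠ ∞ ∧ ∀ (F : ℝ → ℂ) (Φ : ℝ → ℝ), Continuous F → Measurable Φ →
      (∀ x, 0 ≤ Φ x) → DomBy 1 C F Φ →
      ∫⁻ x, ‖F x‖ₑ ^ s ≤ C' * ∫⁻ x, ENNReal.ofReal (Φ x ^ s) := by
  have hs0 : 0 < s := by linarith
  set β : ℝ := s⁻¹ with hβ
  set α : ℝ := 1 - β with hα
  have hβ0 : 0 < β := inv_pos.2 hs0
  have hβ1 : β < 1 := inv_lt_one_of_one_lt₀ hs1
  have hβ2 : 1 / 2 < β := by
    rw [one_div]
    exact inv_strictAnti₀ hs0 hs2
  have hα0 : 0 < α := by rw [hα]; linarith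
  have hαβ : α + β = 1 := by rw [hα]; ring
  set p : ℝ := (2 * α)⁻¹ with hp
  have hp1 : 1 < p := (one_lt_inv₀ (by positivity)).2 (by rw [hα]; linarith)
  have hpα : p * α = 1 / 2 := by
    rw [hp]
    field_simp
  have hsp : (s - 1) * (2 * p) = s := by
    have e : α = (s - 1) / s := by
      rw [hα, hβ]
      field_simp
    have : s - 1 ≠ 0 := by linarith
    rw [hp, e]
    field_simp
  set c : ℝ≥0∞ := ENNReal.ofReal (p * (8 * 2 ^ (p - 1) / (p - 1))) with hc
  set D : ℝ≥0∞ := C * c ^ α with hD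
  have hDt : D ≠ ∞ :=
    ENNReal.mul_ne_top hC (ENNReal.rpow_ne_top_of_nonneg hα0.le ENNReal.ofReal_ne_top)
  refine ⟨ENNReal.ofReal (2 * ((D.toReal * 2 ^ α) ^ β⁻¹ + (0 : ℝ≥0∞).toReal) + 1),
    ENNReal.ofReal_ne_top, fun F Φ hF hΦ h0 hdom => ?_⟩
  set B := ∫⁻ x, ENNReal.ofReal (Φ x ^ s) with hB
  set A : ℕ → ℝ → ℝ := fun k x => cut k x * ‖F x‖ ^ s with hA
  have hA0 : ∀ k x, 0 ≤ A k x := fun k x =>
    mul_nonneg (cut_nonneg _ _) (Real.rpow_nonneg (norm_nonneg _) _)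
  have hAc : ∀ k, Continuous (A k) := fun k =>
    (cut_cont _).mul (hF.norm.rpow_const fun _ => Or.inr hs0.le)
  have hcs : ∀ k : ℕ, HasCompactSupport (cut k) := fun k =>
    HasCompactSupport.intro (isCompact_Icc (a := -((k : ℝ) + 1)) (b := k + 1)) fun x hx => by
      refine cut_zero ?_
      by_contra h
      exact hx (abs_le.1 (not_le.1 h).le)
  have key : ∀ k : ℕ, ∫⁻ x, ENNReal.ofReal (A k x) ≤
      ENNReal.ofReal (2 * ((D.toReal * 2 ^ α) ^ β⁻¹ + (0 : ℝ≥0∞).toReal) + 1) * B := by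
    intro k
    have hAi : Integrable (A k) := (hAc k).integrable_of_hasCompactSupport (hcs k).mul_right
    have hfin : ∫⁻ x, ENNReal.ofReal (A k x) ≠ ∞ :=
      (lt_of_le_of_lt (lintegral_mono fun x => Real.ofReal_le_enorm _) hAi.2).ne
    refine absorb hfin hDt ENNReal.zero_ne_top hα0 hβ0 hαβ ?_
    rw [zero_mul, add_zero]
    set g : ℝ → ℝ := fun x => cut k x * ‖F x‖ ^ (s - 1) with hg
    have hg0 : ∀ x, 0 ≤ g x := fun x =>
      mul_nonneg (cut_nonneg _ _) (Real.rpow_nonneg (norm_nonneg _) _)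
    have hgc : Continuous g :=
      (cut_cont _).mul (hF.norm.rpow_const fun _ => Or.inr (by linarith))
    have hgs : HasCompactSupport g := (hcs k).mul_right
    have h1 := hdom (fun x => (g x : ℂ)) (Complex.continuous_ofReal.comp hgc)
    have e1 : ∀ x, ‖(g x : ℂ) * F x‖ₑ ^ (1 : ℝ) = ENNReal.ofReal (A k x) := by
      intro x
      rw [ENNReal.rpow_one, ← ofReal_norm, norm_mul, Complex.norm_real, Real.norm_eq_abs,
        abs_of_nonneg (hg0 x)]
      congr 1
      simp only [hg, hA]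
      rw [mul_assoc, ← Real.rpow_add_one' (norm_nonneg _) (by linarith), sub_add_cancel]
    simp only [e1] at h1
    set G : ℝ → ℝ := fun y => ‖(g y : ℂ)‖ ^ (2 : ℝ) with hG
    have hGc : Continuous G :=
      (Complex.continuous_ofReal.comp hgc).norm.rpow_const fun _ => Or.inr zero_le_two
    have hGs : HasCompactSupport G :=
      hgs.comp_left (g := fun t : ℝ => ‖(t : ℂ)‖ ^ (2 : ℝ)) (by simp)
    have hGi : Integrable G := hGc.integrable_of_hasCompactSupport hGs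
    have hG0 : ∀ x, 0 ≤ G x := fun x => Real.rpow_nonneg (norm_nonneg _) _
    obtain ⟨b, hb⟩ := hGs.exists_bound_of_continuous hGc
    have hMp : ∫⁻ x, MM G x ^ p ≤ c * ∫⁻ x, ENNReal.ofReal (A k x) := by
      refine (strong hp1 hGc.measurable hGi hG0 fun x => (le_abs_self _).trans (hb x)).trans ?_
      refine mul_le_mul_right (lintegral_mono fun x => ENNReal.ofReal_le_ofReal ?_) _
      simp only [hG, hA]
      rw [Complex.norm_real, Real.norm_eq_abs, abs_of_nonneg (hg0 x), ← Real.rpow_mul (hg0 x)]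
      simp only [hg]
      rw [Real.mul_rpow (cut_nonneg _ _) (Real.rpow_nonneg (norm_nonneg _) _),
        ← Real.rpow_mul (norm_nonneg _), hsp]
      refine mul_le_mul_of_nonneg_right ?_ (Real.rpow_nonneg (norm_nonneg _) _)
      exact Real.rpow_le_self_of_le_one (cut_nonneg _ _) (cut_le _ _) (by linarith)
    have m1 : Measurable fun x => MM G x ^ p := (MM_meas hGi).pow_const _
    have m2 : Measurable fun x => ENNReal.ofReal (Φ x ^ s) :=
      ENNReal.measurable_ofReal.comp (hΦ.pow_const _)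
    have h4 := ENNReal.lintegral_mul_norm_pow_le (μ := (volume : Measure ℝ)) m1.aemeasurable
      m2.aemeasurable hα0.le hβ0.le hαβ
    have e2 : ∀ x, (MM G x ^ p) ^ α * ENNReal.ofReal (Φ x ^ s) ^ β =
        MM G x ^ ((1 : ℝ) / 2) * ENNReal.ofReal (Φ x ^ (1 : ℝ)) := by
      intro x
      rw [← ENNReal.rpow_mul, hpα, ENNReal.ofReal_rpow_of_nonneg (Real.rpow_nonneg (h0 x) _) hβ0.le,
        ← Real.rpow_mul (h0 x), hβ, mul_inv_cancel₀ hs0.ne']
    simp only [e2] at h4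
    refine h1.trans ((mul_le_mul_right (h4.trans (mul_le_mul_left
      (ENNReal.rpow_le_rpow hMp hα0.le) _)) _).trans (le_of_eq ?_))
    rw [hD, ENNReal.mul_rpow_of_nonneg _ _ hα0.le]
    ring
  have e1 : ∀ x, ‖F x‖ₑ ^ s = liminf (fun k => ENNReal.ofReal (A k x)) atTop := by
    intro x
    have h4 : Tendsto (fun k => ENNReal.ofReal (A k x)) atTop (𝓝 (‖F x‖ₑ ^ s)) := by
      refine tendsto_const_nhds.congr' ?_
      obtain ⟨k₀, hk₀⟩ := exists_nat_gt |x|
      filter_upwards [eventually_ge_atTop k₀] with k hk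
      have h5 : |x| ≤ (k : ℝ) := hk₀.le.trans (by exact_mod_cast hk)
      simp only [hA]
      rw [cut_one h5, one_mul, ← ofReal_norm, ENNReal.ofReal_rpow_of_nonneg (norm_nonneg _) hs0.le]
    exact h4.liminf_eq.symm
  simp only [e1]
  refine (lintegral_liminf_le fun k => ENNReal.measurable_ofReal.comp (hAc k).measurable).trans ?_
  exact liminf_le_of_frequently_le' (Frequently.of_forall key)

/-- the truncations are continuous -/
theorem trunc_cont {g₁ g₂ g₃ : ℝ → ℂ} (h1 : Continuous g₁) (h2 : Continuous g₂) (h3 : Continuous g₃)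
    {ε R : ℝ} (hε : 0 < ε) (hR : ε < R) : Continuous (truncTHT g₁ g₂ g₃ ε R) := by
  have e : truncTHT g₁ g₂ g₃ ε R = fun x => ∫ u in ε..R,
      (g₁ (x - u) * g₂ (x - 2 * u) * g₃ (x - 3 * u) -
        g₁ (x - -u) * g₂ (x - 2 * -u) * g₃ (x - 3 * -u)) / ((max u ε : ℝ) : ℂ) := by
    funext x
    unfold truncTHT
    rw [trunc_eq (W := fun u => g₁ (x - u) * g₂ (x - 2 * u) * g₃ (x - 3 * u)) (by fun_prop) hε hR]
    refine intervalIntegral.integral_congr fun u hu => ?_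
    rw [Set.uIcc_of_le hR.le] at hu
    simp only [max_eq_left hu.1]
  rw [e]
  refine intervalIntegral.continuous_parametric_intervalIntegral_of_continuous' ?_ _ _
  refine Continuous.div (by fun_prop) (by fun_prop) fun p => ?_
  have : 0 < max p.2 ε := lt_max_of_lt_right hε
  exact_mod_cast this.ne'

end

end Vale.Agent.N141
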