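import Vale.Agent.N141.Wk2
import Vale.Agent.N141.MaxDef

/-!
# P141: the domination by maximal functions for all measurable weights
-/

namespace Vale.Agent.N141

open MeasureTheory Filter Topology
open scoped ENNReal SchwartzMap
open Vale.Agent.P141.H530
open Vale.Agent.P141 (truncTHT THT IsHolderTuple)
open Vale.Agent.P141.H337 (RootQ)

noncomputable section

theorem MM_add {F G : ℝ → ℝ} (hF : Integrable F) (hG : Integrable G) (x : ℝ) :
    MM (fun y => F y + G y) x ≤ MM F x + MM G x := by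
  refine iSup_le fun p => ?_
  obtain ⟨⟨t, c⟩, ht, hc⟩ := p
  simp only at ht hc ⊢
  have e1 : mv (fun y => F y + G y) t (x + c) = mv F t (x + c) + mv G t (x + c) := by
    unfold mv
    rw [intervalIntegral.integral_add hF.intervalIntegrable hG.intervalIntegrable]
    ring
  rw [e1]
  exact ENNReal.ofReal_add_le.trans (add_le_add (mv_le_MM F ht (by simpa using hc))
    (mv_le_MM G ht (by simpa using hc)))

/-- the maximal function of a bounded function with bounded support against that of `F` -/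
theorem MM_box {F : ℝ → ℝ} {M : ℝ} (hM0 : 0 < M)
    (hM' : ∀ x, F x ≠ 0 → |x| < M) (hI0 : 0 < ∫ x, F x) {u : ℝ → ℝ} (hui : Integrable u) {B : ℝ}
    (hB : 0 < B) (hu0 : ∀ x, 0 ≤ u x) (huB : ∀ x, u x ≤ B) (hus : ∀ x, M < |x| → u x = 0) (x : ℝ) :
    MM u x ≤ ENNReal.ofReal (6 * M * B / ∫ x, F x) * MM F x := by
  set I : ℝ := ∫ x, F x with hI
  have hfull : ∀ a b : ℝ, a ≤ -M → M ≤ b → ∫ x in a..b, F x = I := by
    intro a b ha hb
    refine intervalIntegral.integral_eq_integral_of_support_subset fun x hx => ?_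
    have := abs_lt.1 (hM' x hx)
    constructor <;> linarith [this.1, this.2]
  have huI : ∫ x, u x ≤ 2 * M * B := by
    have h1 : ∫ x, u x ≤ ∫ x, (Set.Icc (-M) M).indicator (fun _ => B) x := by
      refine integral_mono hui ((integrable_indicator_iff measurableSet_Icc).2
        (integrableOn_const (by simp))) fun x => ?_
      by_cases hx : x ∈ Set.Icc (-M) M
      · rw [Set.indicator_of_mem hx]
        exact huB x
      · rw [Set.indicator_of_notMem hx]
        exact (hus x (by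
          by_contra h
          exact hx (abs_le.1 (not_lt.1 h)))).le
    rw [integral_indicator measurableSet_Icc, setIntegral_const, smul_eq_mul,
      Real.volume_real_Icc_of_le (by linarith)] at h1
    linarith
  refine iSup_le fun p => ?_
  obtain ⟨⟨t, c⟩, ht, hc⟩ := p
  simp only at ht hc ⊢
  by_cases hfar : 16 * t + M < |x + c|
  · have h1 : ∫ y in (x + c - 16 * t)..(x + c + 16 * t), u y = 0 := by
      rw [← intervalIntegral.integral_zero (a := x + c - 16 * t) (b := x + c + 16 * t)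
        (μ := volume)]
      refine intervalIntegral.integral_congr fun y hy => ?_
      rw [Set.uIcc_of_le (by linarith)] at hy
      refine hus y ?_
      rcases lt_abs.1 hfar with h3 | h3
      · exact lt_abs.2 (Or.inl (by linarith [hy.1]))
      · exact lt_abs.2 (Or.inr (by linarith [hy.2]))
    unfold mv
    rw [h1, mul_zero, ENNReal.ofReal_zero]
    exact zero_le
  · have hnear := abs_le.1 (not_lt.1 hfar)
    have ht' : 0 < t + M / 8 := by positivity
    refine le_trans ?_ (mul_le_mul_right (mv_le_MM F ht' (c := x + c) (by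
      rw [add_sub_cancel_left]; linarith)) _)
    rw [← ENNReal.ofReal_mul (by positivity)]
    refine ENNReal.ofReal_le_ofReal ?_
    have h1 : mv F (t + M / 8) (x + c) = (32 * (t + M / 8))⁻¹ * I := by
      unfold mv
      rw [hfull _ _ (by linarith [hnear.2]) (by linarith [hnear.1])]
    have h2 : mv u t (x + c) ≤ B := mv_le huB hui ht _
    have h3 : 32 * t * mv u t (x + c) ≤ 2 * M * B := by
      unfold mv
      rw [mul_inv_cancel_left₀ (by positivity), intervalIntegral.integral_of_le (by linarith)]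
      exact (setIntegral_le_integral hui (ae_of_all _ hu0)).trans huI
    have h4 : 6 * M * B / I * ((32 * (t + M / 8))⁻¹ * I) = 6 * M * B / (32 * t + 4 * M) := by
      field_simp
      ring
    rw [h1, h4, le_div_iff₀ (by positivity)]
    nlinarith

theorem tsum_half_ne_top (c : ℝ) : ∑' k : ℕ, ENNReal.ofReal (c * (1 / 2 : ℝ) ^ k) ≠ ∞ :=
  (summable_geometric_two.mul_left c).tsum_ofReal_ne_top

theorem tendsto_of_le_half {a : ℕ → ℝ≥0∞} (h : ∀ᶠ k in atTop, a k ≤ ENNReal.ofReal ((1 / 2 : ℝ) ^ k)) :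
    Tendsto a atTop (𝓝 0) := by
  have h1 : Tendsto (fun k : ℕ => ENNReal.ofReal ((1 / 2 : ℝ) ^ k)) atTop (𝓝 0) := by
    simpa using ENNReal.tendsto_ofReal
      (tendsto_pow_atTop_nhds_zero_of_lt_one (r := (1 / 2 : ℝ)) (by norm_num) (by norm_num))
  exact tendsto_of_tendsto_of_tendsto_of_le_of_le' tendsto_const_nhds h1
    (Eventually.of_forall fun _ => zero_le) h

/-- the domination for a bounded measurable weight with bounded support -/
theorem DomBy.bdd {ρ : ℝ} (hρ0 : 0 < ρ) (hρ1 : ρ ≤ 1) {C : ℝ≥0∞} (hC : C ≠ ∞) {F : ℝ → ℂ}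
    {Φ : ℝ → ℝ} (hF : Measurable F) (hΦ : Measurable Φ) (h : DomBy ρ C F Φ) {g : ℝ → ℂ}
    (hg : Measurable g) {n : ℝ} (hn : 0 < n) (hgb : ∀ x, ‖g x‖ ≤ n) (hgs : ∀ x, n < |x| → g x = 0) :
    ∫⁻ x, ‖g x * F x‖ₑ ^ ρ ≤
      C * ∫⁻ x, MM (fun y => ‖g y‖ ^ (2 : ℝ)) x ^ (ρ / 2) * ENNReal.ofReal (Φ x ^ ρ) := by
  set G : ℝ → ℝ := fun y => ‖g y‖ ^ (2 : ℝ) with hG
  set ψ : ℝ → ℝ≥0∞ := fun x => ENNReal.ofReal (Φ x ^ ρ) with hψ
  have hψm : Measurable ψ := ENNReal.measurable_ofReal.comp (hΦ.pow_const _)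
  have hGm : Measurable G := hg.norm.pow_const _
  have hG0 : ∀ x, 0 ≤ G x := fun x => Real.rpow_nonneg (norm_nonneg _) _
  set B : ℝ := n ^ (2 : ℝ) with hB
  have hB0 : 0 < B := by positivity
  have hGB : ∀ x, G x ≤ B := fun x => Real.rpow_le_rpow (norm_nonneg _) (hgb x) zero_le_two
  have hGs : ∀ x, n < |x| → G x = 0 := fun x hx => by simp [hG, hgs x hx]
  have hint : ∀ u : ℝ → ℝ, Measurable u → (∀ x, 0 ≤ u x) → (∀ x, u x ≤ B) →
      (∀ x, n + 1 < |x| → u x = 0) → Integrable u := by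
    intro u hum hu0 huB hus
    refine ((integrable_indicator_iff (s := Set.Icc (-(n + 1)) (n + 1)) (f := fun _ => B)
      measurableSet_Icc).2 (integrableOn_const (by simp))).mono' hum.aestronglyMeasurable
      (ae_of_all _ fun x => ?_)
    rw [Real.norm_eq_abs, abs_of_nonneg (hu0 x)]
    by_cases hx : x ∈ Set.Icc (-(n + 1)) (n + 1)
    · rw [Set.indicator_of_mem hx]
      exact huB x
    · rw [Set.indicator_of_notMem hx]
      exact (hus x (by
        by_contra h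
        exact hx (abs_le.1 (not_lt.1 h)))).le
  have hGi : Integrable G := hint G hGm hG0 hGB fun x hx => hGs x (by linarith)
  have eg : ∀ x, ‖g x * F x‖ₑ ^ ρ = ENNReal.ofReal (G x) ^ (ρ / 2) * ‖F x‖ₑ ^ ρ := by
    intro x
    rw [enorm_mul, ENNReal.mul_rpow_of_nonneg _ _ hρ0.le, ← ofReal_norm (g x),
      ← ENNReal.ofReal_rpow_of_nonneg (norm_nonneg _) zero_le_two, ← ENNReal.rpow_mul]
    congr 2
    ring
  have hI0 : 0 ≤ ∫ x, G x := integral_nonneg fun x => hG0 x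
  rcases hI0.eq_or_lt with hI | hI
  · have h1 := (integral_eq_zero_iff_of_nonneg (fun x => hG0 x) hGi).1 hI.symm
    have h2 : ∫⁻ x, ‖g x * F x‖ₑ ^ ρ = 0 := by
      rw [← lintegral_zero (μ := (volume : Measure ℝ))]
      refine lintegral_congr_ae ?_
      filter_upwards [h1] with x hx
      rw [eg, hx]
      simp [hρ0]
    rw [h2]
    exact zero_le
  rcases eq_or_ne (∫⁻ x, MM G x ^ (ρ / 2) * ψ x) ∞ with hJ | hJ
  · rcases eq_or_ne C 0 with rfl | hC0
    · -- the constant is zero: the function vanishes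
      have h1 := h (fun _ => 1) continuous_const
      simp only [one_mul, zero_mul, nonpos_iff_eq_zero] at h1
      have h2 := (lintegral_eq_zero_iff (hF.enorm.pow_const ρ)).1 h1
      have h3 : ∫⁻ x, ‖g x * F x‖ₑ ^ ρ = 0 := by
        rw [← lintegral_zero (μ := (volume : Measure ℝ))]
        refine lintegral_congr_ae ?_
        filter_upwards [h2] with x hx
        rw [eg, hx]
        simp
      rw [h3]
      exact zero_le
    · rw [hJ, ENNReal.mul_top hC0]
      exact le_top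
  -- the approximation
  have hex : ∀ k : ℕ, ∃ w : ℝ → ℝ, (∫ x, ‖G x - w x‖) ≤ (1 / 4 : ℝ) ^ k ∧ Continuous w ∧
      Integrable w := fun k => by
    obtain ⟨w, -, h1, h2, h3⟩ := hGi.exists_hasCompactSupport_integral_sub_le
      (by positivity : (0 : ℝ) < (1 / 4 : ℝ) ^ k)
    exact ⟨w, h1, h2, h3⟩
  choose w hw1 hw2 hw3 using hex
  set W : ℕ → ℝ → ℝ := fun k x => cut n x * max 0 (min B (w k x)) with hW
  have hWc : ∀ k, Continuous (W k) := fun k =>
    (cut_cont n).mul (continuous_const.max (continuous_const.min (hw2 k)))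
  have hcl0 : ∀ k x, 0 ≤ max 0 (min B (w k x)) := fun k x => le_max_left _ _
  have hclB : ∀ k x, max 0 (min B (w k x)) ≤ B := fun k x => max_le hB0.le (min_le_left _ _)
  have hW0 : ∀ k x, 0 ≤ W k x := fun k x => mul_nonneg (cut_nonneg _ _) (hcl0 k x)
  have hWcl : ∀ k x, W k x ≤ max 0 (min B (w k x)) := fun k x =>
    mul_le_of_le_one_left (hcl0 k x) (cut_le _ _)
  have hWB : ∀ k x, W k x ≤ B := fun k x => (hWcl k x).trans (hclB k x)
  have hWs : ∀ k x, n + 1 < |x| → W k x = 0 := fun k x hx => by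
    simp only [hW]
    rw [cut_zero hx.le, zero_mul]
  set u : ℕ → ℝ → ℝ := fun k x => |G x - W k x| with hu
  have hum : ∀ k, Measurable (u k) := fun k => (hGm.sub (hWc k).measurable).abs
  have hu0 : ∀ k x, 0 ≤ u k x := fun k x => abs_nonneg _
  have huB : ∀ k x, u k x ≤ B := fun k x =>
    abs_le.2 ⟨by linarith [hG0 x, hWB k x], by linarith [hGB x, hW0 k x]⟩
  have hus : ∀ k x, n + 1 < |x| → u k x = 0 := fun k x hx => by
    simp only [hu]
    rw [hGs x (by linarith), hWs k x hx, sub_zero, abs_zero]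
  have hui : ∀ k, Integrable (u k) := fun k => hint _ (hum k) (hu0 k) (huB k) (hus k)
  have huw : ∀ k x, u k x ≤ ‖G x - w k x‖ := by
    intro k x
    rw [Real.norm_eq_abs]
    have h1 := hG0 x
    have h2 := hGB x
    by_cases hx : |x| ≤ n
    · simp only [hu, hW]
      rw [cut_one hx, one_mul]
      rcases le_total (w k x) B with h3 | h3
      · rw [min_eq_right h3]
        rcases le_total 0 (w k x) with h4 | h4
        · rw [max_eq_right h4]
        · rw [max_eq_left h4, sub_zero, abs_of_nonneg h1, abs_of_nonneg (by linarith)]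
          linarith
      · rw [min_eq_left h3, max_eq_right hB0.le, abs_of_nonpos (by linarith),
          abs_of_nonpos (by linarith)]
        linarith
    · simp only [hu]
      rw [hGs x (not_le.1 hx), zero_sub, zero_sub, abs_neg, abs_neg, abs_of_nonneg (hW0 k x)]
      exact (hWcl k x).trans (max_le (abs_nonneg _) ((min_le_right _ _).trans (le_abs_self _)))
  have huI : ∀ k, ∫⁻ x, ENNReal.ofReal (u k x) ≤ ENNReal.ofReal ((1 / 4 : ℝ) ^ k) := by
    intro k
    rw [← ofReal_integral_eq_lintegral_ofReal (hui k) (ae_of_all _ (hu0 k))]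
    exact ENNReal.ofReal_le_ofReal ((integral_mono (hui k) (hGi.sub (hw3 k)).norm (huw k)).trans
      (hw1 k))
  have e4 : ∀ k : ℕ, (1 / 4 : ℝ) ^ k = (1 / 2) ^ k * (1 / 2) ^ k := fun k => by
    rw [← mul_pow]; norm_num
  -- almost everywhere limits
  have hae1 : ∀ᵐ x, Tendsto (fun k => MM (u k) x) atTop (𝓝 0) := by
    have h1 : ∀ k : ℕ, volume {x | ENNReal.ofReal ((1 / 2 : ℝ) ^ k) < MM (u k) x} ≤
        ENNReal.ofReal (4 * (1 / 2 : ℝ) ^ k) := by
      intro k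
      refine (weak (hui k) (hu0 k) (by positivity)).trans ((mul_le_mul_right (huI k) _).trans
        (le_of_eq ?_))
      rw [← ENNReal.ofReal_mul (by positivity), e4]
      congr 1
      field_simp
    filter_upwards [ae_eventually_notMem (μ := volume)
      (ne_top_of_le_ne_top (tsum_half_ne_top 4) (ENNReal.tsum_le_tsum h1))] with x hx
    exact tendsto_of_le_half (hx.mono fun k hk => not_lt.1 hk)
  have hae2 : ∀ᵐ x, Tendsto (fun k => W k x) atTop (𝓝 (G x)) := by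
    have h1 : ∀ k : ℕ, volume {x | ENNReal.ofReal ((1 / 2 : ℝ) ^ k) ≤ ENNReal.ofReal (u k x)} ≤
        ENNReal.ofReal (1 * (1 / 2 : ℝ) ^ k) := by
      intro k
      have hp : (0 : ℝ) < (1 / 2) ^ k := by positivity
      refine (meas_ge_le_lintegral_div (ENNReal.measurable_ofReal.comp (hum k)).aemeasurable
        (ENNReal.ofReal_pos.2 hp).ne' ENNReal.ofReal_ne_top).trans ?_
      refine (ENNReal.div_le_div_right (huI k) _).trans (le_of_eq ?_)
      rw [← ENNReal.ofReal_div_of_pos hp, e4]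
      congr 1
      field_simp
    filter_upwards [ae_eventually_notMem (μ := volume)
      (ne_top_of_le_ne_top (tsum_half_ne_top 1) (ENNReal.tsum_le_tsum h1))] with x hx
    have h2 := tendsto_of_le_half (a := fun k => ENNReal.ofReal (u k x))
      (hx.mono fun k hk => (not_le.1 hk).le)
    have h3 : Tendsto (fun k => u k x) atTop (𝓝 0) := by
      have h4 := (ENNReal.tendsto_toReal ENNReal.zero_ne_top).comp h2
      simp only [ENNReal.toReal_zero] at h4
      refine h4.congr fun k => ?_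
      exact ENNReal.toReal_ofReal (hu0 k x)
    rw [tendsto_iff_dist_tendsto_zero]
    refine h3.congr fun k => ?_
    rw [Real.dist_eq, abs_sub_comm]
  -- the error tends to zero
  set c : ℝ≥0∞ := ENNReal.ofReal (6 * (n + 1) * B / ∫ x, G x) with hc
  have herr : Tendsto (fun k => ∫⁻ x, MM (u k) x ^ (ρ / 2) * ψ x) atTop (𝓝 0) := by
    have h1 := tendsto_lintegral_of_dominated_convergence' (μ := (volume : Measure ℝ))
      (F := fun k x => MM (u k) x ^ (ρ / 2) * ψ x) (f := fun _ => 0)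
      (fun x => c ^ (ρ / 2) * (MM G x ^ (ρ / 2) * ψ x))
      (fun k => (((MM_meas (hui k)).pow_const _).mul hψm).aemeasurable)
      (fun k => ae_of_all _ fun x => by
        show MM (u k) x ^ (ρ / 2) * ψ x ≤ c ^ (ρ / 2) * (MM G x ^ (ρ / 2) * ψ x)
        rw [← mul_assoc, ← ENNReal.mul_rpow_of_nonneg _ _ (by positivity)]
        refine mul_le_mul_left (ENNReal.rpow_le_rpow (MM_box (by linarith) (fun y hy => ?_) hI
          (hui k) hB0 (hu0 k) (huB k) (hus k) x) (by positivity)) _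
        by_contra h2
        exact hy (hGs y (by linarith [not_lt.1 h2])))
      (by
        have hct : c ^ (ρ / 2) ≠ ∞ :=
          ENNReal.rpow_ne_top_of_nonneg (by positivity) ENNReal.ofReal_ne_top
        rw [lintegral_const_mul' _ _ hct]
        exact ENNReal.mul_ne_top hct hJ)
      (by
        filter_upwards [hae1] with x hx
        have h2 : Tendsto (fun k => MM (u k) x ^ (ρ / 2)) atTop (𝓝 0) := by
          have h3 := ((ENNReal.continuous_rpow_const (y := ρ / 2)).tendsto _).comp hx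
          rwa [ENNReal.zero_rpow_of_pos (by positivity)] at h3
        simpa using ENNReal.Tendsto.mul_const h2 (Or.inr ENNReal.ofReal_ne_top))
    simpa using h1
  -- the bound for the approximations
  have hk : ∀ k, ∫⁻ x, ENNReal.ofReal (W k x) ^ (ρ / 2) * ‖F x‖ₑ ^ ρ ≤
      C * ((∫⁻ x, MM G x ^ (ρ / 2) * ψ x) + ∫⁻ x, MM (u k) x ^ (ρ / 2) * ψ x) := by
    intro k
    have h1 := h (fun x => ((√(W k x) : ℝ) : ℂ)) (Complex.continuous_ofReal.comp (hWc k).sqrt)
    have e1 : ∀ x, ‖((√(W k x) : ℝ) : ℂ)‖ ^ (2 : ℝ) = W k x := by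
      intro x
      rw [Complex.norm_real, Real.norm_eq_abs, abs_of_nonneg (Real.sqrt_nonneg _), Real.rpow_two,
        Real.sq_sqrt (hW0 k x)]
    have e2 : ∀ x, ‖((√(W k x) : ℝ) : ℂ) * F x‖ₑ ^ ρ =
        ENNReal.ofReal (W k x) ^ (ρ / 2) * ‖F x‖ₑ ^ ρ := by
      intro x
      rw [enorm_mul, ENNReal.mul_rpow_of_nonneg _ _ hρ0.le, ← ofReal_norm ((√(W k x) : ℝ) : ℂ),
        ← e1 x, ← ENNReal.ofReal_rpow_of_nonneg (norm_nonneg _) zero_le_two, ← ENNReal.rpow_mul,
        e1 x]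
      congr 2
      ring
    simp only [e1, e2] at h1
    refine h1.trans (mul_le_mul_right ?_ _)
    have m1 : Measurable fun x => MM G x ^ (ρ / 2) * ψ x := ((MM_meas hGi).pow_const _).mul hψm
    rw [← lintegral_add_left m1]
    refine lintegral_mono fun x => ?_
    have h2 : MM (W k) x ≤ MM G x + MM (u k) x := by
      refine le_trans (MM_mono (fun _ _ => (hWc k).intervalIntegrable _ _)
        (fun _ _ => (hGi.add (hui k)).intervalIntegrable) (fun y => ?_) x) (MM_add hGi (hui k) x)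
      have := neg_abs_le (G y - W k y)
      simp only [hu, Pi.add_apply]
      linarith
    show MM (W k) x ^ (ρ / 2) * ψ x ≤ MM G x ^ (ρ / 2) * ψ x + MM (u k) x ^ (ρ / 2) * ψ x
    rw [← add_mul]
    exact mul_le_mul_left ((ENNReal.rpow_le_rpow h2 (by positivity)).trans
      (ENNReal.rpow_add_le_add_rpow _ _ (by positivity) (by linarith))) _
  have hlim : Tendsto (fun k => C * ((∫⁻ x, MM G x ^ (ρ / 2) * ψ x) +
      ∫⁻ x, MM (u k) x ^ (ρ / 2) * ψ x)) atTop (𝓝 (C * ∫⁻ x, MM G x ^ (ρ / 2) * ψ x)) := by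
    have h1 := ENNReal.Tendsto.const_mul (a := C) (herr.const_add (∫⁻ x, MM G x ^ (ρ / 2) * ψ x))
      (Or.inr hC)
    simpa using h1
  have hfat : ∫⁻ x, ‖g x * F x‖ₑ ^ ρ ≤
      liminf (fun k => ∫⁻ x, ENNReal.ofReal (W k x) ^ (ρ / 2) * ‖F x‖ₑ ^ ρ) atTop := by
    refine le_trans (le_of_eq (lintegral_congr_ae ?_)) (lintegral_liminf_le fun k =>
      ((ENNReal.measurable_ofReal.comp (hWc k).measurable).pow_const _).mul (hF.enorm.pow_const _))
    filter_upwards [hae2] with x hx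
    rw [eg]
    have h1 := ((ENNReal.continuous_rpow_const (y := ρ / 2)).tendsto _).comp
      (ENNReal.tendsto_ofReal hx)
    exact (ENNReal.Tendsto.mul_const h1 (Or.inr
      (ENNReal.rpow_ne_top_of_nonneg hρ0.le enorm_ne_top))).liminf_eq.symm
  refine hfat.trans ?_
  rw [← hlim.liminf_eq]
  exact liminf_le_liminf (Eventually.of_forall hk)

theorem M2_mono {f g : ℝ → ℂ} (h : ∀ y, ‖f y‖ ≤ ‖g y‖) (x : ℝ) : M2 f x ≤ M2 g x := by
  refine iSup_mono fun a => iSup_mono fun b => iSup_mono fun _ => iSup_mono fun _ => ?_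
  refine ENNReal.rpow_le_rpow (ENNReal.div_le_div_right (lintegral_mono fun y => ?_) _)
    (by norm_num)
  refine pow_le_pow_left' ?_ 2
  rw [← ofReal_norm, ← ofReal_norm]
  exact ENNReal.ofReal_le_ofReal (h y)

theorem MM_le_M2 {f : ℝ → ℂ} (hf : Integrable fun y => ‖f y‖ ^ (2 : ℝ)) (x : ℝ) {ρ : ℝ}
    (hρ : 0 ≤ ρ) : MM (fun y => ‖f y‖ ^ (2 : ℝ)) x ^ (ρ / 2) ≤ M2 f x ^ ρ := by
  have h1 : MM (fun y => ‖f y‖ ^ (2 : ℝ)) x ≤ M2 f x ^ (2 : ℝ) := by
    refine iSup_le fun p => ?_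
    obtain ⟨⟨t, c⟩, ht, hc⟩ := p
    simp only at ht hc ⊢
    have h2 := mv_eq_lintegral hf (fun y => Real.rpow_nonneg (norm_nonneg _) _) ht (x + c)
    have hc' := abs_le.1 hc
    have h3 : ((∫⁻ y in Set.Ioo (x + c - 16 * t) (x + c + 16 * t), ‖f y‖ₑ ^ 2) /
        ENNReal.ofReal (x + c + 16 * t - (x + c - 16 * t))) ^ (1 / 2 : ℝ) ≤ M2 f x :=
      le_iSup_of_le (x + c - 16 * t) (le_iSup_of_le (x + c + 16 * t) (le_iSup_of_le
        (by linarith [hc'.2]) (le_iSup_of_le (by linarith [hc'.1]) le_rfl)))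
    refine le_trans (le_of_eq ?_) (ENNReal.rpow_le_rpow h3 zero_le_two)
    have e1 : ∫⁻ y in Set.Ioo (x + c - 16 * t) (x + c + 16 * t), ‖f y‖ₑ ^ 2 =
        ENNReal.ofReal (32 * t * mv (fun y => ‖f y‖ ^ (2 : ℝ)) t (x + c)) := by
      rw [h2, Real.ball_eq_Ioo]
      refine lintegral_congr fun y => ?_
      rw [Real.rpow_two, ENNReal.ofReal_pow (norm_nonneg _), ofReal_norm]
    rw [← ENNReal.rpow_mul, show (1 / 2 : ℝ) * 2 = 1 by norm_num, ENNReal.rpow_one, e1,
      show x + c + 16 * t - (x + c - 16 * t) = 32 * t by ring,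
      ← ENNReal.ofReal_div_of_pos (by positivity), mul_div_cancel_left₀ _ (by positivity)]
  refine (ENNReal.rpow_le_rpow h1 (by positivity)).trans (le_of_eq ?_)
  rw [← ENNReal.rpow_mul]
  congr 1
  ring

theorem Ph_le_M2 {f₁ f₂ f₃ : ℝ → ℂ} (g₁ : Good f₁) (g₂ : Good f₂) (g₃ : Good f₃) (x : ℝ) {ρ : ℝ}
    (hρ : 0 ≤ ρ) :
    ENNReal.ofReal (Ph f₁ f₂ f₃ x ^ ρ) ≤ (M2 f₁ x * M2 f₂ x * M2 f₃ x) ^ ρ := by
  unfold Ph
  rw [Real.mul_rpow (mul_nonneg (ph_nonneg _ _) (ph_nonneg _ _)) (ph_nonneg _ _),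
    Real.mul_rpow (ph_nonneg _ _) (ph_nonneg _ _),
    ENNReal.ofReal_mul (mul_nonneg (Real.rpow_nonneg (ph_nonneg _ _) _)
      (Real.rpow_nonneg (ph_nonneg _ _) _)),
    ENNReal.ofReal_mul (Real.rpow_nonneg (ph_nonneg _ _) _), g₁.ofReal_ph x hρ,
    g₂.ofReal_ph x hρ, g₃.ofReal_ph x hρ, ENNReal.mul_rpow_of_nonneg _ _ hρ,
    ENNReal.mul_rpow_of_nonneg _ _ hρ]
  exact mul_le_mul' (mul_le_mul' (MM_le_M2 g₁.int x hρ) (MM_le_M2 g₂.int x hρ))
    (MM_le_M2 g₃.int x hρ)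

/-- the domination for all measurable weights -/
theorem DomBy.all {ρ : ℝ} (hρ0 : 0 < ρ) (hρ1 : ρ ≤ 1) {C : ℝ≥0∞} (hC : C ≠ ∞) {F : ℝ → ℂ}
    (hF : Measurable F) {f₁ f₂ f₃ : ℝ → ℂ} (g₁ : Good f₁) (g₂ : Good f₂) (g₃ : Good f₃)
    (h : DomBy ρ C F (Ph f₁ f₂ f₃)) {g : ℝ → ℂ} (hg : Measurable g) :
    ∫⁻ x, ‖g x * F x‖ₑ ^ ρ ≤ C * ∫⁻ x, (M2 g x * M2 f₁ x * M2 f₂ x * M2 f₃ x) ^ ρ := by
  set S : ℕ → Set ℝ := fun n => {x | |x| ≤ (n : ℝ) + 1 ∧ ‖g x‖ ≤ (n : ℝ) + 1} with hS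
  have hSm : ∀ n, MeasurableSet (S n) := fun n =>
    (measurableSet_le measurable_id.abs measurable_const).inter
      (measurableSet_le hg.norm measurable_const)
  set γ : ℕ → ℝ → ℂ := fun n => (S n).indicator g with hγ
  have hγm : ∀ n, Measurable (γ n) := fun n => hg.indicator (hSm n)
  have hγg : ∀ n y, ‖γ n y‖ ≤ ‖g y‖ := fun n y => norm_indicator_le_norm_self _ _
  have hγb : ∀ (n : ℕ) y, ‖γ n y‖ ≤ (n : ℝ) + 1 := by
    intro n y
    by_cases hy : y ∈ S n
    · exact (hγg n y).trans hy.2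
    · simp only [hγ, Set.indicator_of_notMem hy, norm_zero]
      positivity
  have hγs : ∀ (n : ℕ) y, (n : ℝ) + 1 < |y| → γ n y = 0 := fun n y hy =>
    Set.indicator_of_notMem (fun h => absurd h.1 (not_le.2 hy)) _
  have hγi : ∀ n, Integrable fun y => ‖γ n y‖ ^ (2 : ℝ) := by
    intro n
    refine ((integrable_indicator_iff (s := Set.Icc (-((n : ℝ) + 1)) (n + 1))
      (f := fun _ => ((n : ℝ) + 1) ^ (2 : ℝ)) measurableSet_Icc).2
      (integrableOn_const (by simp))).mono' ((hγm n).norm.pow_const _).aestronglyMeasurable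
      (ae_of_all _ fun x => ?_)
    rw [Real.norm_eq_abs, abs_of_nonneg (Real.rpow_nonneg (norm_nonneg _) _)]
    by_cases hx : x ∈ Set.Icc (-((n : ℝ) + 1)) (n + 1)
    · rw [Set.indicator_of_mem hx]
      exact Real.rpow_le_rpow (norm_nonneg _) (hγb n x) zero_le_two
    · rw [Set.indicator_of_notMem hx, hγs n x (by
        by_contra h
        exact hx (abs_le.1 (not_lt.1 h)))]
      simp
  have e1 : ∀ x, ‖g x * F x‖ₑ ^ ρ = liminf (fun n => ‖γ n x * F x‖ₑ ^ ρ) atTop := by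
    intro x
    have h4 : Tendsto (fun n => ‖γ n x * F x‖ₑ ^ ρ) atTop (𝓝 (‖g x * F x‖ₑ ^ ρ)) := by
      refine tendsto_const_nhds.congr' ?_
      obtain ⟨k₀, hk₀⟩ := exists_nat_gt (|x| + ‖g x‖)
      filter_upwards [eventually_ge_atTop k₀] with k hk
      have h5 : (k₀ : ℝ) ≤ k := by exact_mod_cast hk
      have h6 : x ∈ S k := ⟨by linarith [norm_nonneg (g x)], by linarith [abs_nonneg x]⟩
      simp only [hγ, Set.indicator_of_mem h6]
    exact h4.liminf_eq.symm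
  simp only [e1]
  have hm : ∀ n, Measurable fun x => γ n x * F x := fun n => (hγm n).mul hF
  refine (lintegral_liminf_le fun n => (hm n).enorm.pow_const ρ).trans ?_
  refine liminf_le_of_frequently_le' (Frequently.of_forall fun n => ?_)
  refine (h.bdd hρ0 hρ1 hC hF ((g₁.ph_meas.mul g₂.ph_meas).mul g₃.ph_meas) (hγm n)
    (by positivity) (hγb n) (hγs n)).trans (mul_le_mul_right (lintegral_mono fun x => ?_) _)
  refine (mul_le_mul' ((MM_le_M2 (hγi n) x hρ0.le).trans (ENNReal.rpow_le_rpow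
    (M2_mono (hγg n) x) hρ0.le)) (Ph_le_M2 g₁ g₂ g₃ x hρ0.le)).trans (le_of_eq ?_)
  rw [← ENNReal.mul_rpow_of_nonneg _ _ hρ0.le]
  congr 1
  ring

section
variable {P : ℝ} (hP : 0 ≤ P) (H : ∀ n, RootQ 2 n P)
include hP H

/-- **domination by the maximal functions, weighted form**: `0 < r ≤ 1`, all measurable `g` -/
theorem dom_M2 {r : ℝ} (hr0 : 0 < r) (hr1 : r ≤ 1) : ∃ C : ℝ≥0∞, C < ∞ ∧
    ∀ (f₁ f₂ f₃ : 𝓢(ℝ, ℂ)) (g : ℝ → ℂ), Measurable g →
      (∀ ε R : ℝ, 0 < ε → ε < R → ∫⁻ x, ‖g x * truncTHT f₁ f₂ f₃ ε R x‖ₑ ^ r ≤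
        C * ∫⁻ x, (M2 g x * M2 f₁ x * M2 f₂ x * M2 f₃ x) ^ r) ∧
      ∫⁻ x, ‖g x * THT f₁ f₂ f₃ x‖ₑ ^ r ≤
        C * ∫⁻ x, (M2 g x * M2 f₁ x * M2 f₂ x * M2 f₃ x) ^ r := by
  refine ⟨Cd r P, (Cd_ne_top r P).lt_top, fun f₁ f₂ f₃ g hg => ?_⟩
  have g₁ := good_schwartz f₁
  have g₂ := good_schwartz f₂
  have g₃ := good_schwartz f₃
  exact ⟨fun ε R hε hR => (domBy_trunc hP H hr0 hr1 g₁ g₂ g₃ hε hR).all hr0 hr1 (Cd_ne_top r P)
      (trunc_meas g₁.cont g₂.cont g₃.cont hε hR) g₁ g₂ g₃ hg,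
    (domBy_tht hP H hr0 hr1 f₁ f₂ f₃).all hr0 hr1 (Cd_ne_top r P) (tht_meas f₁ f₂ f₃) g₁ g₂ g₃ hg⟩

/-- **domination by the maximal functions in `L^r`**, `0 < r < 2` -/
theorem Lr_M2 {r : ℝ} (hr0 : 0 < r) (hr2 : r < 2) : ∃ C : ℝ≥0∞, C < ∞ ∧
    ∀ f₁ f₂ f₃ : 𝓢(ℝ, ℂ),
      (∀ ε R : ℝ, 0 < ε → ε < R → ∫⁻ x, ‖truncTHT f₁ f₂ f₃ ε R x‖ₑ ^ r ≤
        C * ∫⁻ x, (M2 f₁ x * M2 f₂ x * M2 f₃ x) ^ r) ∧
      ∫⁻ x, ‖THT f₁ f₂ f₃ x‖ₑ ^ r ≤ C * ∫⁻ x, (M2 f₁ x * M2 f₂ x * M2 f₃ x) ^ r := by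
  obtain ⟨C, hC, HC⟩ := Ls_trunc hP H hr0 hr2
  refine ⟨C, hC.lt_top, fun f₁ f₂ f₃ => ?_⟩
  have g₁ := good_schwartz f₁
  have g₂ := good_schwartz f₂
  have g₃ := good_schwartz f₃
  have key : ∀ ε R : ℝ, 0 < ε → ε < R → ∫⁻ x, ‖truncTHT f₁ f₂ f₃ ε R x‖ₑ ^ r ≤
      C * ∫⁻ x, (M2 f₁ x * M2 f₂ x * M2 f₃ x) ^ r := fun ε R hε hR =>
    (HC _ _ _ g₁ g₂ g₃ ε R hε hR).trans
      (mul_le_mul_right (lintegral_mono fun x => Ph_le_M2 g₁ g₂ g₃ x hr0.le) _)
  refine ⟨key, ?_⟩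
  obtain ⟨e, s, he, hes, hlim⟩ := tht_seq f₁ f₂ f₃
  have h1 : ∀ x, ‖THT f₁ f₂ f₃ x‖ₑ ^ r =
      liminf (fun n => ‖truncTHT f₁ f₂ f₃ (e n) (s n) x‖ₑ ^ r) atTop := fun x =>
    (((ENNReal.continuous_rpow_const (y := r)).tendsto _).comp
      ((continuous_enorm.tendsto _).comp (hlim x))).liminf_eq.symm
  simp only [h1]
  refine (lintegral_liminf_le fun n => (trunc_meas g₁.cont g₂.cont g₃.cont (he n)
    (hes n)).enorm.pow_const r).trans ?_
  exact liminf_le_of_frequently_le' (Frequently.of_forall fun n => key _ _ (he n) (hes n))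

end

end

end Vale.Agent.N141
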